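import Mathlib
import Vale.Agent.P245.LSI.PLLam
import Vale.Agent.P245.LSI.Posterior

/-!
Borell's lemma and moment bounds for one-dimensional marginals of a midpoint log-concave measure.
-/

open MeasureTheory Set
open scoped ENNReal RealInnerProductSpace
open Vale.Agent.P245.LSI
open Vale.Agent.P262.Gauss

namespace Vale.Agent.P245.SL

variable {n : ℕ} {s : ℝ}

lemma wlc_volume_pi (hs0 : 0 < s) (hs1 : s < 1) (n : ℕ) :
    WLC s (volume : Measure (Fin n → ℝ)) := by
  induction n with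
  | zero =>
    intro f g h _ _ _ hfg
    have hv : (volume : Measure (Fin 0 → ℝ)) = Measure.dirac 0 := by
      rw [volume_pi, Measure.pi_of_empty]
      congr 1
      exact Subsingleton.elim _ _
    simp only [hv, lintegral_dirac]
    simpa using hfg 0 0
  | succ n ih =>
    let L : ℝ × (Fin n → ℝ) →ₗ[ℝ] (Fin (n + 1) → ℝ) :=
      { toFun := fun p => Fin.cons p.1 p.2
        map_add' := fun p q => by
          funext i; refine Fin.cases ?_ (fun j => ?_) i <;> simp
        map_smul' := fun c p => by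
          funext i; refine Fin.cases ?_ (fun j => ?_) i <;> simp }
    have hmp := (volume_preserving_piFinSuccAbove (fun _ : Fin (n + 1) => ℝ) 0).symm
    have e : ⇑(MeasurableEquiv.piFinSuccAbove (fun _ : Fin (n + 1) => ℝ) 0).symm = L := by
      funext p
      simp [MeasurableEquiv.piFinSuccAbove_symm_apply, L, Fin.consEquiv]
    have hLm : Measurable L := e ▸ MeasurableEquiv.measurable _
    have := ((wlc_volume hs0 hs1).prod ih).map L hLm
    rwa [← e, ← Measure.volume_eq_prod, hmp.map_eq] at this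

lemma wlc_volume_euc (hs0 : 0 < s) (hs1 : s < 1) : WLC s (volume : Measure (Euc n)) := by
  have hmp := PiLp.volume_preserving_toLp (Fin n)
  have := (wlc_volume_pi hs0 hs1 n).map
    (WithLp.linearEquiv 2 ℝ (Fin n → ℝ)).symm.toLinearMap (measurable_toLp' n)
  rwa [show ⇑(WithLp.linearEquiv 2 ℝ (Fin n → ℝ)).symm.toLinearMap = WithLp.toLp 2 from rfl,
    hmp.map_eq] at this

variable {ρ : Euc n → ℝ} {ν : Measure (Euc n)} [IsProbabilityMeasure ν]

/-- Borell's lemma at dyadic dilations. -/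
lemma borell_dyadic (hρm : Measurable ρ) (hρ0 : ∀ x, 0 ≤ ρ x)
    (hmid : ∀ x y, ρ x * ρ y ≤ ρ ((2 : ℝ)⁻¹ • (x + y)) ^ 2)
    (hν : ν = volume.withDensity fun x => ENNReal.ofReal (ρ x)) (θ : Euc n) (m : ℝ) {c : ℝ}
    (hK : ν.real {x | c < |⟪x, θ⟫ - m|} ≤ 1 / 4) (k : ℕ) :
    ν.real {x | ((2 : ℝ) ^ (k + 1) - 1) * c < |⟪x, θ⟫ - m|} ≤ (1 / 3 : ℝ) ^ (2 ^ k) := by
  rcases Nat.eq_zero_or_pos k with rfl | hk
  · norm_num
    linarith
  set s : ℝ := ((2 : ℝ)⁻¹) ^ k with hs
  have hs0 : 0 < s := by positivity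
  have hs1 : s < 1 := pow_lt_one₀ (by norm_num) (by norm_num) hk.ne'
  have hs2 : s * (2 : ℝ) ^ (k + 1) = 2 := by
    rw [hs, inv_pow, pow_succ]; field_simp
  set t : ℝ := (2 : ℝ) ^ (k + 1) - 1 with ht
  set S : ℝ → Set (Euc n) := fun a => {x | a < |⟪x, θ⟫ - m|} with hS
  have hSm : ∀ a, MeasurableSet (S a) := fun a =>
    measurableSet_lt measurable_const (by fun_prop)
  have hm : Measurable fun x => ENNReal.ofReal (ρ x) := hρm.ennreal_ofReal
  have key : (ν (S c)ᶜ) ^ (1 - s) * (ν (S (t * c))) ^ s ≤ ν (S c) := by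
    rw [hν, withDensity_apply _ (hSm c), withDensity_apply _ (hSm c).compl,
      withDensity_apply _ (hSm _), ← lintegral_indicator (hSm c),
      ← lintegral_indicator (hSm c).compl, ← lintegral_indicator (hSm _)]
    refine wlc_volume_euc hs0 hs1 _ _ _ (hm.indicator (hSm c).compl) (hm.indicator (hSm _))
      (hm.indicator (hSm c)) fun x y => ?_
    by_cases hx : x ∈ (S c)ᶜ
    · by_cases hy : y ∈ S (t * c)
      · have hz : (1 - s) • x + s • y ∈ S c := by
          simp only [hS, mem_compl_iff, mem_ofPred_eq, not_lt] at hx hy ⊢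
          rw [inner_add_left, real_inner_smul_left, real_inner_smul_left]
          have e : (1 - s) * ⟪x, θ⟫ + s * ⟪y, θ⟫ - m
              = s * (⟪y, θ⟫ - m) + (1 - s) * (⟪x, θ⟫ - m) := by ring
          rw [e]
          have h1 := abs_add_le (s * (⟪y, θ⟫ - m) + (1 - s) * (⟪x, θ⟫ - m))
            (-((1 - s) * (⟪x, θ⟫ - m)))
          rw [add_neg_cancel_right, abs_neg, abs_mul, abs_mul, abs_of_pos hs0,
            abs_of_pos (by linarith : 0 < 1 - s)] at h1
          have h2 := mul_lt_mul_of_pos_left hy hs0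
          have h3 := mul_le_mul_of_nonneg_left hx (by linarith : (0 : ℝ) ≤ 1 - s)
          have h4 : s * (t * c) = 2 * c - s * c := by
            rw [ht]
            linear_combination c * hs2
          linarith
        rw [indicator_of_mem hx, indicator_of_mem hy, indicator_of_mem hz,
          ENNReal.ofReal_rpow_of_nonneg (hρ0 x) (by linarith),
          ENNReal.ofReal_rpow_of_nonneg (hρ0 y) hs0.le,
          ← ENNReal.ofReal_mul (Real.rpow_nonneg (hρ0 x) _)]
        exact ENNReal.ofReal_le_ofReal (rho_dyadic hρ0 hmid k x y)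
      · simp [indicator_of_notMem hy, ENNReal.zero_rpow_of_pos hs0]
    · simp [indicator_of_notMem hx, ENNReal.zero_rpow_of_pos (by linarith : 0 < 1 - s)]
  have key' := ENNReal.toReal_mono (measure_ne_top _ _) key
  rw [ENNReal.toReal_mul, ← ENNReal.toReal_rpow, ← ENNReal.toReal_rpow] at key'
  simp only [← measureReal_def] at key'
  rw [measureReal_compl (hSm c), probReal_univ] at key'
  set a := ν.real (S (t * c)) with ha
  have ha0 : 0 ≤ a := measureReal_nonneg
  have hb : (3 / 4 : ℝ) ≤ (1 - ν.real (S c)) ^ (1 - s) := by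
    have h0 : 0 ≤ ν.real (S c) := measureReal_nonneg
    calc (3 / 4 : ℝ) ≤ 1 - ν.real (S c) := by linarith
      _ ≤ _ := Real.self_le_rpow_of_le_one (by linarith) (by linarith) (by linarith)
  have has : a ^ s ≤ 1 / 3 := by
    have h1 := (mul_le_mul_of_nonneg_right hb (Real.rpow_nonneg ha0 s)).trans (key'.trans hK)
    linarith
  have e : (a ^ s) ^ (2 ^ k : ℕ) = a := by
    rw [← Real.rpow_natCast (a ^ s), ← Real.rpow_mul ha0]
    conv_rhs => rw [← Real.rpow_one a]
    congr 1
    rw [hs, inv_pow]; push_cast; field_simp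
  calc a = (a ^ s) ^ (2 ^ k : ℕ) := e.symm
    _ ≤ _ := pow_le_pow_left₀ (Real.rpow_nonneg ha0 _) has _

/-- Exponential tail of a one-dimensional marginal. -/
lemma borell_tail (hρm : Measurable ρ) (hρ0 : ∀ x, 0 ≤ ρ x)
    (hmid : ∀ x y, ρ x * ρ y ≤ ρ ((2 : ℝ)⁻¹ • (x + y)) ^ 2)
    (hν : ν = volume.withDensity fun x => ENNReal.ofReal (ρ x)) (θ : Euc n) (m : ℝ) {c : ℝ}
    (hc : 0 ≤ c) (hK : ν.real {x | c < |⟪x, θ⟫ - m|} ≤ 1 / 4) (x : ℝ) :
    ν.real {w | x * c < |⟪w, θ⟫ - m|} ≤ 3 * Real.exp (-x / 4) := by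
  rcases lt_or_ge x 1 with hx | hx
  · refine measureReal_le_one.trans ?_
    have := Real.add_one_le_exp (-x / 4)
    linarith
  obtain ⟨k, hk1, hk2⟩ := exists_nat_pow_near (show (1 : ℝ) ≤ (x + 1) / 2 by linarith)
    (show (1 : ℝ) < 2 by norm_num)
  have h1 : ν.real {w | x * c < |⟪w, θ⟫ - m|} ≤
      ν.real {w | ((2 : ℝ) ^ (k + 1) - 1) * c < |⟪w, θ⟫ - m|} := by
    refine measureReal_mono fun w hw => ?_
    refine lt_of_le_of_lt (mul_le_mul_of_nonneg_right ?_ hc) hw
    rw [pow_succ]; linarith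
  refine h1.trans ((borell_dyadic hρm hρ0 hmid hν θ m hK k).trans ?_)
  have h13 : (1 / 3 : ℝ) ≤ Real.exp (-1) := by
    rw [Real.exp_neg, one_div]
    exact inv_anti₀ (Real.exp_pos 1) (by linarith [Real.exp_one_lt_d9])
  calc (1 / 3 : ℝ) ^ (2 ^ k : ℕ) ≤ Real.exp (-1) ^ (2 ^ k : ℕ) :=
        pow_le_pow_left₀ (by norm_num) h13 _
    _ = Real.exp (-(2 : ℝ) ^ k) := by
        rw [← Real.exp_nat_mul]; congr 1; push_cast; ring
    _ ≤ Real.exp (-x / 4) := Real.exp_le_exp.2 (by rw [pow_succ] at hk2; linarith)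
    _ ≤ _ := le_mul_of_one_le_left (Real.exp_pos _).le (by norm_num)

/-- The absolute bound for the exponential moment. -/
noncomputable def expConst : ℝ :=
  ∑' j : ℕ, Real.exp ((j + 1) / 8) * (3 * Real.exp (-((j : ℝ) - 1) / 4))

lemma expConst_summable :
    Summable fun j : ℕ => Real.exp ((j + 1) / 8) * (3 * Real.exp (-((j : ℝ) - 1) / 4)) := by
  have h : Summable fun j : ℕ => (3 * Real.exp (3 / 8)) * Real.exp (-(1 / 8)) ^ j :=
    (summable_geometric_of_lt_one (Real.exp_pos _).le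
      (Real.exp_lt_one_iff.2 (by norm_num))).mul_left _
  refine h.congr fun j => ?_
  rw [← Real.exp_nat_mul]
  rw [mul_left_comm (Real.exp _) 3, mul_assoc, ← Real.exp_add, ← Real.exp_add]
  ring_nf

lemma expConst_nonneg : 0 ≤ expConst := tsum_nonneg fun _ => by positivity

lemma exp_moment_of_tail {u : Euc n → ℝ} (hu : Measurable u) (hu0 : ∀ x, 0 ≤ u x)
    (ht : ∀ x : ℝ, ν.real {w | x < u w} ≤ 3 * Real.exp (-x / 4)) :
    Integrable (fun w => Real.exp (u w / 8)) ν ∧ ∫ w, Real.exp (u w / 8) ∂ν ≤ expConst := by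
  have hle : ∫⁻ w, ENNReal.ofReal (Real.exp (u w / 8)) ∂ν ≤ ENNReal.ofReal expConst := by
    calc ∫⁻ w, ENNReal.ofReal (Real.exp (u w / 8)) ∂ν
        ≤ ∫⁻ w, ∑' j : ℕ, {v | (j : ℝ) - 1 < u v}.indicator
            (fun _ => ENNReal.ofReal (Real.exp ((j + 1) / 8))) w ∂ν := by
          refine lintegral_mono fun w => le_trans ?_ (ENNReal.le_tsum ⌊u w⌋₊)
          have h1 := Nat.floor_le (hu0 w)
          have h2 := Nat.lt_floor_add_one (u w)
          have hw : w ∈ {v | ((⌊u w⌋₊ : ℕ) : ℝ) - 1 < u v} := by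
            show ((⌊u w⌋₊ : ℕ) : ℝ) - 1 < u w
            linarith
          rw [indicator_of_mem hw]
          exact ENNReal.ofReal_le_ofReal (Real.exp_le_exp.2 (by linarith))
      _ = ∑' j : ℕ, ENNReal.ofReal (Real.exp ((j + 1) / 8)) * ν {v | (j : ℝ) - 1 < u v} := by
          rw [lintegral_tsum fun j =>
            (measurable_const.indicator (measurableSet_lt measurable_const hu)).aemeasurable]
          exact tsum_congr fun j =>
            lintegral_indicator_const (measurableSet_lt measurable_const hu) _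
      _ ≤ ∑' j : ℕ, ENNReal.ofReal
            (Real.exp ((j + 1) / 8) * (3 * Real.exp (-((j : ℝ) - 1) / 4))) := by
          refine ENNReal.tsum_le_tsum fun j => ?_
          rw [ENNReal.ofReal_mul (Real.exp_pos _).le, ← ofReal_measureReal]
          gcongr
          exact ht _
      _ = ENNReal.ofReal expConst :=
          (ENNReal.ofReal_tsum_of_nonneg (fun _ => by positivity) expConst_summable).symm
  have hm : AEStronglyMeasurable (fun w => Real.exp (u w / 8)) ν :=
    (by fun_prop : Measurable fun w => Real.exp (u w / 8)).aestronglyMeasurable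
  refine ⟨(lintegral_ofReal_ne_top_iff_integrable hm
    (Filter.Eventually.of_forall fun w => (Real.exp_pos _).le)).1
      (ne_top_of_le_ne_top ENNReal.ofReal_ne_top hle), ?_⟩
  rw [integral_eq_lintegral_of_nonneg_ae
    (Filter.Eventually.of_forall fun w => (Real.exp_pos _).le) hm]
  exact (ENNReal.toReal_mono ENNReal.ofReal_ne_top hle).trans_eq
    (ENNReal.toReal_ofReal expConst_nonneg)

/-- Fourth moment and first moment on sets for one-dimensional marginals. -/
theorem borell_moments : ∃ κ : ℝ, 1 ≤ κ ∧ ∀ {n : ℕ} {ρ : Euc n → ℝ}, Measurable ρ → (∀ x, 0 ≤ ρ x) →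
    (∀ x y, ρ x * ρ y ≤ ρ ((2 : ℝ)⁻¹ • (x + y)) ^ 2) →
    ∀ {ν : Measure (Euc n)} [IsProbabilityMeasure ν],
    ν = volume.withDensity (fun x => ENNReal.ofReal (ρ x)) →
    ∀ θ : Euc n, Integrable (fun x => ⟪x, θ⟫ ^ 2) ν →
      let m := ∫ x, ⟪x, θ⟫ ∂ν
      let lam := ∫ x, (⟪x, θ⟫ - m) ^ 2 ∂ν
      Integrable (fun x => (⟪x, θ⟫ - m) ^ 4) ν ∧
      ∫ x, (⟪x, θ⟫ - m) ^ 4 ∂ν ≤ κ * lam ^ 2 ∧
      ∀ B : Set (Euc n), MeasurableSet B → ∀ L : ℝ, 0 ≤ L →
        ∫ x in B, |⟪x, θ⟫ - m| ∂ν ≤ κ * Real.sqrt lam * (ν.real B * (L + 1) + Real.exp (-L)) := by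
  have hS0 := expConst_nonneg
  refine ⟨1 + 16 * 32 ^ 4 * expConst + 16 + 16 * expConst, by linarith, ?_⟩
  intro n ρ hρm hρ0 hmid ν hP hν θ hint m lam
  set κ := 1 + 16 * 32 ^ 4 * expConst + 16 + 16 * expConst
  set z : Euc n → ℝ := fun x => ⟪x, θ⟫ - m with hz
  have hzm : Measurable z := by fun_prop
  have h2 : MemLp (fun x : Euc n => ⟪x, θ⟫) 2 ν :=
    (memLp_two_iff_integrable_sq (by fun_prop)).2 hint
  have hz2 : Integrable (fun x => z x ^ 2) ν := (h2.sub (memLp_const m)).integrable_sq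
  have hlam0 : 0 ≤ lam := integral_nonneg fun x => sq_nonneg _
  rcases hlam0.eq_or_lt with h0 | hpos
  · have hz0 : (fun x => z x ^ 2) =ᵐ[ν] 0 :=
      (integral_eq_zero_iff_of_nonneg (fun x => sq_nonneg _) hz2).1 h0.symm
    have hz0' : z =ᵐ[ν] 0 := by
      filter_upwards [hz0] with x hx
      simpa using hx
    have hz4 : (fun x => z x ^ 4) =ᵐ[ν] fun _ => (0 : ℝ) := by
      filter_upwards [hz0'] with x hx
      simp [hx]
    refine ⟨(integrable_zero _ _ _).congr hz4.symm, ?_, fun B _ L _ => ?_⟩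
    · rw [integral_congr_ae hz4, integral_zero]
      have : 0 ≤ κ := by positivity
      positivity
    · rw [integral_eq_zero_of_ae]
      · rw [← h0, Real.sqrt_zero, mul_zero, zero_mul]
      · filter_upwards [ae_restrict_of_ae hz0'] with x hx
        simp only [hz, Pi.zero_apply] at hx ⊢
        simp [hx]
  set c := 2 * Real.sqrt lam with hc
  have hc0 : 0 < c := by positivity
  have hc2 : c ^ 2 = 4 * lam := by rw [hc, mul_pow, Real.sq_sqrt hlam0]; norm_num
  have hK : ν.real {x | c < |z x|} ≤ 1 / 4 := by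
    have h := mul_meas_ge_le_integral_of_nonneg
      (Filter.Eventually.of_forall fun x => sq_nonneg (z x)) hz2 (c ^ 2)
    have h' : ν.real {x | c < |z x|} ≤ ν.real {x | c ^ 2 ≤ z x ^ 2} := by
      refine measureReal_mono fun x hx => ?_
      show c ^ 2 ≤ z x ^ 2
      rw [← sq_abs (z x)]
      exact pow_le_pow_left₀ hc0.le (le_of_lt hx) 2
    refine h'.trans ?_
    have h4 : c ^ 2 * ν.real {x | c ^ 2 ≤ z x ^ 2} ≤ lam := h
    rw [hc2] at h4 ⊢
    nlinarith
  set u : Euc n → ℝ := fun x => |z x| / c with hu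
  have hum : Measurable u := by fun_prop
  have hu0 : ∀ x, 0 ≤ u x := fun x => by positivity
  have huc : ∀ x, |z x| = c * u x := fun x => by rw [hu]; field_simp
  obtain ⟨hE, hEle⟩ := exp_moment_of_tail (ν := ν) hum hu0 fun x => by
    have e : {w | x < u w} = {w | x * c < |z w|} := by
      ext w; exact lt_div_iff₀ hc0
    rw [e]
    exact borell_tail hρm hρ0 hmid hν θ m hc0.le hK x
  have hp4 : ∀ x, z x ^ 4 ≤ c ^ 4 * 32 ^ 4 * Real.exp (u x / 8) := fun x => by
    have h1 : (u x / 32) ^ 4 ≤ Real.exp (u x / 32) ^ 4 :=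
      pow_le_pow_left₀ (by linarith [hu0 x]) (by linarith [Real.add_one_le_exp (u x / 32)]) 4
    rw [← Real.exp_nat_mul, show ((4 : ℕ) : ℝ) * (u x / 32) = u x / 8 by push_cast; ring,
      div_pow, div_le_iff₀ (by norm_num)] at h1
    calc z x ^ 4 = |z x| ^ 4 := by rw [pow_abs, abs_of_nonneg (by positivity)]
      _ = c ^ 4 * u x ^ 4 := by rw [huc, mul_pow]
      _ ≤ c ^ 4 * (Real.exp (u x / 8) * 32 ^ 4) := by gcongr
      _ = _ := by ring
  have hi4 : Integrable (fun x => z x ^ 4) ν :=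
    (hE.const_mul (c ^ 4 * 32 ^ 4)).mono' (by fun_prop : Measurable fun x => z x ^ 4).aestronglyMeasurable
      (Filter.Eventually.of_forall fun x => by
        rw [Real.norm_of_nonneg (by positivity)]; exact hp4 x)
  refine ⟨hi4, ?_, fun B hB L hL => ?_⟩
  · calc ∫ x, z x ^ 4 ∂ν ≤ ∫ x, c ^ 4 * 32 ^ 4 * Real.exp (u x / 8) ∂ν :=
          integral_mono hi4 (hE.const_mul _) hp4
      _ ≤ c ^ 4 * 32 ^ 4 * expConst := by
          rw [integral_const_mul]; gcongr
      _ = 16 * 32 ^ 4 * expConst * lam ^ 2 := by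
          rw [show c ^ 4 = (c ^ 2) ^ 2 by ring, hc2]; ring
      _ ≤ κ * lam ^ 2 := by
          gcongr
          show _ ≤ 1 + 16 * 32 ^ 4 * expConst + 16 + 16 * expConst
          linarith
  · have hp : ∀ x, |z x| ≤ c * (8 * L) + c * (8 * Real.exp (-L)) * Real.exp (u x / 8) := fun x => by
      have h1 := Real.add_one_le_exp (u x / 8 - L)
      rw [sub_eq_add_neg (u x / 8), Real.exp_add] at h1
      rw [huc, mul_assoc c, ← mul_add]
      gcongr
      linarith
    have hiz : Integrable (fun x => |z x|) ν :=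
      ((h2.sub (memLp_const m)).integrable (by norm_num)).abs
    calc ∫ x in B, |z x| ∂ν
        ≤ ∫ x in B, (c * (8 * L) + c * (8 * Real.exp (-L)) * Real.exp (u x / 8)) ∂ν :=
          setIntegral_mono hiz.integrableOn
            ((integrable_const _).add (hE.const_mul _)).integrableOn hp
      _ = c * (8 * L) * ν.real B
            + c * (8 * Real.exp (-L)) * ∫ x in B, Real.exp (u x / 8) ∂ν := by
          rw [integral_add (integrable_const _).integrableOn (hE.const_mul _).integrableOn,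
            setIntegral_const, integral_const_mul, smul_eq_mul, mul_comm (ν.real B)]
      _ ≤ c * (8 * L) * ν.real B + c * (8 * Real.exp (-L)) * expConst := by
          gcongr
          exact (setIntegral_le_integral hE
            (Filter.Eventually.of_forall fun x => (Real.exp_pos _).le)).trans hEle
      _ = Real.sqrt lam * (16 * (ν.real B * L) + 16 * expConst * Real.exp (-L)) := by
          rw [hc]; ring
      _ ≤ Real.sqrt lam * (κ * (ν.real B * (L + 1)) + κ * Real.exp (-L)) := by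
          have hB0 : 0 ≤ ν.real B := measureReal_nonneg
          have h16 : (16 : ℝ) ≤ κ := by
            show _ ≤ 1 + 16 * 32 ^ 4 * expConst + 16 + 16 * expConst
            linarith
          have h16' : 16 * expConst ≤ κ := by
            show _ ≤ 1 + 16 * 32 ^ 4 * expConst + 16 + 16 * expConst
            linarith
          gcongr
          linarith
      _ = κ * Real.sqrt lam * (ν.real B * (L + 1) + Real.exp (-L)) := by ring

end Vale.Agent.P245.SL
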