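import Mathlib
import Vale.Agent.P245.Sub.Calc

/-!
Calculus of exponential tilts `exp (⟪c, x⟫ - s ‖x‖² / 2)` of a boundedly supported measure: functions
of `(s, c)` carried together with their time derivative, gradient and diagonal second derivatives.
-/

open MeasureTheory Filter Set
open scoped RealInnerProductSpace Topology
open Vale.Agent.P245.Sub

namespace Vale.Agent.P245.SL

variable {n : ℕ}

/-- The tilt weight. -/
noncomputable def ew (s : ℝ) (c x : Euc n) : ℝ := Real.exp (⟪c, x⟫ - s / 2 * ‖x‖ ^ 2)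

/-- Tilted integral. -/
noncomputable def U (μ : Measure (Euc n)) (f : Euc n → ℝ) (s : ℝ) (c : Euc n) : ℝ :=
  ∫ x, f x * ew s c x ∂μ

/-- A function of `(s, c)` with its derivatives. -/
structure TD (n : ℕ) where
  /-- the value -/
  val : ℝ → Euc n → ℝ
  /-- the time derivative -/
  dt : ℝ → Euc n → ℝ
  /-- the gradient -/
  g : Fin n → ℝ → Euc n → ℝ
  /-- the diagonal of the Hessian -/
  h : Fin n → ℝ → Euc n → ℝ

/-- Exponential growth bound, locally uniform in time. -/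
def Gr (F : ℝ → Euc n → ℝ) : Prop :=
  ∀ T : ℝ, ∃ C a : ℝ, 0 ≤ C ∧ 0 ≤ a ∧ ∀ s ∈ Icc 0 T, ∀ c, |F s c| ≤ C * Real.exp (a * ‖c‖)

/-- The derivatives recorded in a `TD` are correct, continuous and of exponential growth. -/
structure TD.Ok (F : TD n) : Prop where
  diff : ∀ s, Differentiable ℝ (F.val s)
  diff_g : ∀ i s, Differentiable ℝ (F.g i s)
  cont_dt : ∀ s, Continuous (F.dt s)
  cont_h : ∀ i s, Continuous (F.h i s)
  pd_val : ∀ i s c, pd i (F.val s) c = F.g i s c
  pd_g : ∀ i s c, pd i (F.g i s) c = F.h i s c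
  curve : ∀ σ : ℝ, 0 < σ → ∀ ξ : Euc n, HasDerivAt (fun σ => F.val σ (Real.sqrt σ • ξ))
    (F.dt σ (Real.sqrt σ • ξ) + ∑ i, ξ i / (2 * Real.sqrt σ) * F.g i σ (Real.sqrt σ • ξ)) σ
  curve0 : ∀ ξ : Euc n, ContinuousOn (fun σ => F.val σ (Real.sqrt σ • ξ)) (Ici 0)
  gr_val : Gr F.val
  gr_dt : Gr F.dt
  gr_g : ∀ i, Gr (F.g i)
  gr_h : ∀ i, Gr (F.h i)

namespace TD

/-- A constant. -/
def const (n : ℕ) (k : ℝ) : TD n :=
  ⟨fun _ _ => k, fun _ _ => 0, fun _ _ _ => 0, fun _ _ _ => 0⟩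

/-- Sum. -/
def add (F G : TD n) : TD n :=
  ⟨fun s c => F.val s c + G.val s c, fun s c => F.dt s c + G.dt s c,
    fun i s c => F.g i s c + G.g i s c, fun i s c => F.h i s c + G.h i s c⟩

/-- Product. -/
def mul (F G : TD n) : TD n :=
  ⟨fun s c => F.val s c * G.val s c, fun s c => F.dt s c * G.val s c + F.val s c * G.dt s c,
    fun i s c => F.g i s c * G.val s c + F.val s c * G.g i s c,
    fun i s c => F.h i s c * G.val s c + 2 * (F.g i s c * G.g i s c) + F.val s c * G.h i s c⟩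

/-- Composition with a scalar function with derivatives `p1`, `p2`. -/
def comp (p p1 p2 : ℝ → ℝ) (F : TD n) : TD n :=
  ⟨fun s c => p (F.val s c), fun s c => p1 (F.val s c) * F.dt s c,
    fun i s c => p1 (F.val s c) * F.g i s c,
    fun i s c => p2 (F.val s c) * F.g i s c ^ 2 + p1 (F.val s c) * F.h i s c⟩

/-- Finite sum. -/
def sum {ι : Type*} (t : Finset ι) (F : ι → TD n) : TD n :=
  ⟨fun s c => ∑ j ∈ t, (F j).val s c, fun s c => ∑ j ∈ t, (F j).dt s c,
    fun i s c => ∑ j ∈ t, (F j).g i s c, fun i s c => ∑ j ∈ t, (F j).h i s c⟩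

end TD

lemma Gr.const (k : ℝ) : Gr (fun _ _ => k : ℝ → Euc n → ℝ) := fun _ =>
  ⟨|k|, 0, abs_nonneg k, le_rfl, fun _ _ _ => by simp⟩

lemma Gr.add {F G : ℝ → Euc n → ℝ} (hF : Gr F) (hG : Gr G) : Gr fun s c => F s c + G s c := by
  intro T
  obtain ⟨C, a, hC, ha, h⟩ := hF T
  obtain ⟨C', a', hC', ha', h'⟩ := hG T
  refine ⟨C + C', a + a', by linarith, by linarith, fun s hs c => ?_⟩
  have h1 : Real.exp (a * ‖c‖) ≤ Real.exp ((a + a') * ‖c‖) :=
    Real.exp_le_exp.2 (mul_le_mul_of_nonneg_right (by linarith) (norm_nonneg c))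
  have h2 : Real.exp (a' * ‖c‖) ≤ Real.exp ((a + a') * ‖c‖) :=
    Real.exp_le_exp.2 (mul_le_mul_of_nonneg_right (by linarith) (norm_nonneg c))
  calc |F s c + G s c| ≤ |F s c| + |G s c| := abs_add_le _ _
    _ ≤ C * Real.exp ((a + a') * ‖c‖) + C' * Real.exp ((a + a') * ‖c‖) :=
        add_le_add ((h s hs c).trans (mul_le_mul_of_nonneg_left h1 hC))
          ((h' s hs c).trans (mul_le_mul_of_nonneg_left h2 hC'))
    _ = _ := by ring

lemma Gr.mul {F G : ℝ → Euc n → ℝ} (hF : Gr F) (hG : Gr G) : Gr fun s c => F s c * G s c := by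
  intro T
  obtain ⟨C, a, hC, ha, h⟩ := hF T
  obtain ⟨C', a', hC', ha', h'⟩ := hG T
  refine ⟨C * C', a + a', mul_nonneg hC hC', by linarith, fun s hs c => ?_⟩
  rw [abs_mul, add_mul, Real.exp_add]
  calc |F s c| * |G s c| ≤ (C * Real.exp (a * ‖c‖)) * (C' * Real.exp (a' * ‖c‖)) :=
        mul_le_mul (h s hs c) (h' s hs c) (abs_nonneg _) (mul_nonneg hC (Real.exp_pos _).le)
    _ = _ := by ring

lemma Gr.sum {ι : Type*} (t : Finset ι) {F : ι → ℝ → Euc n → ℝ} (hF : ∀ j, Gr (F j)) :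
    Gr fun s c => ∑ j ∈ t, F j s c := by
  classical
  induction t using Finset.induction_on with
  | empty => simpa using Gr.const (n := n) 0
  | insert j t hj ih => simpa [Finset.sum_insert hj] using (hF j).add ih

lemma Gr.const_mul {F : ℝ → Euc n → ℝ} (hF : Gr F) (k : ℝ) : Gr fun s c => k * F s c :=
  (Gr.const k).mul hF

lemma Gr.sq {F : ℝ → Euc n → ℝ} (hF : Gr F) : Gr fun s c => F s c ^ 2 := by
  simpa [pow_two] using hF.mul hF

namespace TD

lemma ok_const (k : ℝ) : (const n k).Ok where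
  diff _ := differentiable_const k
  diff_g _ _ := differentiable_const 0
  cont_dt _ := continuous_const
  cont_h _ _ := continuous_const
  pd_val i s c := by simp [const, pd]
  pd_g i s c := by simp [const, pd]
  curve σ _ ξ := by simpa [const] using hasDerivAt_const σ k
  curve0 ξ := continuousOn_const
  gr_val := Gr.const k
  gr_dt := Gr.const 0
  gr_g _ := Gr.const 0
  gr_h _ := Gr.const 0

lemma ok_add {F G : TD n} (hF : F.Ok) (hG : G.Ok) : (add F G).Ok where
  diff s := (hF.diff s).add (hG.diff s)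
  diff_g i s := (hF.diff_g i s).add (hG.diff_g i s)
  cont_dt s := (hF.cont_dt s).add (hG.cont_dt s)
  cont_h i s := (hF.cont_h i s).add (hG.cont_h i s)
  pd_val i s c := by
    simp only [add, pd]
    rw [fderiv_fun_add (hF.diff s c) (hG.diff s c)]
    simp only [add_apply]
    exact congrArg₂ (· + ·) (hF.pd_val i s c) (hG.pd_val i s c)
  pd_g i s c := by
    simp only [add, pd]
    rw [fderiv_fun_add (hF.diff_g i s c) (hG.diff_g i s c)]
    simp only [add_apply]
    exact congrArg₂ (· + ·) (hF.pd_g i s c) (hG.pd_g i s c)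
  curve σ hσ ξ := by
    refine ((hF.curve σ hσ ξ).add (hG.curve σ hσ ξ)).congr_deriv ?_
    simp only [add, mul_add, Finset.sum_add_distrib]; ring
  curve0 ξ := (hF.curve0 ξ).add (hG.curve0 ξ)
  gr_val := hF.gr_val.add hG.gr_val
  gr_dt := hF.gr_dt.add hG.gr_dt
  gr_g i := (hF.gr_g i).add (hG.gr_g i)
  gr_h i := (hF.gr_h i).add (hG.gr_h i)

lemma ok_sum {ι : Type*} (t : Finset ι) {F : ι → TD n} (hF : ∀ j, (F j).Ok) : (sum t F).Ok := by
  classical
  induction t using Finset.induction_on with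
  | empty => simpa [sum, const] using ok_const (n := n) 0
  | insert j t hj ih =>
    have e : sum (insert j t) F = add (F j) (sum t F) := by simp [sum, add, Finset.sum_insert hj]
    rw [e]; exact ok_add (hF j) ih

lemma pd_fun_mul {f g : Euc n → ℝ} {c : Euc n} (hf : DifferentiableAt ℝ f c)
    (hg : DifferentiableAt ℝ g c) (i : Fin n) :
    pd i (fun y => f y * g y) c = pd i f c * g c + f c * pd i g c := by
  simp only [pd]
  rw [fderiv_fun_mul hf hg]
  simp only [add_apply, smul_apply, smul_eq_mul]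
  ring

lemma ok_mul {F G : TD n} (hF : F.Ok) (hG : G.Ok) : (mul F G).Ok where
  diff s := (hF.diff s).mul (hG.diff s)
  diff_g i s := ((hF.diff_g i s).mul (hG.diff s)).add ((hF.diff s).mul (hG.diff_g i s))
  cont_dt s := ((hF.cont_dt s).mul (hG.diff s).continuous).add
    ((hF.diff s).continuous.mul (hG.cont_dt s))
  cont_h i s := (((hF.cont_h i s).mul (hG.diff s).continuous).add
    (continuous_const.mul ((hF.diff_g i s).continuous.mul (hG.diff_g i s).continuous))).add
    ((hF.diff s).continuous.mul (hG.cont_h i s))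
  pd_val i s c := by
    simp only [mul]
    rw [pd_fun_mul (hF.diff s c) (hG.diff s c), hF.pd_val, hG.pd_val]
  pd_g i s c := by
    have h1 : DifferentiableAt ℝ (fun y => F.g i s y * G.val s y) c :=
      (hF.diff_g i s c).mul (hG.diff s c)
    have h2 : DifferentiableAt ℝ (fun y => F.val s y * G.g i s y) c :=
      (hF.diff s c).mul (hG.diff_g i s c)
    have e : pd i ((mul F G).g i s) c = pd i (fun y => F.g i s y * G.val s y) c
        + pd i (fun y => F.val s y * G.g i s y) c := by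
      simp only [mul, pd]
      rw [fderiv_fun_add h1 h2]
      rfl
    rw [e, pd_fun_mul (hF.diff_g i s c) (hG.diff s c), pd_fun_mul (hF.diff s c) (hG.diff_g i s c),
      hF.pd_g, hG.pd_g, hF.pd_val, hG.pd_val]
    simp only [mul]; ring
  curve σ hσ ξ := by
    refine ((hF.curve σ hσ ξ).mul (hG.curve σ hσ ξ)).congr_deriv ?_
    simp only [mul, add_mul, mul_add, Finset.sum_add_distrib, Finset.sum_mul, Finset.mul_sum]
    rw [show ∀ a b c d : ℝ, a + b + (c + d) = a + c + (b + d) from fun a b c d => by ring]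
    congr 2 <;> exact Finset.sum_congr rfl fun i _ => by ring
  curve0 ξ := (hF.curve0 ξ).mul (hG.curve0 ξ)
  gr_val := hF.gr_val.mul hG.gr_val
  gr_dt := (hF.gr_dt.mul hG.gr_val).add (hF.gr_val.mul hG.gr_dt)
  gr_g i := ((hF.gr_g i).mul hG.gr_val).add (hF.gr_val.mul (hG.gr_g i))
  gr_h i := (((hF.gr_h i).mul hG.gr_val).add ((((hF.gr_g i).mul (hG.gr_g i))).const_mul 2)).add
    (hF.gr_val.mul (hG.gr_h i))

lemma ok_comp {p p1 p2 : ℝ → ℝ} {F : TD n} (hF : F.Ok) {S : Set ℝ} (hS : IsOpen S)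
    (hval : ∀ s c, F.val s c ∈ S) (hp : ∀ u ∈ S, HasDerivAt p (p1 u) u)
    (hp1 : ∀ u ∈ S, HasDerivAt p1 (p2 u) u) (hp2 : ContinuousOn p2 S)
    (g0 : Gr fun s c => p (F.val s c)) (g1 : Gr fun s c => p1 (F.val s c))
    (g2 : Gr fun s c => p2 (F.val s c)) : (comp p p1 p2 F).Ok where
  diff s := fun c =>
    (hp _ (hval s c)).differentiableAt.comp c (hF.diff s c)
  diff_g i s := fun c =>
    ((hp1 _ (hval s c)).differentiableAt.comp c (hF.diff s c)).mul (hF.diff_g i s c)
  cont_dt s := by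
    refine Continuous.mul ?_ (hF.cont_dt s)
    exact continuous_iff_continuousAt.2 fun c =>
      (hp1 _ (hval s c)).continuousAt.comp (hF.diff s c).continuousAt
  cont_h i s := by
    refine Continuous.add (Continuous.mul ?_ ((hF.diff_g i s).continuous.pow 2))
      (Continuous.mul ?_ (hF.cont_h i s))
    · exact hp2.comp_continuous (hF.diff s).continuous (hval s)
    · exact continuous_iff_continuousAt.2 fun c =>
        (hp1 _ (hval s c)).continuousAt.comp (hF.diff s c).continuousAt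
  pd_val i s c := by
    simp only [comp, pd]
    have h : HasFDerivAt (fun y => p (F.val s y)) (p1 (F.val s c) • fderiv ℝ (F.val s) c) c :=
      (hp _ (hval s c)).comp_hasFDerivAt c (hF.diff s c).hasFDerivAt
    rw [h.fderiv]
    simp only [smul_apply, smul_eq_mul]
    exact congrArg (p1 (F.val s c) * ·) (hF.pd_val i s c)
  pd_g i s c := by
    simp only [comp]
    have h : HasFDerivAt (fun y => p1 (F.val s y)) (p2 (F.val s c) • fderiv ℝ (F.val s) c) c :=
      (hp1 _ (hval s c)).comp_hasFDerivAt c (hF.diff s c).hasFDerivAt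
    rw [pd_fun_mul h.differentiableAt (hF.diff_g i s c), hF.pd_g]
    simp only [pd, h.fderiv, smul_apply, smul_eq_mul]
    rw [show fderiv ℝ (F.val s) c (bas i) = F.g i s c from hF.pd_val i s c]
    ring
  curve σ hσ ξ := by
    refine (HasDerivAt.comp σ (hp _ (hval σ (Real.sqrt σ • ξ))) (hF.curve σ hσ ξ)).congr_deriv ?_
    simp only [comp, mul_add, Finset.mul_sum]
    congr 1
    exact Finset.sum_congr rfl fun i _ => by ring
  curve0 ξ := fun σ hσ =>
    ContinuousAt.comp_continuousWithinAt (g := p) (f := fun σ => F.val σ (Real.sqrt σ • ξ))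
      (hp _ (hval σ (Real.sqrt σ • ξ))).continuousAt (hF.curve0 ξ σ hσ)
  gr_val := g0
  gr_dt := g1.mul hF.gr_dt
  gr_g i := g1.mul (hF.gr_g i)
  gr_h i := (g2.mul (hF.gr_g i).sq).add (g1.mul (hF.gr_h i))

end TD

/-- A probability measure supported in a ball. -/
structure Sup (μ : Measure (Euc n)) (R : ℝ) : Prop where
  rad : 0 ≤ R
  supp : ∀ᵐ x ∂μ, ‖x‖ ≤ R

/-- A measurable function, bounded on the ball. -/
def Loc (R : ℝ) (f : Euc n → ℝ) : Prop :=
  Measurable f ∧ ∃ C, 0 ≤ C ∧ ∀ x, ‖x‖ ≤ R → |f x| ≤ C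

lemma Loc.of_cont {R : ℝ} {f : Euc n → ℝ} (hf : Continuous f) : Loc R f := by
  obtain ⟨C, hC⟩ := (isCompact_closedBall (0 : Euc n) R).exists_bound_of_continuousOn hf.continuousOn
  exact ⟨hf.measurable, max C 0, le_max_right _ _, fun x hx =>
    (hC x (mem_closedBall_zero_iff.2 hx)).trans (le_max_left _ _)⟩

lemma Loc.mul {R : ℝ} {f g : Euc n → ℝ} (hf : Loc R f) (hg : Loc R g) :
    Loc R fun x => f x * g x := by
  obtain ⟨hm, C, hC, h⟩ := hf
  obtain ⟨hm', C', hC', h'⟩ := hg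
  exact ⟨hm.mul hm', C * C', mul_nonneg hC hC', fun x hx => by
    rw [abs_mul]; exact mul_le_mul (h x hx) (h' x hx) (abs_nonneg _) hC⟩

lemma Loc.indicator {R : ℝ} {B : Set (Euc n)} (hB : MeasurableSet B) :
    Loc R (B.indicator fun _ => (1 : ℝ)) :=
  ⟨measurable_const.indicator hB, 1, zero_le_one, fun x _ => by by_cases hx : x ∈ B <;> simp [hx]⟩

lemma ew_pos (s : ℝ) (c x : Euc n) : 0 < ew s c x := Real.exp_pos _

lemma ew_le {R s : ℝ} {c x : Euc n} (hx : ‖x‖ ≤ R) :
    ew s c x ≤ Real.exp (|s| / 2 * R ^ 2 + R * ‖c‖) := by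
  refine Real.exp_le_exp.2 ?_
  have h1 : ⟪c, x⟫ ≤ R * ‖c‖ :=
    (real_inner_le_norm c x).trans (by rw [mul_comm]; exact mul_le_mul_of_nonneg_right hx (norm_nonneg c))
  have h2 : ‖x‖ ^ 2 ≤ R ^ 2 := pow_le_pow_left₀ (norm_nonneg x) hx 2
  have h3 : -(s / 2 * ‖x‖ ^ 2) ≤ |s| / 2 * R ^ 2 := by
    calc -(s / 2 * ‖x‖ ^ 2) = -s / 2 * ‖x‖ ^ 2 := by ring
      _ ≤ |s| / 2 * ‖x‖ ^ 2 := mul_le_mul_of_nonneg_right (by linarith [neg_le_abs s]) (sq_nonneg _)
      _ ≤ _ := mul_le_mul_of_nonneg_left h2 (by positivity)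
  linarith

section

variable {μ : Measure (Euc n)} [IsProbabilityMeasure μ] {R : ℝ} (hμ : Sup μ R)
include hμ

lemma integrable_U {f : Euc n → ℝ} (hf : Loc R f) (s : ℝ) (c : Euc n) :
    Integrable (fun x => f x * ew s c x) μ := by
  obtain ⟨hm, C, hC, h⟩ := hf
  refine Integrable.of_bound (hm.mul (by unfold ew; fun_prop)).aestronglyMeasurable
    (C * Real.exp (|s| / 2 * R ^ 2 + R * ‖c‖)) ?_
  filter_upwards [hμ.supp] with x hx
  rw [Real.norm_eq_abs, abs_mul, abs_of_pos (ew_pos _ _ x)]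
  exact mul_le_mul (h x hx) (ew_le hx) (Real.exp_pos _).le hC

lemma gr_U {f : Euc n → ℝ} (hf : Loc R f) : Gr (U μ f) := by
  obtain ⟨hm, C, hC, h⟩ := hf
  intro T
  refine ⟨C * Real.exp (T / 2 * R ^ 2), R, by positivity, hμ.rad, fun s hs c => ?_⟩
  refine abs_integral_le_integral_abs.trans ?_
  have hi := (integrable_U hμ ⟨hm, C, hC, h⟩ s c).abs
  refine (integral_mono_ae hi (integrable_const (C * Real.exp (T / 2 * R ^ 2) * Real.exp (R * ‖c‖))) ?_).trans
    (le_of_eq (by simp))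
  filter_upwards [hμ.supp] with x hx
  rw [abs_mul, abs_of_pos (ew_pos _ _ x), mul_assoc, ← Real.exp_add]
  refine mul_le_mul (h x hx) ((ew_le hx).trans (Real.exp_le_exp.2 ?_)) (Real.exp_pos _).le hC
  rw [abs_of_nonneg hs.1]
  have : s / 2 * R ^ 2 ≤ T / 2 * R ^ 2 :=
    mul_le_mul_of_nonneg_right (by linarith [hs.2]) (sq_nonneg R)
  linarith

lemma hasFDerivAt_U {f : Euc n → ℝ} (hf : Loc R f) (s : ℝ) (c : Euc n) :
    HasFDerivAt (U μ f s) (∫ x, (f x * ew s c x) • innerSL ℝ x ∂μ) c := by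
  obtain ⟨hm, C, hC, h⟩ := hf
  refine hasFDerivAt_integral_of_dominated_of_fderiv_le (𝕜 := ℝ)
    (F := fun c x => f x * ew s c x) (F' := fun c x => (f x * ew s c x) • innerSL ℝ x)
    (bound := fun _ => C * Real.exp (|s| / 2 * R ^ 2 + R * (‖c‖ + 1)) * R)
    (Metric.ball_mem_nhds c one_pos) ?_ (integrable_U hμ ⟨hm, C, hC, h⟩ s c) ?_ ?_
    (integrable_const _) ?_
  · exact Eventually.of_forall fun c' => (integrable_U hμ ⟨hm, C, hC, h⟩ s c').aestronglyMeasurable
  · exact (hm.mul (by unfold ew; fun_prop)).aestronglyMeasurable.smul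
      (innerSL ℝ).continuous.aestronglyMeasurable
  · filter_upwards [hμ.supp] with x hx c' hc'
    rw [norm_smul, innerSL_apply_norm, Real.norm_eq_abs, abs_mul,
      abs_of_pos (ew_pos _ _ x)]
    refine mul_le_mul (mul_le_mul (h x hx) ((ew_le hx).trans (Real.exp_le_exp.2 ?_))
      (Real.exp_pos _).le hC) hx (norm_nonneg x) (mul_nonneg hC (Real.exp_pos _).le)
    have h1 : ‖c'‖ ≤ ‖c‖ + 1 := by
      rw [Metric.mem_ball, dist_eq_norm] at hc'
      linarith [norm_le_norm_add_norm_sub' c' c]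
    have := mul_le_mul_of_nonneg_left h1 hμ.rad
    linarith
  · refine Eventually.of_forall fun x c' _ => ?_
    have h1 : HasFDerivAt (fun c : Euc n => ⟪c, x⟫ - s / 2 * ‖x‖ ^ 2) (innerSL ℝ x) c' :=
      (((innerSL ℝ x).hasFDerivAt).congr_of_eventuallyEq
        (Eventually.of_forall fun y => real_inner_comm x y)).sub_const _
    refine (h1.exp.const_mul (f x)).congr_fderiv ?_
    rw [smul_smul]
    rfl

lemma differentiable_U {f : Euc n → ℝ} (hf : Loc R f) (s : ℝ) : Differentiable ℝ (U μ f s) :=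
  fun c => (hasFDerivAt_U hμ hf s c).differentiableAt

lemma pd_U {f : Euc n → ℝ} (hf : Loc R f) (i : Fin n) (s : ℝ) (c : Euc n) :
    pd i (U μ f s) c = U μ (fun x => x i * f x) s c := by
  have hi : Integrable (fun x => (f x * ew s c x) • innerSL ℝ x) μ := by
    obtain ⟨hm, C, hC, h⟩ := hf
    refine Integrable.of_bound ((hm.mul (by unfold ew; fun_prop)).aestronglyMeasurable.smul
      (innerSL ℝ).continuous.aestronglyMeasurable)
      (C * Real.exp (|s| / 2 * R ^ 2 + R * ‖c‖) * R) ?_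
    filter_upwards [hμ.supp] with x hx
    rw [norm_smul, innerSL_apply_norm, Real.norm_eq_abs, abs_mul,
      abs_of_pos (ew_pos _ _ x)]
    exact mul_le_mul (mul_le_mul (h x hx) (ew_le hx) (Real.exp_pos _).le hC) hx (norm_nonneg x)
      (mul_nonneg hC (Real.exp_pos _).le)
  rw [pd, (hasFDerivAt_U hμ hf s c).fderiv, ContinuousLinearMap.integral_apply hi]
  refine integral_congr_ae (Eventually.of_forall fun x => ?_)
  simp only [smul_apply, innerSL_apply_apply, smul_eq_mul, bas,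
    EuclideanSpace.inner_single_right]
  simp; ring

lemma curve_U {f : Euc n → ℝ} (hf : Loc R f) {σ : ℝ} (hσ : 0 < σ) (ξ : Euc n) :
    HasDerivAt (fun σ => U μ f σ (Real.sqrt σ • ξ))
      (-(1 / 2) * U μ (fun x => ‖x‖ ^ 2 * f x) σ (Real.sqrt σ • ξ)
        + ∑ i, ξ i / (2 * Real.sqrt σ) * U μ (fun x => x i * f x) σ (Real.sqrt σ • ξ)) σ := by
  obtain ⟨hm, C, hC, h⟩ := hf
  have hfl : Loc R f := ⟨hm, C, hC, h⟩
  have hmem : Ioo (σ / 2) (2 * σ) ∈ 𝓝 σ := Ioo_mem_nhds (by linarith) (by linarith)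
  set D := fun (σ : ℝ) (x : Euc n) => (-(1 / 2) * ‖x‖ ^ 2 + ⟪ξ, x⟫ / (2 * Real.sqrt σ))
    * (f x * ew σ (Real.sqrt σ • ξ) x) with hD
  have key := hasDerivAt_integral_of_dominated_loc_of_deriv_le (μ := μ)
    (F := fun σ x => f x * ew σ (Real.sqrt σ • ξ) x) (F' := D)
    (bound := fun _ => (R ^ 2 + ‖ξ‖ * R / Real.sqrt (σ / 2))
      * (C * Real.exp (2 * σ / 2 * R ^ 2 + R * (Real.sqrt (2 * σ) * ‖ξ‖))))
    hmem (Eventually.of_forall fun t => (integrable_U hμ hfl t _).aestronglyMeasurable)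
    (integrable_U hμ hfl σ _) ?_ ?_ (integrable_const _) ?_
  · refine key.2.congr_deriv ?_
    have e : ∀ x, D σ x = -(1 / 2) * ((‖x‖ ^ 2 * f x) * ew σ (Real.sqrt σ • ξ) x)
        + ∑ i, ξ i / (2 * Real.sqrt σ) * ((x i * f x) * ew σ (Real.sqrt σ • ξ) x) := fun x => by
      simp only [hD, PiLp.inner_apply, RCLike.inner_apply, conj_trivial, add_mul, Finset.sum_div,
        Finset.sum_mul]
      congr 1
      · ring
      · exact Finset.sum_congr rfl fun i _ => by ring
    have i1 : Integrable (fun x => (‖x‖ ^ 2 * f x) * ew σ (Real.sqrt σ • ξ) x) μ :=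
      integrable_U hμ ((Loc.of_cont (by fun_prop)).mul hfl) _ _
    have i2 : ∀ i : Fin n, Integrable (fun x => (x i * f x) * ew σ (Real.sqrt σ • ξ) x) μ := fun i =>
      integrable_U hμ ((Loc.of_cont (by fun_prop)).mul hfl) _ _
    simp only [e]
    rw [integral_add (i1.const_mul _) (integrable_finsetSum _ fun i _ => (i2 i).const_mul _),
      integral_const_mul, integral_finsetSum _ fun i _ => (i2 i).const_mul _]
    simp only [integral_const_mul]
    rfl
  · refine ((Measurable.mul (by fun_prop) (hm.mul (by unfold ew; fun_prop)))).aestronglyMeasurable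
  · filter_upwards [hμ.supp] with x hx t ht
    have ht0 : 0 < t := by linarith [ht.1]
    simp only [hD]
    rw [Real.norm_eq_abs, abs_mul, abs_mul, abs_of_pos (ew_pos _ _ x)]
    refine mul_le_mul ?_ (mul_le_mul (h x hx) ((ew_le hx).trans (Real.exp_le_exp.2 ?_))
      (Real.exp_pos _).le hC) (mul_nonneg (abs_nonneg _) (Real.exp_pos _).le) (by
        have := hμ.rad
        positivity)
    · refine (abs_add_le _ _).trans (add_le_add ?_ ?_)
      · rw [abs_mul, abs_neg, abs_of_pos (by norm_num : (0 : ℝ) < 1 / 2), abs_of_nonneg (sq_nonneg _)]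
        have := pow_le_pow_left₀ (norm_nonneg x) hx 2
        linarith [sq_nonneg ‖x‖]
      · rw [abs_div, abs_of_pos (by positivity : (0 : ℝ) < 2 * Real.sqrt t)]
        refine div_le_div₀ (by have := hμ.rad; positivity) ((abs_real_inner_le_norm _ _).trans
          (mul_le_mul_of_nonneg_left hx (norm_nonneg ξ))) (Real.sqrt_pos.2 (by linarith)) ?_
        have := Real.sqrt_le_sqrt (show σ / 2 ≤ t by linarith [ht.1])
        linarith [Real.sqrt_nonneg t]
    · rw [abs_of_pos ht0, norm_smul, Real.norm_eq_abs, abs_of_nonneg (Real.sqrt_nonneg t)]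
      have h1 := Real.sqrt_le_sqrt (show t ≤ 2 * σ by linarith [ht.2])
      have h2 : R * (Real.sqrt t * ‖ξ‖) ≤ R * (Real.sqrt (2 * σ) * ‖ξ‖) :=
        mul_le_mul_of_nonneg_left (mul_le_mul_of_nonneg_right h1 (norm_nonneg ξ)) hμ.rad
      have h3 : t / 2 * R ^ 2 ≤ 2 * σ / 2 * R ^ 2 :=
        mul_le_mul_of_nonneg_right (by linarith [ht.2]) (sq_nonneg R)
      linarith
  · refine Eventually.of_forall fun x t ht => ?_
    have ht0 : 0 < t := by linarith [ht.1]
    have h1 : HasDerivAt (fun t : ℝ => ⟪Real.sqrt t • ξ, x⟫ - t / 2 * ‖x‖ ^ 2)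
        (-(1 / 2) * ‖x‖ ^ 2 + ⟪ξ, x⟫ / (2 * Real.sqrt t)) t := by
      simp only [real_inner_smul_left]
      refine (((Real.hasDerivAt_sqrt ht0.ne').mul_const ⟪ξ, x⟫).sub
        (((hasDerivAt_id t).div_const 2).mul_const (‖x‖ ^ 2))).congr_deriv ?_
      ring
    refine (h1.exp.const_mul (f x)).congr_deriv ?_
    simp only [hD, ew]
    ring

lemma curve0_U {f : Euc n → ℝ} (hf : Loc R f) (ξ : Euc n) :
    ContinuousOn (fun σ => U μ f σ (Real.sqrt σ • ξ)) (Ici 0) := by
  obtain ⟨hm, C, hC, h⟩ := hf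
  intro σ hσ
  refine continuousWithinAt_of_dominated
    (bound := fun _ => C * Real.exp ((|σ| + 1) / 2 * R ^ 2 + R * (Real.sqrt (|σ| + 1) * ‖ξ‖)))
    (Eventually.of_forall fun t => (hm.mul (by unfold ew; fun_prop)).aestronglyMeasurable) ?_
    (integrable_const _) (Eventually.of_forall fun x => (Continuous.mul continuous_const
      (by unfold ew; fun_prop)).continuousWithinAt)
  filter_upwards [self_mem_nhdsWithin, mem_nhdsWithin_of_mem_nhds (Metric.ball_mem_nhds σ one_pos)]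
    with t ht ht'
  filter_upwards [hμ.supp] with x hx
  rw [Real.norm_eq_abs, abs_mul, abs_of_pos (ew_pos _ _ x)]
  refine mul_le_mul (h x hx) ((ew_le hx).trans (Real.exp_le_exp.2 ?_)) (Real.exp_pos _).le hC
  have ht1 : |t| ≤ |σ| + 1 := by
    rw [Metric.mem_ball, Real.dist_eq] at ht'
    linarith [abs_sub_abs_le_abs_sub t σ]
  rw [norm_smul, Real.norm_eq_abs, abs_of_nonneg (Real.sqrt_nonneg t)]
  have h1 := Real.sqrt_le_sqrt ((le_abs_self t).trans ht1)
  have h2 : R * (Real.sqrt t * ‖ξ‖) ≤ R * (Real.sqrt (|σ| + 1) * ‖ξ‖) :=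
    mul_le_mul_of_nonneg_left (mul_le_mul_of_nonneg_right h1 (norm_nonneg ξ)) hμ.rad
  have h3 : |t| / 2 * R ^ 2 ≤ (|σ| + 1) / 2 * R ^ 2 :=
    mul_le_mul_of_nonneg_right (by linarith) (sq_nonneg R)
  linarith

omit hμ in
/-- The data of a tilted integral. -/
noncomputable def UT (μ : Measure (Euc n)) (f : Euc n → ℝ) : TD n :=
  ⟨U μ f, fun s c => -(1 / 2) * U μ (fun x => ‖x‖ ^ 2 * f x) s c,
    fun i => U μ fun x => x i * f x, fun i => U μ fun x => x i * (x i * f x)⟩

lemma ok_UT {f : Euc n → ℝ} (hf : Loc R f) : (UT μ f).Ok where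
  diff s := differentiable_U hμ hf s
  diff_g i s := differentiable_U hμ ((Loc.of_cont (by fun_prop)).mul hf) s
  cont_dt s := continuous_const.mul
    (differentiable_U hμ ((Loc.of_cont (by fun_prop)).mul hf) s).continuous
  cont_h i s := (differentiable_U hμ ((Loc.of_cont (by fun_prop)).mul
    ((Loc.of_cont (by fun_prop)).mul hf)) s).continuous
  pd_val i s c := pd_U hμ hf i s c
  pd_g i s c := pd_U hμ ((Loc.of_cont (by fun_prop)).mul hf) i s c
  curve σ hσ ξ := curve_U hμ hf hσ ξ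
  curve0 ξ := curve0_U hμ hf ξ
  gr_val := gr_U hμ hf
  gr_dt := (gr_U hμ ((Loc.of_cont (by fun_prop)).mul hf)).const_mul _
  gr_g i := gr_U hμ ((Loc.of_cont (by fun_prop)).mul hf)
  gr_h i := gr_U hμ ((Loc.of_cont (by fun_prop)).mul ((Loc.of_cont (by fun_prop)).mul hf))

end

end Vale.Agent.P245.SL
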