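import Mathlib
import Vale.Agent.P245.SL.Tilt
import Vale.Agent.P245.LSI.Channel

/-!
The Gaussian average along the curve `c = σ^(1/2) ξ`: its derivative is the average of the heat
operator, and the generator of the tilting flow.
-/

open MeasureTheory Filter Set
open scoped RealInnerProductSpace Topology
open Vale.Agent.P245.Sub Vale.Agent.P245.LSI

namespace Vale.Agent.P245.SL

variable {n : ℕ}

/-- The heat operator of a `TD`. -/
noncomputable def heat (F : TD n) (s : ℝ) (c : Euc n) : ℝ := F.dt s c + 1 / 2 * ∑ i, F.h i s c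

/-- The Gaussian average of a function of `(s, c)` at time `σ`. -/
noncomputable def avg (f : ℝ → Euc n → ℝ) (σ : ℝ) : ℝ :=
  ∫ ξ, f σ (Real.sqrt σ • ξ) * gker n 1 ξ

lemma int_expnorm (n : ℕ) (a : ℝ) :
    Integrable fun ξ : Euc n => Real.exp (a * ‖ξ‖) * gker n 1 ξ := by
  set C := Real.exp (a ^ 2) * ((Real.sqrt (1 / 2)) ^ n)⁻¹ with hC
  refine ((integrable_gker (n := n) (show (0 : ℝ) < 1 / 2 by norm_num)).const_mul C).mono'
    ((by fun_prop : Continuous fun ξ : Euc n => Real.exp (a * ‖ξ‖)).mul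
      (contDiff_gker 1).continuous).aestronglyMeasurable (Eventually.of_forall fun ξ => ?_)
  rw [Real.norm_eq_abs, abs_of_nonneg (mul_nonneg (Real.exp_pos _).le (gker_pos one_pos ξ).le)]
  have h : a * ‖ξ‖ + -(1 * ‖ξ‖ ^ 2) / 2 ≤ a ^ 2 + -(1 / 2 * ‖ξ‖ ^ 2) / 2 := by
    nlinarith [sq_nonneg (a - ‖ξ‖ / 2)]
  have h' := Real.exp_le_exp.2 h
  rw [Real.exp_add, Real.exp_add] at h'
  have hp : (0 : ℝ) < Real.sqrt (1 / 2) ^ n := by positivity
  simp only [gker, hC, Real.sqrt_one, one_pow, mul_one]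
  calc Real.exp (a * ‖ξ‖) * ((Real.sqrt (2 * Real.pi))⁻¹ ^ n * Real.exp (-(1 * ‖ξ‖ ^ 2) / 2))
      = (Real.sqrt (2 * Real.pi))⁻¹ ^ n
        * (Real.exp (a * ‖ξ‖) * Real.exp (-(1 * ‖ξ‖ ^ 2) / 2)) := by ring
    _ ≤ (Real.sqrt (2 * Real.pi))⁻¹ ^ n
        * (Real.exp (a ^ 2) * Real.exp (-(1 / 2 * ‖ξ‖ ^ 2) / 2)) :=
      mul_le_mul_of_nonneg_left h' (by positivity)
    _ = _ := by field_simp

lemma integrable_curve {f : ℝ → Euc n → ℝ} (hf : Gr f) {σ : ℝ} (hσ : 0 ≤ σ)
    (hc : Continuous (f σ)) (b : ℝ) :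
    Integrable fun ξ : Euc n => Real.exp (b * ‖ξ‖) * |f σ (Real.sqrt σ • ξ)| * gker n 1 ξ := by
  obtain ⟨C, a, hC, ha, h⟩ := hf σ
  refine ((int_expnorm n (b + a * Real.sqrt σ)).const_mul C).mono'
    (((by fun_prop : Continuous fun ξ : Euc n => Real.exp (b * ‖ξ‖)).mul
      ((hc.comp (continuous_const_smul _)).abs)).mul
      (contDiff_gker 1).continuous).aestronglyMeasurable (Eventually.of_forall fun ξ => ?_)
  have hk := (gker_pos one_pos ξ : 0 < gker n 1 ξ)
  rw [Real.norm_eq_abs, abs_of_nonneg (by positivity)]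
  have h1 := h σ ⟨hσ, le_rfl⟩ (Real.sqrt σ • ξ)
  rw [norm_smul, Real.norm_eq_abs, abs_of_nonneg (Real.sqrt_nonneg σ)] at h1
  rw [add_mul, Real.exp_add]
  calc Real.exp (b * ‖ξ‖) * |f σ (Real.sqrt σ • ξ)| * gker n 1 ξ
      ≤ Real.exp (b * ‖ξ‖) * (C * Real.exp (a * (Real.sqrt σ * ‖ξ‖))) * gker n 1 ξ :=
        mul_le_mul_of_nonneg_right (mul_le_mul_of_nonneg_left h1 (Real.exp_pos _).le) hk.le
    _ = _ := by rw [mul_assoc a]; ring

lemma integrable_avg {f : ℝ → Euc n → ℝ} (hf : Gr f) {σ : ℝ} (hσ : 0 ≤ σ)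
    (hc : Continuous (f σ)) : Integrable fun ξ : Euc n => f σ (Real.sqrt σ • ξ) * gker n 1 ξ := by
  refine (integrable_curve hf hσ hc 0).mono'
    ((hc.comp (continuous_const_smul _)).mul (contDiff_gker 1).continuous).aestronglyMeasurable
    (Eventually.of_forall fun ξ => ?_)
  rw [Real.norm_eq_abs, abs_mul, abs_of_pos (gker_pos one_pos ξ), zero_mul, Real.exp_zero, one_mul]

lemma integrable_avg_coord {f : ℝ → Euc n → ℝ} (hf : Gr f) {σ : ℝ} (hσ : 0 ≤ σ)
    (hc : Continuous (f σ)) (i : Fin n) :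
    Integrable fun ξ : Euc n => f σ (Real.sqrt σ • ξ) * (ξ i * gker n 1 ξ) := by
  refine (integrable_curve hf hσ hc 1).mono'
    ((hc.comp (continuous_const_smul _)).mul ((by fun_prop : Continuous fun ξ : Euc n => ξ i).mul
      (contDiff_gker 1).continuous)).aestronglyMeasurable (Eventually.of_forall fun ξ => ?_)
  have h1 : |ξ i| ≤ Real.exp (1 * ‖ξ‖) := by
    have h2 : |ξ i| ≤ ‖ξ‖ := by rw [← Real.norm_eq_abs]; exact PiLp.norm_apply_le ξ i
    linarith [Real.add_one_le_exp (1 * ‖ξ‖)]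
  rw [Real.norm_eq_abs, abs_mul, abs_mul, abs_of_pos (gker_pos one_pos ξ)]
  calc |f σ (Real.sqrt σ • ξ)| * (|ξ i| * gker n 1 ξ)
      ≤ |f σ (Real.sqrt σ • ξ)| * (Real.exp (1 * ‖ξ‖) * gker n 1 ξ) :=
        mul_le_mul_of_nonneg_left (mul_le_mul_of_nonneg_right h1 (gker_pos one_pos ξ).le) (abs_nonneg _)
    _ = _ := by ring

lemma pd_gker_one (i : Fin n) (ξ : Euc n) : pd i (gker n 1) ξ = -(ξ i * gker n 1 ξ) := by
  have h : HasFDerivAt (gker n 1) _ ξ :=
    (((((hasFDerivAt_id ξ).norm_sq).const_mul 1).neg.mul_const (2⁻¹ : ℝ)).exp.const_mul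
      ((Real.sqrt (2 * Real.pi))⁻¹ ^ n * Real.sqrt 1 ^ n)).congr_of_eventuallyEq
      (Eventually.of_forall fun z => by simp [gker, div_eq_mul_inv])
  simp only [pd, h.fderiv]
  simp [bas, gker, EuclideanSpace.inner_single_right, div_eq_mul_inv]
  ring

/-- The derivative of the Gaussian average. -/
theorem hasDerivAt_avg {F : TD n} (hF : F.Ok) {σ : ℝ} (hσ : 0 < σ) :
    HasDerivAt (avg F.val) (avg (heat F) σ) σ := by
  have hmem : Ioo (σ / 2) (2 * σ) ∈ 𝓝 σ := Ioo_mem_nhds (by linarith) (by linarith)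
  obtain ⟨C1, a1, hC1, ha1, h1⟩ := hF.gr_dt (2 * σ)
  have hgb : ∀ i, ∃ C a : ℝ, 0 ≤ C ∧ 0 ≤ a ∧ ∀ s ∈ Icc 0 (2 * σ), ∀ c,
      |F.g i s c| ≤ C * Real.exp (a * ‖c‖) := fun i => hF.gr_g i (2 * σ)
  choose C2 a2 hC2 ha2 h2 using hgb
  set D := fun (t : ℝ) (ξ : Euc n) => (F.dt t (Real.sqrt t • ξ)
      + ∑ i, ξ i / (2 * Real.sqrt t) * F.g i t (Real.sqrt t • ξ)) * gker n 1 ξ with hD
  have hgk : Continuous (gker n 1) := (contDiff_gker 1).continuous
  have key := hasDerivAt_integral_of_dominated_loc_of_deriv_le (μ := volume)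
    (F := fun t ξ => F.val t (Real.sqrt t • ξ) * gker n 1 ξ) (F' := D)
    (bound := fun ξ => C1 * (Real.exp (a1 * Real.sqrt (2 * σ) * ‖ξ‖) * gker n 1 ξ)
      + ∑ i, C2 i / Real.sqrt (σ / 2)
        * (Real.exp ((1 + a2 i * Real.sqrt (2 * σ)) * ‖ξ‖) * gker n 1 ξ))
    hmem ?_ (integrable_avg hF.gr_val hσ.le (hF.diff σ).continuous) ?_ ?_ ?_ ?_
  · refine key.2.congr_deriv ?_
    have e : ∀ ξ, D σ ξ = F.dt σ (Real.sqrt σ • ξ) * gker n 1 ξ
        + ∑ i, 1 / (2 * Real.sqrt σ) * (F.g i σ (Real.sqrt σ • ξ) * (ξ i * gker n 1 ξ)) := fun ξ => by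
      simp only [hD, add_mul, Finset.sum_mul]
      congr 1
      exact Finset.sum_congr rfl fun i _ => by ring
    have i1 := integrable_avg hF.gr_dt hσ.le (hF.cont_dt σ)
    have i2 := fun i => integrable_avg_coord (hF.gr_g i) hσ.le (hF.diff_g i σ).continuous i
    have i3 := fun i => integrable_avg (hF.gr_h i) hσ.le (hF.cont_h i σ)
    simp only [e]
    rw [integral_add i1 (integrable_finsetSum _ fun i _ => (i2 i).const_mul _),
      integral_finsetSum _ fun i _ => (i2 i).const_mul _]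
    have hibp : ∀ i, ∫ ξ, F.g i σ (Real.sqrt σ • ξ) * (ξ i * gker n 1 ξ)
        = Real.sqrt σ * ∫ ξ, F.h i σ (Real.sqrt σ • ξ) * gker n 1 ξ := by
      intro i
      set u := fun ξ : Euc n => F.g i σ (Real.sqrt σ • ξ) with hu
      have hud : Differentiable ℝ u := (hF.diff_g i σ).comp ((differentiable_id (𝕜 := ℝ)).const_smul (Real.sqrt σ))
      have hpu : ∀ ξ, fderiv ℝ u ξ (bas i) = Real.sqrt σ * F.h i σ (Real.sqrt σ • ξ) := fun ξ => by
        have h := (hF.diff_g i σ (Real.sqrt σ • ξ)).hasFDerivAt.comp ξ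
          ((hasFDerivAt_id ξ).const_smul (Real.sqrt σ))
        rw [show u = F.g i σ ∘ fun ξ => Real.sqrt σ • ξ from rfl]
        erw [h.fderiv]
        simp only [ContinuousLinearMap.coe_comp', Function.comp_apply, smul_apply,
          ContinuousLinearMap.coe_id', id_eq, map_smul, smul_eq_mul]
        rw [show fderiv ℝ (F.g i σ) (Real.sqrt σ • ξ) (bas i) = F.h i σ (Real.sqrt σ • ξ) from
          hF.pd_g i σ _]
      have hpg : ∀ ξ, fderiv ℝ (gker n 1) ξ (bas i) = -(ξ i * gker n 1 ξ) := pd_gker_one i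
      have j1 : Integrable fun ξ => fderiv ℝ u ξ (bas i) * gker n 1 ξ := by
        simp only [hpu, mul_assoc]; exact (i3 i).const_mul _
      have j2 : Integrable fun ξ => u ξ * fderiv ℝ (gker n 1) ξ (bas i) := by
        simp only [hpg, mul_neg]; exact (i2 i).neg
      have j3 : Integrable fun ξ => u ξ * gker n 1 ξ :=
        integrable_avg (hF.gr_g i) hσ.le (hF.diff_g i σ).continuous
      have := integral_mul_fderiv_eq_neg_fderiv_mul_of_integrable (μ := volume) (v := bas i) j1 j2 j3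
        (fun x _ => hud x) (fun x _ => (contDiff_gker 1).differentiable (by simp) x)
      simp only [hpg, hpu, mul_neg, integral_neg, neg_inj, mul_assoc, integral_const_mul] at this
      exact this
    have eR : avg (heat F) σ = (∫ ξ, F.dt σ (Real.sqrt σ • ξ) * gker n 1 ξ)
        + ∑ i, 1 / 2 * ∫ ξ, F.h i σ (Real.sqrt σ • ξ) * gker n 1 ξ := by
      simp only [avg, heat, add_mul, mul_assoc, Finset.sum_mul, Finset.mul_sum]
      rw [integral_add i1 (integrable_finsetSum _ fun i _ => (i3 i).const_mul _),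
        integral_finsetSum _ fun i _ => (i3 i).const_mul _]
      simp only [integral_const_mul]
    rw [eR]
    congr 1
    refine Finset.sum_congr rfl fun i _ => ?_
    rw [integral_const_mul, hibp, ← mul_assoc]
    have := (Real.sqrt_pos.2 hσ).ne'
    congr 1
    field_simp
  · filter_upwards [hmem] with t ht
    exact (((hF.diff t).continuous.comp (continuous_const_smul _)).mul hgk).aestronglyMeasurable
  · exact ((((hF.cont_dt σ).comp (continuous_const_smul _)).add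
      (continuous_finsetSum _ fun i _ => (by fun_prop : Continuous fun ξ : Euc n =>
        ξ i / (2 * Real.sqrt σ)).mul ((hF.diff_g i σ).continuous.comp (continuous_const_smul _)))).mul
      hgk).aestronglyMeasurable
  · refine Eventually.of_forall fun ξ t ht => ?_
    have ht0 : 0 < t := by linarith [ht.1]
    have htI : t ∈ Icc 0 (2 * σ) := ⟨ht0.le, ht.2.le⟩
    have hst : ‖Real.sqrt t • ξ‖ ≤ Real.sqrt (2 * σ) * ‖ξ‖ := by
      rw [norm_smul, Real.norm_eq_abs, abs_of_nonneg (Real.sqrt_nonneg t)]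
      exact mul_le_mul_of_nonneg_right (Real.sqrt_le_sqrt ht.2.le) (norm_nonneg ξ)
    have hk : 0 ≤ gker n 1 ξ := (gker_pos one_pos ξ).le
    simp only [hD]
    rw [Real.norm_eq_abs, abs_mul, abs_of_nonneg hk, ← mul_assoc]
    simp only [← mul_assoc, ← Finset.sum_mul, ← add_mul]
    refine mul_le_mul_of_nonneg_right ((abs_add_le _ _).trans (add_le_add ?_ ?_)) hk
    · refine (h1 t htI _).trans (mul_le_mul_of_nonneg_left (Real.exp_le_exp.2 ?_) hC1)
      rw [mul_assoc]; exact mul_le_mul_of_nonneg_left hst ha1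
    · refine (Finset.abs_sum_le_sum_abs _ _).trans (Finset.sum_le_sum fun i _ => ?_)
      rw [abs_mul, abs_div, abs_of_pos (by positivity : (0 : ℝ) < 2 * Real.sqrt t), add_mul,
        Real.exp_add, one_mul]
      have hx : |ξ i| ≤ Real.exp ‖ξ‖ := by
        have h : |ξ i| ≤ ‖ξ‖ := by rw [← Real.norm_eq_abs]; exact PiLp.norm_apply_le ξ i
        linarith [Real.add_one_le_exp ‖ξ‖]
      have hsq : Real.sqrt (σ / 2) ≤ 2 * Real.sqrt t := by
        have := Real.sqrt_le_sqrt (show σ / 2 ≤ t by linarith [ht.1])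
        linarith [Real.sqrt_nonneg t]
      have hd : |ξ i| / (2 * Real.sqrt t) ≤ Real.exp ‖ξ‖ / Real.sqrt (σ / 2) :=
        div_le_div₀ (Real.exp_pos _).le hx (Real.sqrt_pos.2 (by linarith)) hsq
      have hg : |F.g i t (Real.sqrt t • ξ)| ≤ C2 i * Real.exp (a2 i * Real.sqrt (2 * σ) * ‖ξ‖) := by
        refine (h2 i t htI _).trans (mul_le_mul_of_nonneg_left (Real.exp_le_exp.2 ?_) (hC2 i))
        rw [mul_assoc]; exact mul_le_mul_of_nonneg_left hst (ha2 i)
      calc |ξ i| / (2 * Real.sqrt t) * |F.g i t (Real.sqrt t • ξ)|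
          ≤ Real.exp ‖ξ‖ / Real.sqrt (σ / 2)
            * (C2 i * Real.exp (a2 i * Real.sqrt (2 * σ) * ‖ξ‖)) :=
            mul_le_mul hd hg (abs_nonneg _) (by positivity)
        _ = _ := by ring
  · exact ((int_expnorm n _).const_mul _).add
      (integrable_finsetSum _ fun i _ => (int_expnorm n _).const_mul _)
  · refine Eventually.of_forall fun ξ t ht => ?_
    exact (hF.curve t (by linarith [ht.1]) ξ).mul_const _

/-- Continuity of the average up to time zero. -/
theorem continuousOn_avg {F : TD n} (hF : F.Ok) : ContinuousOn (avg F.val) (Ici 0) := by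
  intro σ hσ
  have hσ' : 0 ≤ σ := hσ
  obtain ⟨C, a, hC, ha, h⟩ := hF.gr_val (σ + 1)
  have hnb : Icc (0 : ℝ) (σ + 1) ∈ 𝓝[Ici 0] σ :=
    Filter.mem_of_superset (inter_mem_nhdsWithin _ (Iio_mem_nhds (show σ < σ + 1 by linarith)))
      fun t ht => ⟨ht.1, le_of_lt ht.2⟩
  refine continuousWithinAt_of_dominated (bound := fun ξ =>
    C * (Real.exp (a * Real.sqrt (σ + 1) * ‖ξ‖) * gker n 1 ξ))
    (Eventually.of_forall fun t => (((hF.diff t).continuous.comp (continuous_const_smul _)).mul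
      (contDiff_gker 1).continuous).aestronglyMeasurable) ?_ ((int_expnorm n _).const_mul _)
    (Eventually.of_forall fun ξ => (hF.curve0 ξ σ hσ).mul continuousWithinAt_const)
  filter_upwards [hnb] with t ht
  refine Eventually.of_forall fun ξ => ?_
  rw [Real.norm_eq_abs, abs_mul, abs_of_pos (gker_pos one_pos ξ), ← mul_assoc]
  refine mul_le_mul_of_nonneg_right ((h t ht _).trans
    (mul_le_mul_of_nonneg_left (Real.exp_le_exp.2 ?_) hC)) (gker_pos one_pos ξ).le
  rw [mul_assoc, norm_smul, Real.norm_eq_abs, abs_of_nonneg (Real.sqrt_nonneg t)]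
  exact mul_le_mul_of_nonneg_left
    (mul_le_mul_of_nonneg_right (Real.sqrt_le_sqrt ht.2) (norm_nonneg ξ)) ha

lemma avg_zero (f : ℝ → Euc n → ℝ) : avg f 0 = f 0 0 := by
  simp only [avg, Real.sqrt_zero, zero_smul]
  rw [integral_const_mul, integral_gker one_pos, mul_one]

end Vale.Agent.P245.SL
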