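import Mathlib
import Vale.Agent.P245.SL.Flow

/-!
The generator of the tilting flow on tilted expectations, on the covariance matrix and on the
entries of its powers.
-/

open MeasureTheory Filter Set Matrix
open scoped RealInnerProductSpace Topology
open Vale.Agent.P245.Sub

namespace Vale.Agent.P245.SL

variable {n : ℕ}

/-- The constant function one. -/
def one1 : Euc n → ℝ := fun _ => 1

/-- A coordinate. -/
def crd (i : Fin n) : Euc n → ℝ := fun x => x i

/-- Tilted expectation. -/
noncomputable def ev (μ : Measure (Euc n)) (f : Euc n → ℝ) (s : ℝ) (c : Euc n) : ℝ :=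
  U μ f s c * (U μ one1 s c)⁻¹

/-- The data of a tilted expectation. -/
noncomputable def evd (μ : Measure (Euc n)) (f : Euc n → ℝ) : TD n :=
  TD.mul (UT μ f) (TD.comp (fun u => u⁻¹) (fun u => -(u ^ 2)⁻¹) (fun u => 2 * (u ^ 3)⁻¹) (UT μ one1))

/-- The generator of the tilting flow. -/
noncomputable def gen (μ : Measure (Euc n)) (F : TD n) (s : ℝ) (c : Euc n) : ℝ :=
  heat F s c + ∑ i, ev μ (crd i) s c * F.g i s c

/-- The tilted probability measure. -/
noncomputable def tilt (μ : Measure (Euc n)) (s : ℝ) (c : Euc n) : Measure (Euc n) :=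
  μ.withDensity fun x => ENNReal.ofReal (ew s c x / U μ one1 s c)

/-- The data of a covariance entry. -/
noncomputable def GT (μ : Measure (Euc n)) (j k : Fin n) : TD n :=
  TD.add (evd μ fun x => x j * x k)
    (TD.mul (TD.const n (-1)) (TD.mul (evd μ (crd j)) (evd μ (crd k))))

/-- The covariance matrix. -/
noncomputable def Gm (μ : Measure (Euc n)) (s : ℝ) (c : Euc n) : Matrix (Fin n) (Fin n) ℝ :=
  Matrix.of fun j k => (GT μ j k).val s c

/-- The gradient of the covariance matrix. -/
noncomputable def H3 (μ : Measure (Euc n)) (i : Fin n) (s : ℝ) (c : Euc n) :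
    Matrix (Fin n) (Fin n) ℝ :=
  Matrix.of fun j k => (GT μ j k).g i s c

/-- The data of the entries of the powers of the covariance matrix. -/
noncomputable def MP (μ : Measure (Euc n)) : ℕ → Fin n → Fin n → TD n
  | 0 => fun j l => TD.const n (if j = l then 1 else 0)
  | k + 1 => fun j l => TD.sum Finset.univ fun r => TD.mul (MP μ k j r) (GT μ r l)

/-- Generator of the powers. -/
noncomputable def Gk (μ : Measure (Euc n)) (k : ℕ) (s : ℝ) (c : Euc n) : Matrix (Fin n) (Fin n) ℝ :=
  Matrix.of fun j l => gen μ (MP μ k j l) s c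

/-- Gradient of the powers. -/
noncomputable def Dk (μ : Measure (Euc n)) (k : ℕ) (i : Fin n) (s : ℝ) (c : Euc n) :
    Matrix (Fin n) (Fin n) ℝ :=
  Matrix.of fun j l => (MP μ k j l).g i s c

/-- The trace of a power of the covariance matrix. -/
noncomputable def TT (μ : Measure (Euc n)) (q : ℕ) : TD n :=
  TD.sum Finset.univ fun j => MP μ q j j

section algebra

variable (μ : Measure (Euc n)) (F G : TD n) (s : ℝ) (c : Euc n)

lemma evd_val (f : Euc n → ℝ) : (evd μ f).val = ev μ f := rfl

lemma gen_const (k : ℝ) : gen μ (TD.const n k) s c = 0 := by simp [gen, heat, TD.const]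

lemma gen_add : gen μ (TD.add F G) s c = gen μ F s c + gen μ G s c := by
  simp only [gen, heat, TD.add, mul_add, Finset.sum_add_distrib]; ring

lemma gen_mul : gen μ (TD.mul F G) s c = gen μ F s c * G.val s c + F.val s c * gen μ G s c
    + ∑ i, F.g i s c * G.g i s c := by
  simp only [gen, heat, TD.mul, mul_add, add_mul, Finset.sum_add_distrib, Finset.mul_sum,
    Finset.sum_mul]
  have e : ∀ i : Fin n, 1 / 2 * (2 * (F.g i s c * G.g i s c)) = F.g i s c * G.g i s c := fun i => by
    ring
  simp only [e]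
  simp only [mul_left_comm (F.val s c), mul_assoc]
  ring

lemma gen_comp (p p1 p2 : ℝ → ℝ) : gen μ (TD.comp p p1 p2 F) s c
    = p1 (F.val s c) * gen μ F s c + 1 / 2 * p2 (F.val s c) * ∑ i, F.g i s c ^ 2 := by
  simp only [gen, heat, TD.comp, mul_add, Finset.sum_add_distrib, Finset.mul_sum, mul_left_comm,
    mul_assoc]
  ring

lemma gen_sum {ι : Type*} (t : Finset ι) (K : ι → TD n) :
    gen μ (TD.sum t K) s c = ∑ j ∈ t, gen μ (K j) s c := by
  simp only [gen, heat, TD.sum, Finset.sum_add_distrib, Finset.mul_sum]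
  rw [Finset.sum_comm, add_right_inj, Finset.sum_comm]

lemma Gk_zero : Gk μ 0 s c = 0 := by
  ext j l; simp [Gk, MP, gen_const]

lemma Dk_zero (i : Fin n) : Dk μ 0 i s c = 0 := by
  ext j l; simp [Dk, MP, TD.const]

lemma MP_val : ∀ (k : ℕ) (j l : Fin n), (MP μ k j l).val s c = (Gm μ s c ^ k) j l
  | 0, j, l => by simp [MP, TD.const, Matrix.one_apply]
  | k + 1, j, l => by
    simp only [MP, TD.sum, TD.mul, pow_succ, Matrix.mul_apply, MP_val k]
    rfl

lemma Dk_succ (k : ℕ) (i : Fin n) :
    Dk μ (k + 1) i s c = Dk μ k i s c * Gm μ s c + Gm μ s c ^ k * H3 μ i s c := by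
  ext j l
  simp only [Matrix.add_apply, Matrix.mul_apply, Dk, Matrix.of_apply, ← Finset.sum_add_distrib]
  simp only [MP, TD.sum, TD.mul, MP_val]
  rfl

lemma Gk_succ (k : ℕ) : Gk μ (k + 1) s c = Gk μ k s c * Gm μ s c
    + Gm μ s c ^ k * (Matrix.of fun r l => gen μ (GT μ r l) s c)
    + ∑ i, Dk μ k i s c * H3 μ i s c := by
  ext j l
  simp only [Matrix.add_apply, Matrix.sum_apply, Matrix.mul_apply, Gk, Dk, H3, Matrix.of_apply]
  rw [Finset.sum_comm (f := fun i r => (MP μ k j r).g i s c * (GT μ r l).g i s c),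
    ← Finset.sum_add_distrib, ← Finset.sum_add_distrib]
  simp only [MP, gen_sum, gen_mul, MP_val]
  rfl

lemma TT_val (q : ℕ) : (TT μ q).val s c = (Gm μ s c ^ q).trace := by
  simp only [TT, TD.sum, MP_val, Matrix.trace, Matrix.diag]

lemma gen_TT (q : ℕ) : gen μ (TT μ q) s c = (Gk μ q s c).trace := by
  simp only [TT, gen_sum, Matrix.trace, Matrix.diag, Gk, Matrix.of_apply]

lemma TT_g (q : ℕ) (i : Fin n) : (TT μ q).g i s c = (Dk μ q i s c).trace := by
  simp only [TT, TD.sum, Matrix.trace, Matrix.diag, Dk, Matrix.of_apply]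

end algebra

section

variable {μ : Measure (Euc n)} [IsProbabilityMeasure μ] {R : ℝ}

lemma loc_one : Loc R (one1 : Euc n → ℝ) := Loc.of_cont continuous_const

lemma loc_crd (i : Fin n) : Loc R (crd i) := Loc.of_cont (by unfold crd; fun_prop)

variable (hμ : Sup μ R)
include hμ

lemma U_one_ge {T s : ℝ} (hs : s ≤ T) (c : Euc n) :
    Real.exp (-(|T| / 2 * R ^ 2 + R * ‖c‖)) ≤ U μ one1 s c := by
  have hi := integrable_U hμ loc_one s c
  refine le_trans (le_of_eq (by simp)) (integral_mono_ae (integrable_const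
    (Real.exp (-(|T| / 2 * R ^ 2 + R * ‖c‖)))) hi ?_)
  filter_upwards [hμ.supp] with x hx
  simp only [one1, one_mul, ew]
  refine Real.exp_le_exp.2 ?_
  have h1 : -(R * ‖c‖) ≤ ⟪c, x⟫ := by
    refine le_trans (neg_le_neg ?_) (neg_abs_le _)
    exact (abs_real_inner_le_norm c x).trans
      (by rw [mul_comm]; exact mul_le_mul_of_nonneg_right hx (norm_nonneg c))
  have h2 : s / 2 * ‖x‖ ^ 2 ≤ |T| / 2 * R ^ 2 := by
    rcases le_total s 0 with h | h
    · exact (mul_nonpos_of_nonpos_of_nonneg (by linarith) (sq_nonneg _)).trans (by positivity)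
    · exact mul_le_mul (by linarith [le_abs_self T]) (pow_le_pow_left₀ (norm_nonneg x) hx 2)
        (sq_nonneg _) (by positivity)
  linarith

lemma U_one_pos (s : ℝ) (c : Euc n) : 0 < U μ one1 s c :=
  lt_of_lt_of_le (Real.exp_pos _) (U_one_ge hμ le_rfl c)

lemma gr_inv_U : Gr fun s c => (U μ one1 s c)⁻¹ := by
  intro T
  refine ⟨Real.exp (|T| / 2 * R ^ 2), R, (Real.exp_pos _).le, hμ.rad, fun s hs c => ?_⟩
  rw [abs_inv, abs_of_pos (U_one_pos hμ s c), ← Real.exp_add]
  refine (inv_anti₀ (Real.exp_pos _) (U_one_ge hμ hs.2 c)).trans (le_of_eq ?_)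
  rw [← Real.exp_neg, neg_neg]

lemma ok_evd {f : Euc n → ℝ} (hf : Loc R f) : (evd μ f).Ok := by
  have hi := gr_inv_U hμ
  refine TD.ok_mul (ok_UT hμ hf) (TD.ok_comp (ok_UT hμ loc_one) (isOpen_Ioi (a := (0 : ℝ)))
    (fun s c => U_one_pos hμ s c) (fun u hu => hasDerivAt_inv (ne_of_gt (mem_Ioi.1 hu))) (fun u hu => ?_)
    ((continuousOn_pow 3).inv₀ (fun u hu => pow_ne_zero 3 (ne_of_gt hu)) |>.const_smul (2 : ℝ)) ?_ ?_ ?_)
  · have hu' : u ≠ 0 := ne_of_gt (mem_Ioi.1 hu)
    have h := ((hasDerivAt_pow 2 u).inv (pow_ne_zero 2 hu')).neg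
    refine h.congr_deriv ?_
    field_simp
    simp only [Nat.add_one_sub_one, pow_one]; push_cast; ring
  · exact hi
  · simpa [inv_pow, neg_mul, UT] using (hi.sq.const_mul (-1))
  · have h := ((hi.mul hi).mul hi).const_mul 2
    simpa [mul_inv, pow_three, mul_assoc, UT] using h

lemma heat_UT {f : Euc n → ℝ} (hf : Loc R f) (s : ℝ) (c : Euc n) : heat (UT μ f) s c = 0 := by
  have e : U μ (fun x => ‖x‖ ^ 2 * f x) s c = ∑ i, U μ (fun x => x i * (x i * f x)) s c := by
    simp only [U]
    rw [← integral_finsetSum _ fun i _ => integrable_U hμ ((Loc.of_cont (by fun_prop)).mul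
      ((Loc.of_cont (by fun_prop)).mul hf)) s c]
    refine integral_congr_ae (Eventually.of_forall fun x => ?_)
    simp only [EuclideanSpace.norm_sq_eq, Real.norm_eq_abs, sq_abs, Finset.sum_mul]
    exact Finset.sum_congr rfl fun i _ => by ring
  simp only [heat, UT, e, Finset.mul_sum, ← Finset.sum_add_distrib]
  exact Finset.sum_eq_zero fun i _ => by ring

lemma UT_one_g (i : Fin n) (s : ℝ) (c : Euc n) :
    (UT μ one1).g i s c = ev μ (crd i) s c * U μ one1 s c := by
  rw [ev, inv_mul_cancel_right₀ (U_one_pos hμ s c).ne']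
  simp [UT, one1, crd]; rfl

lemma evd_g {f : Euc n → ℝ} (i : Fin n) (s : ℝ) (c : Euc n) :
    (evd μ f).g i s c = ev μ (fun x => x i * f x) s c - ev μ (crd i) s c * ev μ f s c := by
  have hp := (U_one_pos hμ s c).ne'
  simp only [evd, TD.mul, TD.comp]
  rw [UT_one_g hμ]
  simp only [UT, ev]
  field_simp
  ring

lemma gen_evd {f : Euc n → ℝ} (hf : Loc R f) (s : ℝ) (c : Euc n) : gen μ (evd μ f) s c = 0 := by
  have hp := (U_one_pos hμ s c).ne'
  have h1 : gen μ (UT μ f) s c = ∑ i, ev μ (crd i) s c * U μ (fun x => x i * f x) s c := by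
    rw [gen, heat_UT hμ hf, zero_add]; rfl
  have h2 : gen μ (UT μ one1) s c = ∑ i, ev μ (crd i) s c * (ev μ (crd i) s c * U μ one1 s c) := by
    rw [gen, heat_UT hμ loc_one, zero_add]; simp only [UT_one_g hμ]
  rw [evd, gen_mul, gen_comp, h1, h2]
  simp only [TD.comp, UT_one_g hμ, Finset.mul_sum, Finset.sum_mul, ← Finset.sum_add_distrib]
  refine Finset.sum_eq_zero fun i _ => ?_
  simp only [UT]
  field_simp
  ring

/-- The heat operator on `Z · F` is `Z` times the generator. -/
lemma heat_Z_mul (F : TD n) (s : ℝ) (c : Euc n) :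
    heat (TD.mul (UT μ one1) F) s c = U μ one1 s c * gen μ F s c := by
  have h0 := heat_UT hμ loc_one s c
  simp only [heat, gen, TD.mul, UT_one_g hμ, Finset.sum_add_distrib, ← Finset.sum_mul,
    mul_add, Finset.mul_sum] at h0 ⊢
  have hv : (UT μ one1).val s c = U μ one1 s c := rfl
  rw [hv]
  have e : ∀ i, 1 / 2 * (2 * (ev μ (crd i) s c * U μ one1 s c * F.g i s c))
      = U μ one1 s c * (ev μ (crd i) s c * F.g i s c) := fun i => by ring
  simp only [e]
  simp only [← Finset.mul_sum] at h0 ⊢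
  linear_combination (F.val s c) * h0

lemma isProbability_tilt (s : ℝ) (c : Euc n) : IsProbabilityMeasure (tilt μ s c) := by
  have hp := U_one_pos hμ s c
  refine ⟨?_⟩
  have hi : Integrable (fun x => ew s c x / U μ one1 s c) μ := by
    simpa [one1] using (integrable_U hμ loc_one s c).div_const (U μ one1 s c)
  rw [tilt, withDensity_apply _ MeasurableSet.univ, Measure.restrict_univ,
    ← ofReal_integral_eq_lintegral_ofReal hi
      (Eventually.of_forall fun x => div_nonneg (ew_pos s c x).le hp.le), integral_div]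
  have : ∫ x, ew s c x ∂μ = U μ one1 s c := by simp [U, one1]
  rw [this, div_self hp.ne', ENNReal.ofReal_one]

lemma ev_eq (f : Euc n → ℝ) (s : ℝ) (c : Euc n) : ev μ f s c = ∫ x, f x ∂tilt μ s c := by
  rw [tilt, integral_withDensity_eq_integral_toReal_smul (by unfold ew; fun_prop)
    (Eventually.of_forall fun x => ENNReal.ofReal_lt_top)]
  rw [ev, U, ← integral_mul_const]
  refine integral_congr_ae (Eventually.of_forall fun x => ?_)
  simp only [smul_eq_mul, ENNReal.toReal_ofReal
    (div_nonneg (ew_pos s c x).le (U_one_pos hμ s c).le)]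
  ring

lemma supp_tilt (s : ℝ) (c : Euc n) : ∀ᵐ x ∂tilt μ s c, ‖x‖ ≤ R :=
  (withDensity_absolutelyContinuous μ _).ae_le hμ.supp

lemma integrable_tilt {f : Euc n → ℝ} (hf : Loc R f) (s : ℝ) (c : Euc n) :
    Integrable f (tilt μ s c) := by
  haveI := isProbability_tilt hμ s c
  obtain ⟨hm, C, hC, h⟩ := hf
  refine Integrable.of_bound hm.aestronglyMeasurable C ?_
  filter_upwards [supp_tilt hμ s c] with x hx
  exact h x hx

lemma ok_GT (j k : Fin n) : (GT μ j k).Ok :=
  TD.ok_add (ok_evd hμ (Loc.of_cont (by fun_prop)))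
    (TD.ok_mul (TD.ok_const _) (TD.ok_mul (ok_evd hμ (loc_crd j)) (ok_evd hμ (loc_crd k))))

lemma ok_MP : ∀ (k : ℕ) (j l : Fin n), (MP μ k j l).Ok
  | 0, _, _ => TD.ok_const _
  | k + 1, j, l => TD.ok_sum _ fun r => TD.ok_mul (ok_MP k j r) (ok_GT hμ r l)

lemma ok_TT (q : ℕ) : (TT μ q).Ok := TD.ok_sum _ fun j => ok_MP hμ q j j

lemma Gm_apply (j k : Fin n) (s : ℝ) (c : Euc n) : Gm μ s c j k
    = ∫ x, (x j - ev μ (crd j) s c) * (x k - ev μ (crd k) s c) ∂tilt μ s c := by
  haveI := isProbability_tilt hμ s c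
  have i2 := integrable_tilt hμ (f := fun x => x j * x k) (Loc.of_cont (by fun_prop)) s c
  have ij := integrable_tilt hμ (f := fun x => x j) (loc_crd j) s c
  have ik := integrable_tilt hμ (f := fun x => x k) (loc_crd k) s c
  simp only [Gm, Matrix.of_apply, GT, TD.add, TD.mul, TD.const, evd_val, ev_eq hμ, crd]
  set mj := ∫ x, x j ∂tilt μ s c with hmj
  set mk := ∫ x, x k ∂tilt μ s c with hmk
  have e : ∀ x : Euc n, (x j - mj) * (x k - mk) = x j * x k - mk * x j - mj * x k + mj * mk :=
    fun x => by ring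
  simp only [e]
  erw [integral_add ((i2.sub (ij.const_mul mk)).sub (ik.const_mul mj)) (integrable_const (mj * mk)),
    integral_sub (i2.sub (ij.const_mul mk)) (ik.const_mul mj), integral_sub i2 (ij.const_mul mk)]
  rw [integral_const_mul, integral_const_mul, integral_const, probReal_univ, one_smul, ← hmj, ← hmk]
  ring

lemma gen_GT (r l : Fin n) (s : ℝ) (c : Euc n) :
    gen μ (GT μ r l) s c = -(Gm μ s c * Gm μ s c) r l := by
  have hg : ∀ (i j : Fin n), (evd μ (crd j)).g i s c = Gm μ s c i j := fun i j => by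
    rw [evd_g hμ]
    simp only [Gm, Matrix.of_apply, GT, TD.add, TD.mul, TD.const, evd_val, crd]
    ring
  have hs : ∀ i, Gm μ s c i r = Gm μ s c r i := fun i => by
    simp only [Gm_apply hμ]; exact integral_congr_ae (Eventually.of_forall fun x => mul_comm _ _)
  simp only [GT, gen_add, gen_mul, gen_evd hμ (Loc.of_cont (by fun_prop : Continuous fun x : Euc n =>
    x r * x l)), gen_evd hμ (loc_crd r), gen_evd hμ (loc_crd l), gen_const]
  simp only [TD.const, hg, hs, zero_mul, mul_zero, zero_add, add_zero, Matrix.mul_apply,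
    Finset.sum_const_zero, Matrix.neg_apply]
  ring

lemma H3_apply (i j k : Fin n) (s : ℝ) (c : Euc n) : H3 μ i s c j k
    = ∫ x, (x i - ev μ (crd i) s c) * ((x j - ev μ (crd j) s c) * (x k - ev μ (crd k) s c))
        ∂tilt μ s c := by
  haveI := isProbability_tilt hμ s c
  have i3 := integrable_tilt hμ (f := fun x => x i * (x j * x k)) (Loc.of_cont (by fun_prop)) s c
  have i2 : ∀ a b : Fin n, Integrable (fun x : Euc n => x a * x b) (tilt μ s c) := fun a b =>
    integrable_tilt hμ (Loc.of_cont (by fun_prop)) s c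
  have i1 : ∀ a : Fin n, Integrable (fun x : Euc n => x a) (tilt μ s c) := fun a =>
    integrable_tilt hμ (loc_crd a) s c
  simp only [H3, Matrix.of_apply, GT, TD.add, TD.mul, TD.const, evd_g hμ, evd_val, ev_eq hμ, crd]
  set mi := ∫ x, x i ∂tilt μ s c with hmi
  set mj := ∫ x, x j ∂tilt μ s c with hmj
  set mk := ∫ x, x k ∂tilt μ s c with hmk
  have e : ∀ x : Euc n, (x i - mi) * ((x j - mj) * (x k - mk)) = x i * (x j * x k) - mk * (x i * x j)
      - mj * (x i * x k) - mi * (x j * x k) + mj * mk * x i + mi * mk * x j + mi * mj * x k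
      - mi * mj * mk := fun x => by ring
  simp only [e]
  have a1 := i3.sub ((i2 i j).const_mul mk)
  have a2 := a1.sub ((i2 i k).const_mul mj)
  have a3 := a2.sub ((i2 j k).const_mul mi)
  have a4 := a3.add ((i1 i).const_mul (mj * mk))
  have a5 := a4.add ((i1 j).const_mul (mi * mk))
  have a6 := a5.add ((i1 k).const_mul (mi * mj))
  erw [integral_sub a6 (integrable_const _), integral_add a5 ((i1 k).const_mul _),
    integral_add a4 ((i1 j).const_mul _), integral_add a3 ((i1 i).const_mul _),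
    integral_sub a2 ((i2 j k).const_mul _), integral_sub a1 ((i2 i k).const_mul _),
    integral_sub i3 ((i2 i j).const_mul _)]
  simp only [integral_const_mul, integral_const, probReal_univ, one_smul, ← hmi, ← hmj, ← hmk]
  ring

lemma quad_Gm (θ : Euc n) (s : ℝ) (c : Euc n) :
    (fun i => θ i) ⬝ᵥ (Gm μ s c *ᵥ fun i => θ i)
      = ∫ x, (∑ j, θ j * (x j - ev μ (crd j) s c)) ^ 2 ∂tilt μ s c := by
  have hi : ∀ j k : Fin n, Integrable (fun x : Euc n => θ j * θ k
      * ((x j - ev μ (crd j) s c) * (x k - ev μ (crd k) s c))) (tilt μ s c) := fun j k =>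
    (integrable_tilt hμ (Loc.of_cont (by fun_prop)) s c).const_mul _
  have e : ∀ x : Euc n, (∑ j, θ j * (x j - ev μ (crd j) s c)) ^ 2 = ∑ j, ∑ k, θ j * θ k
      * ((x j - ev μ (crd j) s c) * (x k - ev μ (crd k) s c)) := fun x => by
    rw [sq, Finset.sum_mul_sum]
    exact Finset.sum_congr rfl fun j _ => Finset.sum_congr rfl fun k _ => by ring
  simp only [e]
  rw [integral_finsetSum _ fun j _ => integrable_finsetSum _ fun k _ => hi j k]
  refine Finset.sum_congr rfl fun j _ => ?_
  rw [integral_finsetSum _ fun k _ => hi j k, Matrix.mulVec, dotProduct, Finset.mul_sum]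
  refine Finset.sum_congr rfl fun k _ => ?_
  rw [integral_const_mul, Gm_apply hμ]
  ring

lemma posSemidef_Gm (s : ℝ) (c : Euc n) : (Gm μ s c).PosSemidef := by
  refine Matrix.PosSemidef.of_dotProduct_mulVec_nonneg ?_ fun v => ?_
  · ext j k
    simp only [Matrix.conjTranspose_apply, star_trivial, Gm_apply hμ]
    exact integral_congr_ae (Eventually.of_forall fun x => mul_comm _ _)
  · have h := quad_Gm hμ (WithLp.toLp 2 v) s c
    simp only [star_trivial]
    exact le_of_le_of_eq (integral_nonneg fun x => sq_nonneg _) h.symm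

lemma H3_symm (i : Fin n) (s : ℝ) (c : Euc n) : (H3 μ i s c).IsSymm := by
  ext j k
  simp only [Matrix.transpose_apply, H3_apply hμ]
  exact integral_congr_ae (Eventually.of_forall fun x => by ring)

end

end Vale.Agent.P245.SL
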