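import Mathlib
import Vale.Agent.P245.SL.Gen
import Vale.Agent.P245.SL.Borell
import Vale.Agent.P245.Sub.Smooth

/-!
Moment bounds at a fixed tilt of a log-concave probability measure supported in a ball.
-/

open MeasureTheory Filter Set Matrix
open scoped RealInnerProductSpace Topology
open Vale.Agent.P245.Sub

namespace Vale.Agent.P245.SL

variable {n : ℕ}

/-- Poincaré inequality for quadratic forms under tilts. -/
def QuadPoi : Prop :=
  ∀ {n : ℕ} {f : Euc n → ℝ} {R : ℝ}, Cut f R → ∀ {s : ℝ}, 0 < s → ∀ (c : Euc n)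
    {ν : Measure (Euc n)} [IsProbabilityMeasure ν],
    ν = (volume.withDensity fun x => ENNReal.ofReal (f x * ew s c x / ∫ y, f y * ew s c y)) →
    ∀ (m : Euc n) {Λ : ℝ}, 0 < Λ → (∀ θ : Euc n, ∫ x, ⟪x - m, θ⟫ ^ 2 ∂ν ≤ Λ * ‖θ‖ ^ 2) →
    ∀ A : Matrix (Fin n) (Fin n) ℝ, A.IsSymm →
      (∫ x, (∑ j, ∑ k, A j k * (x j - m j) * (x k - m k)) ^ 2 ∂ν)
          - (∫ x, ∑ j, ∑ k, A j k * (x j - m j) * (x k - m k) ∂ν) ^ 2
        ≤ 4 * Real.sqrt (Λ / s) * ∫ x, ∑ j, (∑ k, A j k * (x k - m k)) ^ 2 ∂ν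

/-- A centred linear form. -/
noncomputable def zl (μ : Measure (Euc n)) (s : ℝ) (c : Euc n) (θ : Fin n → ℝ) (x : Euc n) : ℝ :=
  ∑ j, θ j * (x j - ev μ (crd j) s c)

lemma continuous_zl (μ : Measure (Euc n)) (s : ℝ) (c : Euc n) (θ : Fin n → ℝ) :
    Continuous (zl μ s c θ) := by unfold zl; fun_prop

/-- A log-concave probability measure supported in a ball. -/
structure Mdl (f : Euc n → ℝ) (R : ℝ) (μ : Measure (Euc n)) : Prop where
  cut : Cut f R
  eq : μ = volume.withDensity fun x => ENNReal.ofReal (f x)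

section

variable {f : Euc n → ℝ} {R : ℝ} {μ : Measure (Euc n)} (hM : Mdl f R μ)
include hM

lemma Mdl.prob : IsProbabilityMeasure μ := by
  refine ⟨?_⟩
  rw [hM.eq, withDensity_apply _ MeasurableSet.univ, Measure.restrict_univ,
    ← ofReal_integral_eq_lintegral_ofReal hM.cut.int (Eventually.of_forall hM.cut.nonneg),
    hM.cut.mass, ENNReal.ofReal_one]

lemma Mdl.sup : Sup μ R := by
  refine ⟨hM.cut.rad, ?_⟩
  rw [hM.eq, ae_withDensity_iff hM.cut.meas.ennreal_ofReal]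
  refine Eventually.of_forall fun x hx => ?_
  by_contra h
  exact hx (by rw [hM.cut.supp x (not_le.1 h), ENNReal.ofReal_zero])

lemma Mdl.tilt_eq (s : ℝ) (c : Euc n) : tilt μ s c
    = volume.withDensity fun x => ENNReal.ofReal (f x * ew s c x / ∫ y, f y * ew s c y) := by
  have e : U μ one1 s c = ∫ y, f y * ew s c y := by
    simp only [U, one1, one_mul, hM.eq]
    rw [integral_withDensity_eq_integral_toReal_smul hM.cut.meas.ennreal_ofReal
      (Eventually.of_forall fun x => ENNReal.ofReal_lt_top)]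
    simp only [ENNReal.toReal_ofReal (hM.cut.nonneg _), smul_eq_mul]
  rw [tilt, e, hM.eq, ← withDensity_mul _ hM.cut.meas.ennreal_ofReal (by unfold ew; fun_prop)]
  congr 1
  funext x
  rw [Pi.mul_apply, ← ENNReal.ofReal_mul (hM.cut.nonneg x), mul_div_assoc]

lemma loc_zl (s : ℝ) (c : Euc n) (θ : Fin n → ℝ) : Loc R (zl μ s c θ) :=
  Loc.of_cont (continuous_zl μ s c θ)

lemma zl_eq (s : ℝ) (c : Euc n) (θ : Euc n) (x : Euc n) :
    zl μ s c (fun i => θ i) x = ⟪x, θ⟫ - ∫ y, ⟪y, θ⟫ ∂tilt μ s c := by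
  haveI := hM.prob
  haveI := isProbability_tilt hM.sup s c
  have hi : ∀ j : Fin n, Integrable (fun y : Euc n => y j * θ j) (tilt μ s c) := fun j =>
    (integrable_tilt hM.sup (f := fun y => y j) (loc_crd j) s c).mul_const _
  have e : ∀ y : Euc n, ⟪y, θ⟫ = ∑ j, y j * θ j := fun y => by
    rw [PiLp.inner_apply]
    simp [mul_comm]
  simp only [e]
  rw [integral_finsetSum _ fun j _ => hi j]
  simp only [zl, ev_eq hM.sup, crd, integral_mul_const, mul_sub, Finset.sum_sub_distrib]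
  congr 1 <;> exact Finset.sum_congr rfl fun j _ => mul_comm _ _

lemma integral_zl (s : ℝ) (c : Euc n) (θ : Fin n → ℝ) : ∫ x, zl μ s c θ x ∂tilt μ s c = 0 := by
  haveI := hM.prob
  haveI := isProbability_tilt hM.sup s c
  simp only [zl]
  erw [integral_finsetSum _ fun j _ => (Integrable.sub (integrable_tilt hM.sup (f := fun y => y j)
    (loc_crd j) s c) (integrable_const (ev μ (crd j) s c))).const_mul (θ j)]
  refine Finset.sum_eq_zero fun j _ => ?_
  simp only [Pi.sub_apply]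
  rw [integral_const_mul, integral_sub (integrable_tilt hM.sup (f := fun y => y j) (loc_crd j) s c)
    (integrable_const _), integral_const, probReal_univ, one_smul, ev_eq hM.sup]
  simp [crd]

lemma quad_zl (s : ℝ) (c : Euc n) (θ : Fin n → ℝ) :
    θ ⬝ᵥ (Gm μ s c *ᵥ θ) = ∫ x, zl μ s c θ x ^ 2 ∂tilt μ s c := by
  haveI := hM.prob
  exact quad_Gm hM.sup (WithLp.toLp 2 θ) s c

lemma cs_tilt (s : ℝ) (c : Euc n) {F G : Euc n → ℝ} (hF : Loc R F) (hG : Loc R G) :
    (∫ x, F x * G x ∂tilt μ s c) ^ 2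
      ≤ (∫ x, F x ^ 2 ∂tilt μ s c) * ∫ x, G x ^ 2 ∂tilt μ s c := by
  haveI := hM.prob
  have iF : Integrable (fun x => F x ^ 2) (tilt μ s c) := by
    simpa [pow_two] using integrable_tilt hM.sup (hF.mul hF) s c
  have iG : Integrable (fun x => G x ^ 2) (tilt μ s c) := by
    simpa [pow_two] using integrable_tilt hM.sup (hG.mul hG) s c
  have iFG := integrable_tilt hM.sup (hF.mul hG) s c
  have key : ∀ t : ℝ, 0 ≤ (∫ x, F x ^ 2 ∂tilt μ s c) * (t * t)
      + 2 * (∫ x, F x * G x ∂tilt μ s c) * t + ∫ x, G x ^ 2 ∂tilt μ s c := fun t => by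
    have e : ∀ x, (t * F x + G x) ^ 2 = t * t * F x ^ 2 + 2 * t * (F x * G x) + G x ^ 2 := fun x => by
      ring
    have h : 0 ≤ ∫ x, (t * F x + G x) ^ 2 ∂tilt μ s c := integral_nonneg fun x => sq_nonneg _
    simp only [e] at h
    rw [integral_add, integral_add (iF.const_mul _) (iFG.const_mul _), integral_const_mul,
      integral_const_mul] at h
    · linarith
    · exact (iF.const_mul _).add (iFG.const_mul _)
    · exact iG
  have h := discrim_le_zero key
  simp only [discrim] at h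
  linarith

/-- A combination of the derivatives of the covariance matrix as a cubic moment. -/
lemma cubic_eq (s : ℝ) (c : Euc n) (w θ θ' : Fin n → ℝ) :
    ∑ i, w i * (θ ⬝ᵥ (H3 μ i s c *ᵥ θ'))
      = ∫ x, zl μ s c w x * (zl μ s c θ x * zl μ s c θ' x) ∂tilt μ s c := by
  haveI := hM.prob
  have hi : ∀ i j k : Fin n, Integrable (fun x : Euc n => w i * θ j * θ' k
      * ((x i - ev μ (crd i) s c) * ((x j - ev μ (crd j) s c) * (x k - ev μ (crd k) s c))))
      (tilt μ s c) := fun i j k =>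
    (integrable_tilt hM.sup (Loc.of_cont (by fun_prop)) s c).const_mul _
  have e : ∀ x : Euc n, zl μ s c w x * (zl μ s c θ x * zl μ s c θ' x) = ∑ i, ∑ j, ∑ k,
      w i * θ j * θ' k
        * ((x i - ev μ (crd i) s c) * ((x j - ev μ (crd j) s c) * (x k - ev μ (crd k) s c))) := by
    intro x
    simp only [zl]
    rw [Finset.sum_mul]
    refine Finset.sum_congr rfl fun i _ => ?_
    rw [Finset.sum_mul_sum, Finset.mul_sum]
    refine Finset.sum_congr rfl fun j _ => ?_
    rw [Finset.mul_sum]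
    exact Finset.sum_congr rfl fun k _ => by ring
  simp only [e]
  rw [integral_finsetSum _ fun i _ => integrable_finsetSum _ fun j _ =>
    integrable_finsetSum _ fun k _ => hi i j k]
  refine Finset.sum_congr rfl fun i _ => ?_
  rw [integral_finsetSum _ fun j _ => integrable_finsetSum _ fun k _ => hi i j k, dotProduct,
    Finset.mul_sum]
  refine Finset.sum_congr rfl fun j _ => ?_
  rw [integral_finsetSum _ fun k _ => hi i j k, Matrix.mulVec, dotProduct]
  simp only [Finset.mul_sum, integral_const_mul, H3_apply hM.sup]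
  exact Finset.sum_congr rfl fun k _ => by ring

/-- The tensor bound from the Poincaré inequality. -/
lemma tensor_le (hQP : QuadPoi) {s : ℝ} (hs : 0 < s) (c : Euc n) {Λ : ℝ} (hΛ0 : 0 < Λ)
    (hΛ : ∀ θ : Fin n → ℝ, θ ⬝ᵥ (Gm μ s c *ᵥ θ) ≤ Λ * (θ ⬝ᵥ θ)) (θ : Fin n → ℝ) :
    ∑ i, (H3 μ i s c *ᵥ θ) ⬝ᵥ (H3 μ i s c *ᵥ θ)
      ≤ 4 * Real.sqrt (Λ / s) * Λ * (θ ⬝ᵥ (Gm μ s c *ᵥ θ)) := by
  haveI := hM.prob
  haveI := isProbability_tilt hM.sup s c
  set A : Matrix (Fin n) (Fin n) ℝ := Matrix.of fun i k => (H3 μ i s c *ᵥ θ) k with hA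
  set m : Euc n := WithLp.toLp 2 fun j => ev μ (crd j) s c with hm
  set q : Euc n → ℝ := fun x => ∑ j, ∑ k, A j k * (x j - m j) * (x k - m k) with hq
  have hzz : ∀ i k : Fin n, A i k = ∫ x, zl μ s c (Pi.single i 1) x
      * (zl μ s c (Pi.single k 1) x * zl μ s c θ x) ∂tilt μ s c := by
    intro i k
    rw [← cubic_eq hM]
    simp [hA, Pi.single_apply, Finset.sum_ite_eq', single_dotProduct]
  have hz1 : ∀ (i : Fin n) (x : Euc n), zl μ s c (Pi.single i 1) x = x i - m i := fun i x => by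
    simp [zl, hm, Pi.single_apply, Finset.sum_ite_eq']
  have hAs : A.IsSymm := by
    ext i k
    rw [Matrix.transpose_apply, hzz, hzz]
    exact integral_congr_ae (Eventually.of_forall fun x => by ring)
  set S := ∑ i, (H3 μ i s c *ᵥ θ) ⬝ᵥ (H3 μ i s c *ᵥ θ) with hS
  have hSA : S = ∑ i, ∑ k, A i k * A i k := rfl
  have hcont : Continuous q := by simp only [hq]; fun_prop
  have iq : Loc R q := Loc.of_cont hcont
  have hzS : ∫ x, zl μ s c θ x * (q x - ∫ y, q y ∂tilt μ s c) ∂tilt μ s c = S := by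
    have iz := integrable_tilt hM.sup (loc_zl hM s c θ) s c
    have izq := integrable_tilt hM.sup ((loc_zl hM s c θ).mul iq) s c
    simp only [mul_sub]
    rw [integral_sub izq (iz.mul_const _), integral_mul_const, integral_zl hM, zero_mul, sub_zero,
      hSA]
    have hi : ∀ i k : Fin n, Integrable (fun x : Euc n => A i k * (zl μ s c (Pi.single i 1) x
        * (zl μ s c (Pi.single k 1) x * zl μ s c θ x))) (tilt μ s c) := fun i k =>
      (integrable_tilt hM.sup ((loc_zl hM s c _).mul ((loc_zl hM s c _).mul (loc_zl hM s c θ))) s c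
        ).const_mul _
    have e : ∀ x, zl μ s c θ x * q x = ∑ i, ∑ k, A i k * (zl μ s c (Pi.single i 1) x
        * (zl μ s c (Pi.single k 1) x * zl μ s c θ x)) := fun x => by
      simp only [hq, hz1, Finset.mul_sum]
      exact Finset.sum_congr rfl fun i _ => Finset.sum_congr rfl fun k _ => by ring
    simp only [e]
    rw [integral_finsetSum _ fun i _ => integrable_finsetSum _ fun k _ => hi i k]
    refine Finset.sum_congr rfl fun i _ => ?_
    rw [integral_finsetSum _ fun k _ => hi i k]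
    exact Finset.sum_congr rfl fun k _ => by rw [integral_const_mul, ← hzz]
  have hcs := cs_tilt hM s c (loc_zl hM s c θ)
    (Loc.of_cont (hcont.sub continuous_const) : Loc R fun x => q x - ∫ y, q y ∂tilt μ s c)
  rw [hzS, ← quad_zl hM] at hcs
  have hvar : ∫ x, (q x - ∫ y, q y ∂tilt μ s c) ^ 2 ∂tilt μ s c
      = (∫ x, q x ^ 2 ∂tilt μ s c) - (∫ x, q x ∂tilt μ s c) ^ 2 := by
    have i1 := integrable_tilt hM.sup iq s c
    have i2 : Integrable (fun x => q x ^ 2) (tilt μ s c) :=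
      integrable_tilt hM.sup (Loc.of_cont (hcont.pow 2)) s c
    set mq := ∫ y, q y ∂tilt μ s c with hmq
    have e : ∀ x, (q x - mq) ^ 2 = q x ^ 2 - 2 * mq * q x + mq ^ 2 := fun x => by ring
    simp only [e]
    rw [integral_add, integral_sub i2 (i1.const_mul _), integral_const_mul, integral_const,
      probReal_univ, one_smul, ← hmq]
    · ring
    · exact i2.sub (i1.const_mul _)
    · exact integrable_const _
  have hmom : ∀ η : Euc n, ∫ x, ⟪x - m, η⟫ ^ 2 ∂tilt μ s c ≤ Λ * ‖η‖ ^ 2 := fun η => by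
    have e : ∀ x : Euc n, ⟪x - m, η⟫ = zl μ s c (fun i => η i) x := fun x => by
      simp [PiLp.inner_apply, zl, hm, mul_comm]
    simp only [e, ← quad_zl hM]
    refine (hΛ _).trans (le_of_eq ?_)
    rw [EuclideanSpace.norm_sq_eq]
    simp [dotProduct, sq]
  have hP := hQP hM.cut hs c (hM.tilt_eq s c) m hΛ0 hmom A hAs
  rw [← hvar] at hP
  have hD : ∫ x, ∑ j, (∑ k, A j k * (x k - m k)) ^ 2 ∂tilt μ s c ≤ Λ * S := by
    have e : ∀ (j : Fin n) (x : Euc n), ∑ k, A j k * (x k - m k) = zl μ s c (fun k => A j k) x :=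
      fun j x => by simp [zl, hm]
    simp only [e]
    rw [integral_finsetSum _ fun j _ => integrable_tilt hM.sup (f := fun x => zl μ s c _ x ^ 2)
      (Loc.of_cont ((continuous_zl μ s c _).pow 2)) s c, hSA, Finset.mul_sum]
    refine Finset.sum_le_sum fun j _ => ?_
    rw [← quad_zl hM]
    exact hΛ _
  have hlam : 0 ≤ θ ⬝ᵥ (Gm μ s c *ᵥ θ) := by
    rw [quad_zl hM]; exact integral_nonneg fun x => sq_nonneg _
  have hmain : S * S ≤ 4 * Real.sqrt (Λ / s) * Λ * (θ ⬝ᵥ (Gm μ s c *ᵥ θ)) * S := by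
    rw [← sq]
    refine hcs.trans ((mul_le_mul_of_nonneg_left (hP.trans (mul_le_mul_of_nonneg_left hD
      (by positivity))) hlam).trans (le_of_eq ?_))
    ring
  rcases (show 0 ≤ S from Finset.sum_nonneg fun i _ => Finset.sum_nonneg fun k _ =>
    mul_self_nonneg _).eq_or_lt with h | h
  · rw [← h]; positivity
  · exact le_of_mul_le_mul_right hmain h

lemma evd_g_eq (i : Fin n) (s : ℝ) (c : Euc n) {g : Euc n → ℝ} (hg : Loc R g) :
    (evd μ g).g i s c = ∫ x, (x i - ev μ (crd i) s c) * g x ∂tilt μ s c := by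
  haveI := hM.prob
  have i1 := integrable_tilt hM.sup (f := fun x => x i * g x) ((loc_crd i).mul hg) s c
  have i2 := integrable_tilt hM.sup hg s c
  rw [evd_g hM.sup]
  simp only [sub_mul]
  rw [integral_sub i1 (i2.const_mul _), integral_const_mul, ev_eq hM.sup (fun x => x i * g x),
    ev_eq hM.sup g]

lemma dir_grad (s : ℝ) (c : Euc n) {g : Euc n → ℝ} (hg : Loc R g) (w : Fin n → ℝ) :
    ∑ i, w i * (evd μ g).g i s c = ∫ x, zl μ s c w x * g x ∂tilt μ s c := by
  haveI := hM.prob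
  have hi : ∀ i : Fin n, Integrable (fun x : Euc n => w i * ((x i - ev μ (crd i) s c) * g x))
      (tilt μ s c) := fun i =>
    (integrable_tilt hM.sup ((Loc.of_cont (by fun_prop)).mul hg) s c).const_mul _
  have e : ∀ x, zl μ s c w x * g x = ∑ i, w i * ((x i - ev μ (crd i) s c) * g x) := fun x => by
    simp only [zl, Finset.sum_mul, mul_assoc]
  simp only [e]
  rw [integral_finsetSum _ fun i _ => hi i]
  exact Finset.sum_congr rfl fun i _ => by rw [integral_const_mul, evd_g_eq hM i s c hg]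

/-- The gradient of the probability of any set. -/
lemma grad_set_le (s : ℝ) (c : Euc n) {Λ : ℝ} (hΛ0 : 0 ≤ Λ)
    (hΛ : ∀ θ : Fin n → ℝ, θ ⬝ᵥ (Gm μ s c *ᵥ θ) ≤ Λ * (θ ⬝ᵥ θ)) {B : Set (Euc n)}
    (hB : MeasurableSet B) :
    Real.sqrt (∑ i, (evd μ (B.indicator one1)).g i s c ^ 2) ≤ Real.sqrt Λ := by
  haveI := hM.prob
  haveI := isProbability_tilt hM.sup s c
  have hl : Loc R (B.indicator (one1 : Euc n → ℝ)) := Loc.indicator hB
  set w := fun i => (evd μ (B.indicator one1)).g i s c with hw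
  set S := ∑ i, w i ^ 2 with hS
  refine Real.sqrt_le_sqrt ?_
  have e : S = ∫ x, zl μ s c w x * B.indicator one1 x ∂tilt μ s c := by
    rw [← dir_grad hM s c hl, hS]
    simp only [hw, sq]
  have h1 : ∫ x, B.indicator one1 x ^ 2 ∂tilt μ s c ≤ 1 := by
    refine (integral_mono_of_nonneg (Eventually.of_forall fun x => sq_nonneg _) (integrable_const 1)
      (Eventually.of_forall fun x => ?_)).trans (le_of_eq (by simp))
    by_cases hx : x ∈ B <;> simp [hx, one1]
  have h2 := cs_tilt hM s c (loc_zl hM s c w) hl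
  rw [← e, ← quad_zl hM] at h2
  have h3 : S * S ≤ Λ * S := by
    rw [← sq]
    refine (h2.trans (mul_le_mul (hΛ w) h1 (integral_nonneg fun x => sq_nonneg _) ?_)).trans
      (le_of_eq ?_)
    · exact mul_nonneg hΛ0 (Finset.sum_nonneg fun i _ => mul_self_nonneg _)
    · simp [hS, dotProduct, sq]
  rcases (show 0 ≤ S from Finset.sum_nonneg fun i _ => sq_nonneg _).eq_or_lt with h | h
  · show S ≤ Λ; rw [← h]; exact hΛ0
  · exact le_of_mul_le_mul_right h3 h

lemma tilt_mid (s : ℝ) (hs : 0 ≤ s) (c : Euc n) (x y : Euc n) :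
    (f x * ew s c x / ∫ z, f z * ew s c z) * (f y * ew s c y / ∫ z, f z * ew s c z)
      ≤ (f ((2 : ℝ)⁻¹ • (x + y)) * ew s c ((2 : ℝ)⁻¹ • (x + y)) / ∫ z, f z * ew s c z) ^ 2 := by
  rw [div_mul_div_comm, div_pow, ← sq (∫ z, f z * ew s c z), mul_pow, mul_mul_mul_comm]
  refine div_le_div_of_nonneg_right (mul_le_mul (hM.cut.mid x y) ?_
    (mul_nonneg (ew_pos s c x).le (ew_pos s c y).le) (sq_nonneg _)) (sq_nonneg _)
  simp only [ew, ← Real.exp_add, ← Real.exp_nat_mul, Real.exp_le_exp]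
  have hp := parallelogram_law_with_norm ℝ x y
  have hm : ‖(2 : ℝ)⁻¹ • (x + y)‖ ^ 2 = ‖x + y‖ ^ 2 / 4 := by
    rw [norm_smul, mul_pow]; norm_num; ring
  rw [hm, real_inner_smul_right, inner_add_right]
  push_cast
  nlinarith [mul_nonneg hs (mul_self_nonneg ‖x - y‖)]

omit hM in
/-- Borell's bounds at a tilt. -/
lemma borell_tilt : ∃ κ : ℝ, 1 ≤ κ ∧ ∀ {n : ℕ} {f : Euc n → ℝ} {R : ℝ} {μ : Measure (Euc n)},
    Mdl f R μ → ∀ {s : ℝ}, 0 ≤ s → ∀ (c : Euc n) (θ : Fin n → ℝ),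
      ∫ x, zl μ s c θ x ^ 4 ∂tilt μ s c ≤ κ * (θ ⬝ᵥ (Gm μ s c *ᵥ θ)) ^ 2 ∧
      ∀ B : Set (Euc n), MeasurableSet B → ∀ L : ℝ, 0 ≤ L →
        ∫ x in B, |zl μ s c θ x| ∂tilt μ s c
          ≤ κ * Real.sqrt (θ ⬝ᵥ (Gm μ s c *ᵥ θ))
            * (ev μ (B.indicator one1) s c * (L + 1) + Real.exp (-L)) := by
  obtain ⟨κ, hκ, h⟩ := borell_moments
  refine ⟨κ, hκ, fun {n f R μ} hM {s} hs c θ => ?_⟩
  haveI := hM.prob
  haveI := isProbability_tilt hM.sup s c
  have hfm : Measurable fun x => f x * ew s c x / ∫ z, f z * ew s c z :=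
    (hM.cut.meas.mul (by unfold ew; fun_prop)).div_const _
  have h0 : ∀ x, 0 ≤ f x * ew s c x / ∫ z, f z * ew s c z := fun x =>
    div_nonneg (mul_nonneg (hM.cut.nonneg x) (ew_pos s c x).le)
      (integral_nonneg fun z => mul_nonneg (hM.cut.nonneg z) (ew_pos s c z).le)
  obtain ⟨h1, h2, h3⟩ := h hfm h0 (tilt_mid hM s hs c) (hM.tilt_eq s c) (WithLp.toLp 2 θ)
    (integrable_tilt hM.sup (Loc.of_cont (by fun_prop)) s c)
  have e : ∀ x, ⟪x, WithLp.toLp 2 θ⟫ - ∫ y, ⟪y, WithLp.toLp 2 θ⟫ ∂tilt μ s c = zl μ s c θ x :=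
    fun x => (zl_eq hM s c (WithLp.toLp 2 θ) x).symm
  simp only [e, ← quad_zl hM] at h2 h3
  refine ⟨h2, fun B hB L hL => ?_⟩
  have eB : ev μ (B.indicator one1) s c = (tilt μ s c).real B := by
    rw [ev_eq hM.sup]
    exact integral_indicator_one hB
  rw [eB]
  exact h3 B hB L hL

end

end Vale.Agent.P245.SL
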