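import Mathlib

/-!
Trace inequalities for a positive semidefinite matrix and symmetric matrices.
-/

open Matrix Finset

namespace Vale.Agent.P245.SL

variable {n : ℕ}

lemma spec {M : Matrix (Fin n) (Fin n) ℝ} (hM : M.PosSemidef) :
    ∃ (W : Matrix (Fin n) (Fin n) ℝ) (d : Fin n → ℝ), (∀ a, 0 ≤ d a) ∧ W * Wᵀ = 1 ∧ Wᵀ * W = 1 ∧
      ∀ p : ℕ, M ^ p = W * diagonal (fun a => d a ^ p) * Wᵀ := by
  set W : Matrix (Fin n) (Fin n) ℝ := (hM.isHermitian.eigenvectorUnitary : Matrix (Fin n) (Fin n) ℝ) with hW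
  have hs : star W = Wᵀ := by rw [star_eq_conjTranspose, conjTranspose_eq_transpose_of_trivial]
  have h1 : W * Wᵀ = 1 := by
    rw [← hs]; exact Unitary.mul_star_self_of_mem hM.isHermitian.eigenvectorUnitary.2
  have h2 : Wᵀ * W = 1 := by
    rw [← hs]; exact Unitary.star_mul_self_of_mem hM.isHermitian.eigenvectorUnitary.2
  refine ⟨W, hM.isHermitian.eigenvalues, hM.eigenvalues_nonneg, h1, h2, fun p => ?_⟩
  induction p with
  | zero => simp [h1]
  | succ p ih =>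
    have hspec : M = W * diagonal hM.isHermitian.eigenvalues * Wᵀ := by
      conv_lhs => rw [hM.isHermitian.spectral_theorem]
      rw [Unitary.conjStarAlgAut_apply, hs]
      rfl
    rw [pow_succ, ih]
    refine (congrArg (W * diagonal (fun a => hM.isHermitian.eigenvalues a ^ p) * Wᵀ * ·) hspec).trans ?_
    rw [show W * diagonal (fun a => hM.isHermitian.eigenvalues a ^ p) * Wᵀ
        * (W * diagonal hM.isHermitian.eigenvalues * Wᵀ)
      = W * (diagonal (fun a => hM.isHermitian.eigenvalues a ^ p) * (Wᵀ * W)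
        * diagonal hM.isHermitian.eigenvalues) * Wᵀ by simp only [Matrix.mul_assoc], h2, Matrix.mul_one,
      diagonal_mul_diagonal]
    simp only [pow_succ]

lemma col_quad (W X : Matrix (Fin n) (Fin n) ℝ) (a : Fin n) :
    (Wᵀ * X * W) a a = (fun i => W i a) ⬝ᵥ (X *ᵥ fun i => W i a) := by
  rw [Matrix.mul_assoc]; rfl

lemma trace_conj_diag (W X : Matrix (Fin n) (Fin n) ℝ) (d : Fin n → ℝ) :
    (W * diagonal d * Wᵀ * X).trace
      = ∑ a, d a * ((fun i => W i a) ⬝ᵥ (X *ᵥ fun i => W i a)) := by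
  rw [Matrix.mul_assoc, Matrix.trace_mul_comm, ← Matrix.mul_assoc, Matrix.trace_mul_comm]
  simp only [Matrix.trace, Matrix.diag, diagonal_mul, col_quad]

lemma eig_quad {M W : Matrix (Fin n) (Fin n) ℝ} {d : Fin n → ℝ} (h2 : Wᵀ * W = 1)
    (hp : ∀ p : ℕ, M ^ p = W * diagonal (fun a => d a ^ p) * Wᵀ) (a : Fin n) :
    (fun i => W i a) ⬝ᵥ (M *ᵥ fun i => W i a) = d a := by
  have hM : M = W * diagonal d * Wᵀ := by simpa using hp 1
  rw [← col_quad, hM, show Wᵀ * (W * diagonal d * Wᵀ) * W = (Wᵀ * W) * diagonal d * (Wᵀ * W) by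
    simp only [Matrix.mul_assoc], h2, Matrix.one_mul, Matrix.mul_one, diagonal_apply_eq]

lemma trace_pow_eq {M W : Matrix (Fin n) (Fin n) ℝ} {d : Fin n → ℝ} (h2 : Wᵀ * W = 1)
    (hp : ∀ p : ℕ, M ^ p = W * diagonal (fun a => d a ^ p) * Wᵀ) (p : ℕ) :
    (M ^ p).trace = ∑ a, d a ^ p := by
  rw [hp, Matrix.trace_mul_comm, ← Matrix.mul_assoc, h2, Matrix.one_mul]
  simp [Matrix.trace]

theorem trace_mixed_le {M H : Matrix (Fin n) (Fin n) ℝ} (hM : M.PosSemidef) (hH : H.IsSymm) (u v : ℕ) :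
    (M ^ u * H * M ^ v * H).trace ≤ (M ^ (u + v) * H * H).trace := by
  obtain ⟨W, d, hd, h1, h2, hp⟩ := spec hM
  set K := Wᵀ * H * W with hK
  have hKs : ∀ a b, K b a = K a b := fun a b => by
    have : Kᵀ = K := by
      rw [hK, transpose_mul, transpose_mul, transpose_transpose, hH.eq, Matrix.mul_assoc]
    exact congrFun (congrFun this a) b
  have e1 : (M ^ u * H * M ^ v * H).trace = ∑ a, ∑ b, d a ^ u * d b ^ v * K a b ^ 2 := by
    rw [hp, hp, show W * diagonal (fun a => d a ^ u) * Wᵀ * H * (W * diagonal (fun a => d a ^ v) * Wᵀ) * H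
      = W * (diagonal (fun a => d a ^ u) * K * diagonal (fun a => d a ^ v) * Wᵀ * H) by
      simp only [hK, Matrix.mul_assoc], Matrix.trace_mul_comm,
      show diagonal (fun a => d a ^ u) * K * diagonal (fun a => d a ^ v) * Wᵀ * H * W
        = diagonal (fun a => d a ^ u) * K * (diagonal (fun a => d a ^ v) * K) by
        simp only [hK, Matrix.mul_assoc]]
    simp only [Matrix.trace, Matrix.diag, Matrix.mul_apply (M := diagonal (fun a => d a ^ u) * K),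
      diagonal_mul]
    exact Finset.sum_congr rfl fun a _ => Finset.sum_congr rfl fun b _ => by rw [hKs a b]; ring
  have e2 : (M ^ (u + v) * H * H).trace = ∑ a, ∑ b, d a ^ (u + v) * K a b ^ 2 := by
    rw [hp, show W * diagonal (fun a => d a ^ (u + v)) * Wᵀ * H * H
      = W * (diagonal (fun a => d a ^ (u + v)) * Wᵀ * H * H) by simp only [Matrix.mul_assoc],
      Matrix.trace_mul_comm,
      show diagonal (fun a => d a ^ (u + v)) * Wᵀ * H * H * W
        = diagonal (fun a => d a ^ (u + v)) * K * (Wᵀ * H * W) by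
        simp only [hK, Matrix.mul_assoc]; rw [← Matrix.mul_assoc W Wᵀ, h1, Matrix.one_mul]]
    simp only [Matrix.trace, Matrix.diag,
      Matrix.mul_apply (M := diagonal (fun a => d a ^ (u + v)) * K), diagonal_mul, ← hK]
    exact Finset.sum_congr rfl fun a _ => Finset.sum_congr rfl fun b _ => by rw [hKs a b]; ring
  rw [e1, e2]
  have key : ∀ x y : ℝ, 0 ≤ x → 0 ≤ y →
      x ^ u * y ^ v + y ^ u * x ^ v ≤ x ^ (u + v) + y ^ (u + v) := fun x y hx hy => by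
    rw [pow_add, pow_add]
    rcases le_total x y with h | h
    · nlinarith [mul_nonneg (sub_nonneg.2 (pow_le_pow_left₀ hx h u))
        (sub_nonneg.2 (pow_le_pow_left₀ hx h v))]
    · nlinarith [mul_nonneg (sub_nonneg.2 (pow_le_pow_left₀ hy h u))
        (sub_nonneg.2 (pow_le_pow_left₀ hy h v))]
  have hL : ∑ a, ∑ b, d a ^ u * d b ^ v * K a b ^ 2
      = ∑ a, ∑ b, d b ^ u * d a ^ v * K a b ^ 2 := by
    rw [Finset.sum_comm]
    exact Finset.sum_congr rfl fun a _ => Finset.sum_congr rfl fun b _ => by rw [hKs a b]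
  have hR : ∑ a, ∑ b, d a ^ (u + v) * K a b ^ 2 = ∑ a, ∑ b, d b ^ (u + v) * K a b ^ 2 := by
    rw [Finset.sum_comm]
    exact Finset.sum_congr rfl fun a _ => Finset.sum_congr rfl fun b _ => by rw [hKs a b]
  have : ∑ a, ∑ b, (d a ^ u * d b ^ v * K a b ^ 2 + d b ^ u * d a ^ v * K a b ^ 2)
      ≤ ∑ a, ∑ b, (d a ^ (u + v) * K a b ^ 2 + d b ^ (u + v) * K a b ^ 2) :=
    Finset.sum_le_sum fun a _ => Finset.sum_le_sum fun b _ => by
      rw [← add_mul, ← add_mul]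
      exact mul_le_mul_of_nonneg_right (key _ _ (hd a) (hd b)) (sq_nonneg _)
  simp only [Finset.sum_add_distrib] at this
  linarith

theorem trace_tensor_le {ι : Type*} [Fintype ι] {M : Matrix (Fin n) (Fin n) ℝ} (hM : M.PosSemidef)
    {H : ι → Matrix (Fin n) (Fin n) ℝ} (hH : ∀ i, (H i).IsSymm) {B : ℝ}
    (hB : ∀ θ : Fin n → ℝ, ∑ i, (H i *ᵥ θ) ⬝ᵥ (H i *ᵥ θ) ≤ B * (θ ⬝ᵥ (M *ᵥ θ))) (p : ℕ) :
    ∑ i, (M ^ p * H i * H i).trace ≤ B * (M ^ (p + 1)).trace := by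
  obtain ⟨W, d, hd, -, h2, hp⟩ := spec hM
  have e : ∀ i, (M ^ p * H i * H i).trace
      = ∑ a, d a ^ p * ((H i *ᵥ fun j => W j a) ⬝ᵥ (H i *ᵥ fun j => W j a)) := fun i => by
    rw [hp, Matrix.mul_assoc (W * diagonal (fun a => d a ^ p) * Wᵀ), trace_conj_diag]
    refine Finset.sum_congr rfl fun a _ => ?_
    rw [← Matrix.mulVec_mulVec, Matrix.dotProduct_mulVec]
    conv_rhs => enter [2, 1]; rw [← (hH i).eq, Matrix.mulVec_transpose]
  simp only [e]
  rw [Finset.sum_comm, trace_pow_eq h2 hp, Finset.mul_sum]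
  refine Finset.sum_le_sum fun a _ => ?_
  rw [← Finset.mul_sum]
  refine (mul_le_mul_of_nonneg_left (hB _) (pow_nonneg (hd a) p)).trans (le_of_eq ?_)
  rw [eig_quad h2 hp, pow_succ]
  ring

theorem trace_lin_le {M H : Matrix (Fin n) (Fin n) ℝ} (hM : M.PosSemidef) (_hH : H.IsSymm) {κ : ℝ}
    (hκ : ∀ θ : Fin n → ℝ, |θ ⬝ᵥ (H *ᵥ θ)| ≤ κ * (θ ⬝ᵥ (M *ᵥ θ))) (p : ℕ) :
    |(M ^ p * H).trace| ≤ κ * (M ^ (p + 1)).trace := by
  obtain ⟨W, d, hd, -, h2, hp⟩ := spec hM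
  rw [trace_pow_eq h2 hp, Finset.mul_sum, hp, trace_conj_diag]
  refine (Finset.abs_sum_le_sum_abs _ _).trans (Finset.sum_le_sum fun a _ => ?_)
  rw [abs_mul, abs_of_nonneg (pow_nonneg (hd a) p)]
  refine (mul_le_mul_of_nonneg_left (hκ _) (pow_nonneg (hd a) p)).trans (le_of_eq ?_)
  rw [eig_quad h2 hp, pow_succ]
  ring

theorem quad_le_trace_pow {M : Matrix (Fin n) (Fin n) ℝ} (hM : M.PosSemidef) {q : ℕ} (hq : 1 ≤ q)
    (θ : Fin n → ℝ) : θ ⬝ᵥ (M *ᵥ θ) ≤ (M ^ q).trace ^ ((q : ℝ)⁻¹) * (θ ⬝ᵥ θ) := by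
  obtain ⟨W, d, hd, h1, h2, hp⟩ := spec hM
  have hM' : M = W * diagonal d * Wᵀ := by simpa using hp 1
  set y := Wᵀ *ᵥ θ with hy
  have e1 : θ ⬝ᵥ (M *ᵥ θ) = ∑ a, d a * (y a * y a) := by
    rw [hM', ← Matrix.mulVec_mulVec, ← Matrix.mulVec_mulVec, Matrix.dotProduct_mulVec,
      ← Matrix.mulVec_transpose, ← hy]
    simp only [dotProduct, Matrix.mulVec_diagonal]
    exact Finset.sum_congr rfl fun a _ => by ring
  have e2 : θ ⬝ᵥ θ = ∑ a, y a * y a := by
    conv_lhs => enter [2]; rw [← Matrix.one_mulVec θ, ← h1, ← Matrix.mulVec_mulVec]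
    rw [Matrix.dotProduct_mulVec, ← Matrix.mulVec_transpose, ← hy]
    rfl
  rw [e1, e2, trace_pow_eq h2 hp, Finset.mul_sum]
  refine Finset.sum_le_sum fun a _ => mul_le_mul_of_nonneg_right ?_ (mul_self_nonneg _)
  calc d a = (d a ^ q) ^ ((q : ℝ)⁻¹) := (Real.pow_rpow_inv_natCast (hd a) (by omega)).symm
    _ ≤ _ := Real.rpow_le_rpow (pow_nonneg (hd a) q)
        (Finset.single_le_sum (f := fun b => d b ^ q) (fun b _ => pow_nonneg (hd b) q)
          (Finset.mem_univ a)) (by positivity)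

theorem trace_pow_nonneg {M : Matrix (Fin n) (Fin n) ℝ} (hM : M.PosSemidef) (q : ℕ) :
    0 ≤ (M ^ q).trace := by
  obtain ⟨W, d, hd, -, h2, hp⟩ := spec hM
  rw [trace_pow_eq h2 hp]
  exact Finset.sum_nonneg fun a _ => pow_nonneg (hd a) q

theorem trace_pow_pred_le {M : Matrix (Fin n) (Fin n) ℝ} (hM : M.PosSemidef) {q : ℕ} (hq : 2 ≤ q) :
    (M ^ (q - 1)).trace ≤ (n : ℝ) ^ ((q : ℝ)⁻¹) * (M ^ q).trace ^ (1 - (q : ℝ)⁻¹) := by
  obtain ⟨W, d, hd, -, h2, hp⟩ := spec hM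
  rw [trace_pow_eq h2 hp, trace_pow_eq h2 hp]
  have hq2 : (2 : ℝ) ≤ q := by exact_mod_cast hq
  set P : ℝ := (q : ℝ) / (q - 1) with hP
  have hP1 : 1 ≤ P := by rw [hP, le_div_iff₀ (by linarith)]; linarith
  have h := Real.rpow_sum_le_const_mul_sum_rpow (Finset.univ : Finset (Fin n))
    (fun a => d a ^ (q - 1)) hP1
  have e : ∀ a, (|d a ^ (q - 1)|) ^ P = d a ^ q := fun a => by
    rw [abs_of_nonneg (pow_nonneg (hd a) _), ← Real.rpow_natCast, ← Real.rpow_mul (hd a),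
      Nat.cast_sub (by omega), Nat.cast_one, hP, mul_div_cancel₀ _ (by linarith), Real.rpow_natCast]
  simp only [e, Finset.card_univ, Fintype.card_fin] at h
  have habs : ∑ a, |d a ^ (q - 1)| = ∑ a, d a ^ (q - 1) :=
    Finset.sum_congr rfl fun a _ => abs_of_nonneg (pow_nonneg (hd a) _)
  rw [habs] at h
  have hS : 0 ≤ ∑ a, d a ^ (q - 1) := Finset.sum_nonneg fun a _ => pow_nonneg (hd a) _
  have hT : 0 ≤ ∑ a, d a ^ q := Finset.sum_nonneg fun a _ => pow_nonneg (hd a) _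
  have h3 := Real.rpow_le_rpow (Real.rpow_nonneg hS P) h (show (0 : ℝ) ≤ P⁻¹ by positivity)
  rw [Real.rpow_rpow_inv hS (by positivity), Real.mul_rpow (by positivity) hT,
    ← Real.rpow_mul (Nat.cast_nonneg n)] at h3
  have e3 : (P - 1) * P⁻¹ = (q : ℝ)⁻¹ := by
    rw [hP]
    have : (q : ℝ) - 1 ≠ 0 := by linarith
    field_simp; ring
  have e4 : P⁻¹ = 1 - (q : ℝ)⁻¹ := by
    rw [hP, inv_div]
    field_simp
  rwa [e3, e4] at h3

end Vale.Agent.P245.SL
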