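import Mathlib
import Vale.Agent.P245.SL.Moments
import Vale.Agent.P245.SL.Trace

/-!
The lower bound on the generator of the product of two tilted probabilities and a cut-off of the
trace of a high power of the covariance matrix.
-/

open MeasureTheory Filter Set Matrix
open scoped RealInnerProductSpace Topology
open Vale.Agent.P245.Sub

namespace Vale.Agent.P245.SL

variable {n : ℕ}

/-- The largest-eigenvalue proxy. -/
noncomputable def lamq (μ : Measure (Euc n)) (q : ℕ) (s : ℝ) (c : Euc n) : ℝ :=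
  ((TT μ q).val s c + 1) ^ ((q : ℝ)⁻¹)

/-- The data of the scaled proxy. -/
noncomputable def vd (μ : Measure (Euc n)) (q : ℕ) (Rn : ℝ) : TD n :=
  TD.comp (fun u => (u + 1) ^ ((q : ℝ)⁻¹) / Rn)
    (fun u => (q : ℝ)⁻¹ * (u + 1) ^ ((q : ℝ)⁻¹ - 1) / Rn)
    (fun u => (q : ℝ)⁻¹ * (((q : ℝ)⁻¹ - 1) * (u + 1) ^ ((q : ℝ)⁻¹ - 1 - 1)) / Rn) (TT μ q)

/-- The data of the cut-off. -/
noncomputable def chi (μ : Measure (Euc n)) (q : ℕ) (Rn : ℝ) : TD n :=
  TD.comp (fun u => Real.exp (-u)) (fun u => -Real.exp (-u)) (fun u => Real.exp (-u)) (vd μ q Rn)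

/-- The data of the functional. -/
noncomputable def Phi (μ : Measure (Euc n)) (A B : Set (Euc n)) (q : ℕ) (Rn : ℝ) : TD n :=
  TD.mul (TD.mul (evd μ (A.indicator one1)) (evd μ (B.indicator one1))) (chi μ q Rn)

lemma exp_poly (v : ℝ) (hv : 0 ≤ v) : Real.exp (-v) * v ≤ 2 ∧ Real.exp (-v) * v ^ 2 ≤ 2
    ∧ Real.exp (-v) * (v * Real.sqrt v) ≤ 2 := by
  have h1 : 1 + v ^ 2 ≤ 2 * Real.exp v := by linarith [Real.quadratic_le_exp_of_nonneg hv]
  have key : ∀ P : ℝ, P ≤ 1 + v ^ 2 → Real.exp (-v) * P ≤ 2 := fun P hP => by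
    rw [Real.exp_neg, inv_mul_le_iff₀ (Real.exp_pos v)]
    linarith
  refine ⟨key _ (by linarith [sq_nonneg (v - 1)]), key _ (by linarith), key _ ?_⟩
  rcases le_total v 1 with h | h
  · have : v * Real.sqrt v ≤ 1 * 1 :=
      mul_le_mul h (Real.sqrt_le_one.2 h) (Real.sqrt_nonneg _) zero_le_one
    linarith [sq_nonneg v]
  · have : Real.sqrt v ≤ v := Real.sqrt_le_iff.2 ⟨hv, by nlinarith⟩
    have := mul_le_mul_of_nonneg_left this hv
    linarith

lemma neg_sqrt_le_sum {ι : Type*} (t : Finset ι) (F G : ι → ℝ) :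
    -(Real.sqrt (∑ i ∈ t, F i ^ 2) * Real.sqrt (∑ i ∈ t, G i ^ 2)) ≤ ∑ i ∈ t, F i * G i := by
  have h := Real.sum_mul_le_sqrt_mul_sqrt t (fun i => -F i) G
  simp only [neg_mul, Finset.sum_neg_distrib, neg_sq] at h
  linarith

section

variable {f : Euc n → ℝ} {R : ℝ} {μ : Measure (Euc n)} (hM : Mdl f R μ)
include hM

lemma TT_nonneg (q : ℕ) (s : ℝ) (c : Euc n) : 0 ≤ (TT μ q).val s c := by
  haveI := hM.prob
  rw [TT_val]; exact trace_pow_nonneg (posSemidef_Gm hM.sup s c) q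

lemma one_le_lamq (q : ℕ) (s : ℝ) (c : Euc n) : 1 ≤ lamq μ q s c :=
  Real.one_le_rpow (by linarith [TT_nonneg hM q s c]) (by positivity)

lemma lamq_pos (q : ℕ) (s : ℝ) (c : Euc n) : 0 < lamq μ q s c :=
  lt_of_lt_of_le one_pos (one_le_lamq hM q s c)

lemma quad_le_lamq {q : ℕ} (hq : 1 ≤ q) (s : ℝ) (c : Euc n) (θ : Fin n → ℝ) :
    θ ⬝ᵥ (Gm μ s c *ᵥ θ) ≤ lamq μ q s c * (θ ⬝ᵥ θ) := by
  haveI := hM.prob
  refine (quad_le_trace_pow (posSemidef_Gm hM.sup s c) hq θ).trans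
    (mul_le_mul_of_nonneg_right ?_ (Finset.sum_nonneg fun i _ => mul_self_nonneg _))
  rw [lamq, TT_val]
  exact Real.rpow_le_rpow (trace_pow_nonneg (posSemidef_Gm hM.sup s c) q) (by linarith) (by positivity)

lemma quad_nonneg (s : ℝ) (c : Euc n) (θ : Fin n → ℝ) : 0 ≤ θ ⬝ᵥ (Gm μ s c *ᵥ θ) := by
  rw [quad_zl hM]; exact integral_nonneg fun x => sq_nonneg _

lemma trace_D_le (s : ℝ) (c : Euc n) (i : Fin n) : ∀ (k a b : ℕ),
    (Gm μ s c ^ a * Dk μ k i s c * Gm μ s c ^ b * H3 μ i s c).trace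
      ≤ k * (Gm μ s c ^ (k - 1 + a + b) * H3 μ i s c * H3 μ i s c).trace := by
  haveI := hM.prob
  intro k
  induction k with
  | zero => intro a b; simp [Dk_zero]
  | succ k ih =>
    intro a b
    rw [Dk_succ, Matrix.mul_add, Matrix.add_mul, Matrix.add_mul, trace_add]
    have e1 : Gm μ s c ^ a * (Dk μ k i s c * Gm μ s c) * Gm μ s c ^ b
        = Gm μ s c ^ a * Dk μ k i s c * Gm μ s c ^ (b + 1) := by
      rw [pow_succ']; simp only [Matrix.mul_assoc]
    have e2 : Gm μ s c ^ a * (Gm μ s c ^ k * H3 μ i s c) * Gm μ s c ^ b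
        = Gm μ s c ^ (a + k) * H3 μ i s c * Gm μ s c ^ b := by
      rw [pow_add]; simp only [Matrix.mul_assoc]
    rw [e1, e2, Nat.cast_add, Nat.cast_one, add_mul, one_mul, Nat.add_sub_cancel]
    refine add_le_add ((ih a (b + 1)).trans (le_of_eq ?_)) ?_
    · rcases Nat.eq_zero_or_pos k with rfl | hk
      · simp
      · rw [show k - 1 + a + (b + 1) = k + a + b by omega]
    · have h := trace_mixed_le (posSemidef_Gm hM.sup s c) (H3_symm hM.sup i s c) (a + k) b
      rwa [show a + k + b = k + a + b by omega] at h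

lemma trace_D (s : ℝ) (c : Euc n) (i : Fin n) : ∀ (k a : ℕ),
    (Gm μ s c ^ a * Dk μ k i s c).trace
      = k * (Gm μ s c ^ (a + k - 1) * H3 μ i s c).trace := by
  intro k
  induction k with
  | zero => intro a; simp [Dk_zero]
  | succ k ih =>
    intro a
    rw [Dk_succ, Matrix.mul_add, trace_add, Nat.cast_add, Nat.cast_one, add_mul, one_mul,
      ← Matrix.mul_assoc, Matrix.trace_mul_cycle, ← Matrix.mul_assoc, ← pow_add, ← pow_succ', ih]
    congr 1
    rw [show a + 1 + k - 1 = a + (k + 1) - 1 by omega]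

lemma trace_G_le (s : ℝ) (c : Euc n) : ∀ (k j : ℕ),
    (Gk μ k s c * Gm μ s c ^ j).trace
      ≤ (k.choose 2 : ℕ) * ∑ i, (Gm μ s c ^ (k - 2 + j) * H3 μ i s c * H3 μ i s c).trace := by
  haveI := hM.prob
  intro k
  induction k with
  | zero => intro j; simp [Gk_zero]
  | succ k ih =>
    intro j
    have hgen : (Matrix.of fun r l => gen μ (GT μ r l) s c) = -(Gm μ s c * Gm μ s c) := by
      ext r l
      rw [Matrix.of_apply, gen_GT hM.sup, Matrix.neg_apply]
    rw [Gk_succ, hgen, Matrix.add_mul, Matrix.add_mul, trace_add, trace_add, Matrix.mul_neg,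
      Matrix.neg_mul, trace_neg, Finset.sum_mul, trace_sum]
    have h0 : 0 ≤ (Gm μ s c ^ k * (Gm μ s c * Gm μ s c) * Gm μ s c ^ j).trace := by
      have e : Gm μ s c ^ k * (Gm μ s c * Gm μ s c) * Gm μ s c ^ j = Gm μ s c ^ (k + 2 + j) := by
        rw [pow_add, pow_add, pow_two]
      rw [e]
      exact trace_pow_nonneg (posSemidef_Gm hM.sup s c) _
    have h1 : (Gk μ k s c * Gm μ s c * Gm μ s c ^ j).trace
        ≤ (k.choose 2 : ℕ) * ∑ i, (Gm μ s c ^ (k - 2 + (j + 1)) * H3 μ i s c * H3 μ i s c).trace := by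
      rw [Matrix.mul_assoc, ← pow_succ']; exact ih (j + 1)
    have h2 : ∑ i, (Dk μ k i s c * H3 μ i s c * Gm μ s c ^ j).trace
        ≤ (k : ℝ) * ∑ i, (Gm μ s c ^ (k - 1 + j) * H3 μ i s c * H3 μ i s c).trace := by
      rw [Finset.mul_sum]
      refine Finset.sum_le_sum fun i _ => ?_
      rw [Matrix.trace_mul_cycle]
      simpa using trace_D_le hM s c i k j 0
    have e3 : ((k + 1).choose 2 : ℕ) = k + k.choose 2 := by
      rw [Nat.choose_succ_succ', Nat.choose_one_right]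
    have key : (k.choose 2 : ℕ) * (∑ i, (Gm μ s c ^ (k - 2 + (j + 1)) * H3 μ i s c * H3 μ i s c).trace)
        + (k : ℝ) * ∑ i, (Gm μ s c ^ (k - 1 + j) * H3 μ i s c * H3 μ i s c).trace
        = ((k + 1).choose 2 : ℕ)
          * ∑ i, (Gm μ s c ^ (k + 1 - 2 + j) * H3 μ i s c * H3 μ i s c).trace := by
      rw [e3]
      rcases Nat.lt_or_ge k 2 with hk | hk
      · rw [Nat.choose_eq_zero_of_lt hk]
        rcases Nat.eq_zero_or_pos k with rfl | hk1
        · simp
        · rw [show k + 1 - 2 + j = k - 1 + j by omega]; push_cast; ring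
      · rw [show k - 2 + (j + 1) = k - 1 + j by omega, show k + 1 - 2 + j = k - 1 + j by omega]
        push_cast; ring
    linarith

variable (hQP : QuadPoi) {s : ℝ} (hs : 0 < s) (c : Euc n) {q : ℕ} (hq : 2 ≤ q)
include hQP hs hq

lemma gen_TT_le : gen μ (TT μ q) s c ≤ 2 * (q : ℝ) ^ 2 * (n : ℝ) ^ ((q : ℝ)⁻¹)
    * (Real.sqrt (lamq μ q s c) / Real.sqrt s) * ((TT μ q).val s c + 1) := by
  haveI := hM.prob
  set Λ := lamq μ q s c with hΛ
  set M := Gm μ s c with hMdef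
  have hΛ0 : 0 < Λ := lamq_pos hM q s c
  have hMp := posSemidef_Gm hM.sup s c
  have h1 := trace_G_le hM s c q 0
  rw [pow_zero, Matrix.mul_one, add_zero, ← gen_TT] at h1
  have h2 := trace_tensor_le hMp (fun i => H3_symm hM.sup i s c)
    (tensor_le hM hQP hs c hΛ0 (quad_le_lamq hM (by omega) s c)) (q - 2)
  rw [show q - 2 + 1 = q - 1 by omega, Real.sqrt_div hΛ0.le] at h2
  have h3 : Λ * (M ^ (q - 1)).trace ≤ (n : ℝ) ^ ((q : ℝ)⁻¹) * ((TT μ q).val s c + 1) := by
    have hT : 0 ≤ (M ^ q).trace := trace_pow_nonneg hMp q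
    have hq0 : (q : ℝ)⁻¹ ≤ 1 := inv_le_one_of_one_le₀ (by exact_mod_cast (by omega : 1 ≤ q))
    rw [hΛ, lamq, TT_val]
    calc ((M ^ q).trace + 1) ^ ((q : ℝ)⁻¹) * (M ^ (q - 1)).trace
        ≤ ((M ^ q).trace + 1) ^ ((q : ℝ)⁻¹)
          * ((n : ℝ) ^ ((q : ℝ)⁻¹) * ((M ^ q).trace + 1) ^ (1 - (q : ℝ)⁻¹)) :=
          mul_le_mul_of_nonneg_left ((trace_pow_pred_le hMp hq).trans (mul_le_mul_of_nonneg_left
            (Real.rpow_le_rpow hT (by linarith) (by linarith)) (by positivity))) (by positivity)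
      _ = _ := by
          rw [mul_left_comm, ← Real.rpow_add (by linarith : (0 : ℝ) < (M ^ q).trace + 1),
            add_sub_cancel, Real.rpow_one]
  have hch : ((q.choose 2 : ℕ) : ℝ) ≤ (q : ℝ) ^ 2 / 2 := by
    rw [Nat.cast_choose_two]; nlinarith [(Nat.cast_nonneg q : (0 : ℝ) ≤ q)]
  have hc0 : (0 : ℝ) ≤ 4 * (Real.sqrt Λ / Real.sqrt s) := by positivity
  calc gen μ (TT μ q) s c
      ≤ (q.choose 2 : ℕ) * (4 * (Real.sqrt Λ / Real.sqrt s) * Λ * (M ^ (q - 1)).trace) :=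
        h1.trans (mul_le_mul_of_nonneg_left h2 (Nat.cast_nonneg _))
    _ ≤ (q : ℝ) ^ 2 / 2 * (4 * (Real.sqrt Λ / Real.sqrt s)
        * ((n : ℝ) ^ ((q : ℝ)⁻¹) * ((TT μ q).val s c + 1))) := by
        refine mul_le_mul hch ?_ (mul_nonneg (mul_nonneg hc0 hΛ0.le) (trace_pow_nonneg hMp _))
          (by positivity)
        rw [mul_assoc]
        exact mul_le_mul_of_nonneg_left h3 hc0
    _ = _ := by ring

omit hQP in
lemma grad_TT_le {κ : ℝ} (hκ : 1 ≤ κ)
    (h4 : ∀ θ : Fin n → ℝ, ∫ x, zl μ s c θ x ^ 4 ∂tilt μ s c ≤ κ * (θ ⬝ᵥ (Gm μ s c *ᵥ θ)) ^ 2) :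
    Real.sqrt (∑ i, (TT μ q).g i s c ^ 2)
      ≤ q * κ * Real.sqrt (lamq μ q s c) * ((TT μ q).val s c + 1) := by
  haveI := hM.prob
  set Λ := lamq μ q s c with hΛ
  have hΛ0 : 0 < Λ := lamq_pos hM q s c
  have hMp := posSemidef_Gm hM.sup s c
  set w := fun i => (TT μ q).g i s c with hw
  set S := ∑ i, w i ^ 2 with hS
  have hS0 : 0 ≤ S := Finset.sum_nonneg fun i _ => sq_nonneg _
  set H := ∑ i, w i • H3 μ i s c with hH
  have hHs : H.IsSymm := by
    simp only [Matrix.IsSymm, hH, transpose_sum, transpose_smul]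
    exact Finset.sum_congr rfl fun i _ => by rw [(H3_symm hM.sup i s c).eq]
  have hlin : ∀ θ : Fin n → ℝ,
      |θ ⬝ᵥ (H *ᵥ θ)| ≤ κ * Real.sqrt (Λ * S) * (θ ⬝ᵥ (Gm μ s c *ᵥ θ)) := by
    intro θ
    have e : θ ⬝ᵥ (H *ᵥ θ) = ∫ x, zl μ s c w x * (zl μ s c θ x * zl μ s c θ x) ∂tilt μ s c := by
      rw [← cubic_eq hM, hH, Matrix.sum_mulVec, dotProduct_sum]
      exact Finset.sum_congr rfl fun i _ => by rw [Matrix.smul_mulVec, dotProduct_smul]; rfl
    rw [e]
    set lam := θ ⬝ᵥ (Gm μ s c *ᵥ θ)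
    have hlam : 0 ≤ lam := quad_nonneg hM s c θ
    have h := cs_tilt hM s c (loc_zl hM s c w) ((loc_zl hM s c θ).mul (loc_zl hM s c θ))
    rw [← quad_zl hM] at h
    have e4 : ∀ x, (zl μ s c θ x * zl μ s c θ x) ^ 2 = zl μ s c θ x ^ 4 := fun x => by ring
    simp only [e4] at h
    have hwS : w ⬝ᵥ (Gm μ s c *ᵥ w) ≤ Λ * S := by
      refine (quad_le_lamq hM (q := q) (by omega) s c w).trans (le_of_eq ?_)
      simp [hΛ, hS, dotProduct, sq]
    have h' := h.trans (mul_le_mul hwS (h4 θ)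
      (integral_nonneg fun x => by positivity) (by positivity))
    have h'' := Real.abs_le_sqrt h'
    refine h''.trans ?_
    rw [Real.sqrt_mul (by positivity : (0 : ℝ) ≤ Λ * S), Real.sqrt_mul (by linarith : (0 : ℝ) ≤ κ),
      Real.sqrt_sq hlam]
    have hk : Real.sqrt κ ≤ κ := Real.sqrt_le_iff.2 ⟨by linarith, by nlinarith⟩
    calc Real.sqrt (Λ * S) * (Real.sqrt κ * lam) ≤ Real.sqrt (Λ * S) * (κ * lam) :=
          mul_le_mul_of_nonneg_left (mul_le_mul_of_nonneg_right hk hlam) (Real.sqrt_nonneg _)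
      _ = _ := by ring
  have ht := trace_lin_le hMp hHs hlin (q - 1)
  rw [show q - 1 + 1 = q by omega, ← TT_val] at ht
  have e : (Gm μ s c ^ (q - 1) * H).trace * q = S := by
    rw [hH, Matrix.mul_sum, trace_sum, Finset.sum_mul, hS]
    refine Finset.sum_congr rfl fun i _ => ?_
    have h := trace_D hM s c i q 0
    rw [pow_zero, Matrix.one_mul, zero_add, ← TT_g] at h
    rw [Matrix.mul_smul, trace_smul, smul_eq_mul, sq]
    simp only [hw]
    rw [h]; ring
  have h5 : S ≤ q * κ * Real.sqrt Λ * ((TT μ q).val s c + 1) * Real.sqrt S := by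
    calc S = (Gm μ s c ^ (q - 1) * H).trace * q := e.symm
      _ ≤ κ * Real.sqrt (Λ * S) * ((TT μ q).val s c + 1) * q := by
          refine mul_le_mul_of_nonneg_right (((le_abs_self _).trans ht).trans
            (mul_le_mul_of_nonneg_left (by linarith) (by positivity))) (Nat.cast_nonneg q)
      _ = _ := by rw [Real.sqrt_mul hΛ0.le]; ring
  have hT := TT_nonneg hM q s c
  show Real.sqrt S ≤ _
  rcases (Real.sqrt_nonneg S).eq_or_lt with h | h
  · rw [← h]; positivity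
  · refine le_of_mul_le_mul_right ?_ h
    rwa [Real.mul_self_sqrt hS0]

omit hQP in
lemma grad_tail_le {κ : ℝ} (hκ : 1 ≤ κ) {B : Set (Euc n)} (hB : MeasurableSet B) {L : ℝ}
    (hL : 0 ≤ L)
    (hb : ∀ θ : Fin n → ℝ, ∫ x in B, |zl μ s c θ x| ∂tilt μ s c
      ≤ κ * Real.sqrt (θ ⬝ᵥ (Gm μ s c *ᵥ θ))
        * (ev μ (B.indicator one1) s c * (L + 1) + Real.exp (-L))) :
    Real.sqrt (∑ i, (evd μ (B.indicator one1)).g i s c ^ 2)
      ≤ κ * Real.sqrt (lamq μ q s c)
        * (ev μ (B.indicator one1) s c * (L + 1) + Real.exp (-L)) := by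
  haveI := hM.prob
  haveI := isProbability_tilt hM.sup s c
  set Λ := lamq μ q s c with hΛ
  have hΛ0 : 0 < Λ := lamq_pos hM q s c
  have hl : Loc R (B.indicator (one1 : Euc n → ℝ)) := Loc.indicator hB
  set w := fun i => (evd μ (B.indicator one1)).g i s c with hw
  set S := ∑ i, w i ^ 2 with hS
  set β := ev μ (B.indicator one1) s c * (L + 1) + Real.exp (-L) with hβ
  have hβ0 : 0 ≤ β := by
    have : 0 ≤ ev μ (B.indicator one1) s c := by
      rw [ev_eq hM.sup]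
      exact integral_nonneg fun x => indicator_nonneg (fun y _ => zero_le_one) x
    positivity
  have e : S = ∫ x, zl μ s c w x * B.indicator one1 x ∂tilt μ s c := by
    rw [← dir_grad hM s c hl, hS]
    simp only [hw, sq]
  have h1 : S ≤ κ * Real.sqrt Λ * β * Real.sqrt S := by
    calc S ≤ ∫ x, |zl μ s c w x * B.indicator one1 x| ∂tilt μ s c := by
          rw [e]; exact (le_abs_self _).trans abs_integral_le_integral_abs
      _ = ∫ x in B, |zl μ s c w x| ∂tilt μ s c := by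
          rw [← integral_indicator hB]
          refine integral_congr_ae (Eventually.of_forall fun x => ?_)
          by_cases hx : x ∈ B <;> simp [hx, one1]
      _ ≤ κ * Real.sqrt (Λ * S) * β := (hb w).trans (by
          refine mul_le_mul_of_nonneg_right (mul_le_mul_of_nonneg_left (Real.sqrt_le_sqrt ?_)
            (by linarith)) hβ0
          refine (quad_le_lamq hM (q := q) (by omega) s c w).trans (le_of_eq ?_)
          simp [hΛ, hS, dotProduct, sq])
      _ = _ := by rw [Real.sqrt_mul hΛ0.le]; ring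
  show Real.sqrt S ≤ _
  rcases (Real.sqrt_nonneg S).eq_or_lt with h | h
  · rw [← h]; positivity
  · refine le_of_mul_le_mul_right ?_ h
    rwa [Real.mul_self_sqrt (Finset.sum_nonneg fun i _ => sq_nonneg _)]

/-- The lower bound on the generator of the functional. -/
theorem gen_Phi_ge {κ : ℝ} (hκ : 1 ≤ κ)
    (h4 : ∀ θ : Fin n → ℝ, ∫ x, zl μ s c θ x ^ 4 ∂tilt μ s c ≤ κ * (θ ⬝ᵥ (Gm μ s c *ᵥ θ)) ^ 2)
    {A B : Set (Euc n)} (hA : MeasurableSet A) (hB : MeasurableSet B) {L : ℝ} (hL : 0 ≤ L)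
    (hb : ∀ θ : Fin n → ℝ, ∫ x in B, |zl μ s c θ x| ∂tilt μ s c
      ≤ κ * Real.sqrt (θ ⬝ᵥ (Gm μ s c *ᵥ θ))
        * (ev μ (B.indicator one1) s c * (L + 1) + Real.exp (-L)))
    {Rn : ℝ} (hRn : 0 < Rn) :
    -((4 * q * (n : ℝ) ^ ((q : ℝ)⁻¹) * Real.sqrt Rn / Real.sqrt s + 6 * κ ^ 2 * Rn * (L + 1))
          * ev μ (B.indicator one1) s c + 4 * κ ^ 2 * Rn * Real.exp (-L))
      ≤ gen μ (Phi μ A B q Rn) s c := by
  haveI := hM.prob
  haveI := isProbability_tilt hM.sup s c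
  have hlA : Loc R (A.indicator (one1 : Euc n → ℝ)) := Loc.indicator hA
  have hlB : Loc R (B.indicator (one1 : Euc n → ℝ)) := Loc.indicator hB
  set a := ev μ (A.indicator one1) s c with ha
  set b := ev μ (B.indicator one1) s c with hb'
  have hev : ∀ S : Set (Euc n), MeasurableSet S →
      0 ≤ ev μ (S.indicator one1) s c ∧ ev μ (S.indicator one1) s c ≤ 1 := fun S hS => by
    have e : ev μ (S.indicator one1) s c = (tilt μ s c).real S := by
      rw [ev_eq hM.sup]; exact integral_indicator_one hS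
    rw [e]; exact ⟨measureReal_nonneg, measureReal_le_one⟩
  obtain ⟨ha0, ha1⟩ := hev A hA
  obtain ⟨hb0, -⟩ := hev B hB
  set Λ := lamq μ q s c with hΛ
  have hΛ0 : 0 < Λ := lamq_pos hM q s c
  set T := (TT μ q).val s c with hT
  have hT0 : 0 ≤ T := TT_nonneg hM q s c
  set v := Λ / Rn with hv
  have hv0 : 0 < v := div_pos hΛ0 hRn
  set N := (n : ℝ) ^ ((q : ℝ)⁻¹) with hN
  have hN0 : 0 ≤ N := by positivity
  set β := b * (L + 1) + Real.exp (-L) with hβ
  have hq0 : (0 : ℝ) < q := by exact_mod_cast (by omega : 0 < q)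
  have hval : (vd μ q Rn).val s c = v := rfl
  -- the scaled proxy
  set p1 := (q : ℝ)⁻¹ * (T + 1) ^ ((q : ℝ)⁻¹ - 1) / Rn with hp1
  have hp10 : 0 ≤ p1 := by rw [hp1]; positivity
  have hp1T : p1 * (T + 1) = v / q := by
    rw [hp1, hv, hΛ, lamq, ← hT, Real.rpow_sub_one (by linarith)]
    field_simp
  have hgv : gen μ (vd μ q Rn) s c ≤ v * (2 * q * N * (Real.sqrt Λ / Real.sqrt s)) := by
    rw [vd, gen_comp]
    have hsum : 0 ≤ ∑ i, (TT μ q).g i s c ^ 2 := Finset.sum_nonneg fun i _ => sq_nonneg _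
    have hp2 : (q : ℝ)⁻¹ * (((q : ℝ)⁻¹ - 1) * (T + 1) ^ ((q : ℝ)⁻¹ - 1 - 1)) / Rn ≤ 0 := by
      refine div_nonpos_of_nonpos_of_nonneg (mul_nonpos_of_nonneg_of_nonpos (by positivity)
        (mul_nonpos_of_nonpos_of_nonneg ?_ (by positivity))) hRn.le
      linarith [inv_le_one_of_one_le₀ (show (1 : ℝ) ≤ q by exact_mod_cast (by omega : 1 ≤ q))]
    have h2 := mul_le_mul_of_nonneg_left (gen_TT_le hM hQP hs c hq) hp10
    refine le_trans (le_trans (add_le_of_nonpos_right (mul_nonpos_of_nonpos_of_nonneg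
      (mul_nonpos_of_nonneg_of_nonpos (by norm_num) hp2) hsum)) h2) (le_of_eq ?_)
    rw [← hΛ, ← hN, ← hT, show p1 * (2 * (q : ℝ) ^ 2 * N * (Real.sqrt Λ / Real.sqrt s) * (T + 1))
      = p1 * (T + 1) * (2 * (q : ℝ) ^ 2 * N * (Real.sqrt Λ / Real.sqrt s)) by ring, hp1T]
    field_simp
  have hdv : Real.sqrt (∑ i, (vd μ q Rn).g i s c ^ 2) ≤ κ * Real.sqrt Λ * v := by
    have e : ∑ i, (vd μ q Rn).g i s c ^ 2 = p1 ^ 2 * ∑ i, (TT μ q).g i s c ^ 2 := by
      simp only [vd, TD.comp, Finset.mul_sum, ← hT, ← hp1, mul_pow]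
    rw [e, Real.sqrt_mul (sq_nonneg _), Real.sqrt_sq hp10]
    refine (mul_le_mul_of_nonneg_left (grad_TT_le hM hs c hq hκ h4) hp10).trans (le_of_eq ?_)
    rw [← hΛ, ← hT, show p1 * (q * κ * Real.sqrt Λ * (T + 1))
      = p1 * (T + 1) * (q * κ * Real.sqrt Λ) by ring, hp1T]
    field_simp
  set χ := Real.exp (-v) with hχ
  have hχ0 : 0 < χ := Real.exp_pos _
  set dA := Real.sqrt (∑ i, (evd μ (A.indicator one1)).g i s c ^ 2) with hdA'
  set dB := Real.sqrt (∑ i, (evd μ (B.indicator one1)).g i s c ^ 2) with hdB'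
  set dV := Real.sqrt (∑ i, (vd μ q Rn).g i s c ^ 2) with hdV'
  have hdA : dA ≤ Real.sqrt Λ :=
    grad_set_le hM s c hΛ0.le (quad_le_lamq hM (by omega) s c) hA
  have hdB : dB ≤ κ * Real.sqrt Λ * β := grad_tail_le hM hs c hq hκ hB hL hb
  have hdA0 : 0 ≤ dA := Real.sqrt_nonneg _
  have hdB0 : 0 ≤ dB := Real.sqrt_nonneg _
  have hdV0 : 0 ≤ dV := Real.sqrt_nonneg _
  -- the generator
  have hgen : gen μ (Phi μ A B q Rn) s c
      = (∑ i, (evd μ (A.indicator one1)).g i s c * (evd μ (B.indicator one1)).g i s c) * χ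
        + a * b * (-χ * gen μ (vd μ q Rn) s c + 1 / 2 * χ * ∑ i, (vd μ q Rn).g i s c ^ 2)
        + -(χ * b) * (∑ i, (evd μ (A.indicator one1)).g i s c * (vd μ q Rn).g i s c)
        + -(χ * a) * ∑ i, (evd μ (B.indicator one1)).g i s c * (vd μ q Rn).g i s c := by
    rw [Phi, gen_mul, gen_mul, chi, gen_comp, gen_evd hM.sup hlA, gen_evd hM.sup hlB]
    simp only [TD.mul, TD.comp, evd_val, hval, ← ha, ← hb', ← hχ, zero_mul, mul_zero, zero_add]
    have e : ∑ i, ((evd μ (A.indicator one1)).g i s c * b + a * (evd μ (B.indicator one1)).g i s c)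
          * (-χ * (vd μ q Rn).g i s c)
        = -(χ * b) * (∑ i, (evd μ (A.indicator one1)).g i s c * (vd μ q Rn).g i s c)
          + -(χ * a) * ∑ i, (evd μ (B.indicator one1)).g i s c * (vd μ q Rn).g i s c := by
      rw [Finset.mul_sum, Finset.mul_sum, ← Finset.sum_add_distrib]
      exact Finset.sum_congr rfl fun i _ => by ring
    rw [e]
    ring
  rw [hgen]
  have g1 := mul_le_mul_of_nonneg_right (neg_sqrt_le_sum Finset.univ
    (fun i => (evd μ (A.indicator one1)).g i s c) (fun i => (evd μ (B.indicator one1)).g i s c))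
    hχ0.le
  have g2 : -(b * χ * (v * (2 * q * N * (Real.sqrt Λ / Real.sqrt s))))
      ≤ a * b * (-χ * gen μ (vd μ q Rn) s c + 1 / 2 * χ * ∑ i, (vd μ q Rn).g i s c ^ 2) := by
    set U := v * (2 * q * N * (Real.sqrt Λ / Real.sqrt s)) with hU
    have hU0 : 0 ≤ U := by positivity
    have hsum : 0 ≤ 1 / 2 * χ * ∑ i, (vd μ q Rn).g i s c ^ 2 := by positivity
    have h1 : -(χ * U) ≤ -χ * gen μ (vd μ q Rn) s c + 1 / 2 * χ * ∑ i, (vd μ q Rn).g i s c ^ 2 := by
      have := mul_le_mul_of_nonneg_left hgv hχ0.le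
      linarith
    refine le_trans ?_ (mul_le_mul_of_nonneg_left h1 (mul_nonneg ha0 hb0))
    have := mul_le_mul_of_nonneg_right ha1 (mul_nonneg hb0 (mul_nonneg hχ0.le hU0))
    linarith
  have g3 : -(χ * b * (dA * dV))
      ≤ -(χ * b) * (∑ i, (evd μ (A.indicator one1)).g i s c * (vd μ q Rn).g i s c) := by
    have h := mul_le_mul_of_nonneg_left (Real.sum_mul_le_sqrt_mul_sqrt Finset.univ
      (fun i => (evd μ (A.indicator one1)).g i s c) (fun i => (vd μ q Rn).g i s c))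
      (mul_nonneg hχ0.le hb0)
    rw [← hdA', ← hdV'] at h
    linarith
  have g4 : -(χ * (dB * dV))
      ≤ -(χ * a) * ∑ i, (evd μ (B.indicator one1)).g i s c * (vd μ q Rn).g i s c := by
    have h := mul_le_mul_of_nonneg_left (Real.sum_mul_le_sqrt_mul_sqrt Finset.univ
      (fun i => (evd μ (B.indicator one1)).g i s c) (fun i => (vd μ q Rn).g i s c))
      (mul_nonneg hχ0.le ha0)
    rw [← hdB', ← hdV'] at h
    have := mul_le_mul_of_nonneg_right ha1 (mul_nonneg hχ0.le (mul_nonneg hdB0 hdV0))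
    linarith
  simp only [← hdA', ← hdB'] at g1
  -- the bounds
  obtain ⟨e1, e2, e3⟩ := exp_poly v hv0.le
  rw [← hχ] at e1 e2 e3
  have hβ0 : 0 ≤ β := by positivity
  have hΛv : Λ = Rn * v := by rw [hv]; field_simp
  have hss : Real.sqrt Λ * Real.sqrt Λ = Rn * v := by rw [Real.mul_self_sqrt hΛ0.le, hΛv]
  have hκ2 : κ ≤ κ ^ 2 := by nlinarith
  have k1 : dA * dB * χ ≤ 2 * κ ^ 2 * Rn * β := by
    calc dA * dB * χ ≤ Real.sqrt Λ * (κ * Real.sqrt Λ * β) * χ :=
          mul_le_mul_of_nonneg_right (mul_le_mul hdA hdB hdB0 (Real.sqrt_nonneg _)) hχ0.le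
      _ = κ * Rn * β * (χ * v) := by
          rw [show Real.sqrt Λ * (κ * Real.sqrt Λ * β) * χ
            = Real.sqrt Λ * Real.sqrt Λ * (κ * β * χ) by ring, hss]
          ring
      _ ≤ κ ^ 2 * Rn * β * 2 := mul_le_mul (mul_le_mul_of_nonneg_right
          (mul_le_mul_of_nonneg_right hκ2 hRn.le) hβ0) e1 (by positivity) (by positivity)
      _ = _ := by ring
  have k2 : b * χ * (v * (2 * q * N * (Real.sqrt Λ / Real.sqrt s)))
      ≤ 4 * q * N * Real.sqrt Rn / Real.sqrt s * b := by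
    calc b * χ * (v * (2 * q * N * (Real.sqrt Λ / Real.sqrt s)))
        = 2 * q * N * Real.sqrt Rn / Real.sqrt s * b * (χ * (v * Real.sqrt v)) := by
          rw [hΛv, Real.sqrt_mul hRn.le]; ring
      _ ≤ 2 * q * N * Real.sqrt Rn / Real.sqrt s * b * 2 :=
          mul_le_mul_of_nonneg_left e3 (by positivity)
      _ = _ := by ring
  have k3 : χ * b * (dA * dV) ≤ 2 * κ ^ 2 * Rn * ((L + 1) * b) := by
    calc χ * b * (dA * dV) ≤ χ * b * (Real.sqrt Λ * (κ * Real.sqrt Λ * v)) :=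
          mul_le_mul_of_nonneg_left (mul_le_mul hdA hdv hdV0 (Real.sqrt_nonneg _)) (by positivity)
      _ = κ * Rn * b * (χ * v ^ 2) := by
          rw [show Real.sqrt Λ * (κ * Real.sqrt Λ * v) = Real.sqrt Λ * Real.sqrt Λ * (κ * v) by ring,
            hss]
          ring
      _ ≤ κ ^ 2 * Rn * b * 2 := mul_le_mul (mul_le_mul_of_nonneg_right
          (mul_le_mul_of_nonneg_right hκ2 hRn.le) hb0) e2 (by positivity) (by positivity)
      _ ≤ _ := by
          have := mul_le_mul_of_nonneg_left (le_mul_of_one_le_left hb0 (by linarith : 1 ≤ L + 1))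
            (by positivity : (0 : ℝ) ≤ κ ^ 2 * Rn)
          linarith
  have k4 : χ * (dB * dV) ≤ 2 * κ ^ 2 * Rn * β := by
    calc χ * (dB * dV) ≤ χ * (κ * Real.sqrt Λ * β * (κ * Real.sqrt Λ * v)) :=
          mul_le_mul_of_nonneg_left (mul_le_mul hdB hdv hdV0 (by positivity)) hχ0.le
      _ = κ ^ 2 * Rn * β * (χ * v ^ 2) := by
          rw [show κ * Real.sqrt Λ * β * (κ * Real.sqrt Λ * v)
            = Real.sqrt Λ * Real.sqrt Λ * (κ ^ 2 * β * v) by ring, hss]
          ring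
      _ ≤ κ ^ 2 * Rn * β * 2 := mul_le_mul_of_nonneg_left e2 (by positivity)
      _ = _ := by ring
  have ek : 4 * κ ^ 2 * Rn * β
      = 4 * κ ^ 2 * Rn * ((L + 1) * b) + 4 * κ ^ 2 * Rn * Real.exp (-L) := by rw [hβ]; ring
  linarith

end

section

variable {f : Euc n → ℝ} {R : ℝ} {μ : Measure (Euc n)} (hM : Mdl f R μ) {q : ℕ} (hq : 2 ≤ q)
  {Rn : ℝ} (hRn : 0 < Rn)
include hM hq hRn

lemma ok_vd : (vd μ q Rn).Ok := by
  haveI := hM.prob
  set p := (q : ℝ)⁻¹ with hp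
  have hp0 : 0 ≤ p := by positivity
  have hp1 : p ≤ 1 := inv_le_one_of_one_le₀ (by exact_mod_cast (by omega : 1 ≤ q))
  have hne : ∀ u ∈ Ioi (-1 : ℝ), u + 1 ≠ 0 := fun u hu => by
    have : -1 < u := hu
    linarith
  have hT := TT_nonneg hM q
  refine TD.ok_comp (ok_TT hM.sup q) (isOpen_Ioi (a := (-1 : ℝ))) (fun s c => ?_) (fun u hu => ?_)
    (fun u hu => ?_) ?_ ?_ ?_ ?_
  · exact mem_Ioi.2 (by linarith [hT s c])
  · exact (((hasDerivAt_id u).add_const 1).rpow_const (p := p) (Or.inl (hne u hu))).div_const Rn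
      |>.congr_deriv (by simp [hp])
  · exact ((((hasDerivAt_id u).add_const 1).rpow_const (p := p - 1) (Or.inl (hne u hu))).const_mul p
      ).div_const Rn |>.congr_deriv (by simp [hp])
  · exact ((continuousOn_const.mul (continuousOn_const.mul
      ((continuous_id.add continuous_const).continuousOn.rpow_const fun u hu => Or.inl (hne u hu)))
      ).div_const _)
  · intro T
    obtain ⟨C, a, hC, ha, h⟩ := ((ok_TT hM.sup q).gr_val.add (Gr.const 1)) T
    refine ⟨C / Rn, a, div_nonneg hC hRn.le, ha, fun s hs c => ?_⟩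
    have h0 : 1 ≤ (TT μ q).val s c + 1 := by linarith [hT s c]
    rw [abs_div, abs_of_pos hRn, abs_of_nonneg (by positivity), div_mul_eq_mul_div]
    refine div_le_div_of_nonneg_right (le_trans ?_ ((le_abs_self _).trans (h s hs c))) hRn.le
    exact (Real.rpow_le_rpow_of_exponent_le h0 hp1).trans (le_of_eq (Real.rpow_one _))
  · intro T
    refine ⟨1 / Rn, 0, by positivity, le_rfl, fun s hs c => ?_⟩
    have h0 : 1 ≤ (TT μ q).val s c + 1 := by linarith [hT s c]
    rw [zero_mul, Real.exp_zero, mul_one, abs_div, abs_of_pos hRn, abs_of_nonneg (by positivity)]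
    refine div_le_div_of_nonneg_right ?_ hRn.le
    calc p * ((TT μ q).val s c + 1) ^ (p - 1) ≤ 1 * 1 := mul_le_mul hp1
          (Real.rpow_le_one_of_one_le_of_nonpos h0 (by linarith)) (by positivity) zero_le_one
      _ = 1 := one_mul 1
  · intro T
    refine ⟨1 / Rn, 0, by positivity, le_rfl, fun s hs c => ?_⟩
    have h0 : 1 ≤ (TT μ q).val s c + 1 := by linarith [hT s c]
    have hr : 0 ≤ ((TT μ q).val s c + 1) ^ (p - 1 - 1) := by positivity
    rw [zero_mul, Real.exp_zero, mul_one, abs_div, abs_of_pos hRn, abs_mul, abs_mul,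
      abs_of_nonneg hp0, abs_of_nonneg hr, abs_of_nonpos (by linarith : p - 1 ≤ 0)]
    refine div_le_div_of_nonneg_right ?_ hRn.le
    calc p * (-(p - 1) * ((TT μ q).val s c + 1) ^ (p - 1 - 1)) ≤ 1 * (1 * 1) :=
          mul_le_mul hp1 (mul_le_mul (by linarith)
            (Real.rpow_le_one_of_one_le_of_nonpos h0 (by linarith)) hr zero_le_one)
            (mul_nonneg (by linarith) hr) zero_le_one
      _ = 1 := by ring

lemma ok_chi : (chi μ q Rn).Ok := by
  have hv : ∀ s c, 0 ≤ (vd μ q Rn).val s c := fun s c => by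
    have := TT_nonneg hM q s c
    simp only [vd, TD.comp]
    positivity
  have hd : ∀ u : ℝ, HasDerivAt (fun u => Real.exp (-u)) (-Real.exp (-u)) u := fun u =>
    ((hasDerivAt_id u).neg.exp).congr_deriv (by simp)
  have hb : ∀ s c, Real.exp (-(vd μ q Rn).val s c) ≤ 1 := fun s c =>
    Real.exp_le_one_iff.2 (by linarith [hv s c])
  refine TD.ok_comp (ok_vd hM hq hRn) isOpen_univ (fun _ _ => trivial) (fun u _ => hd u)
    (fun u _ => (hd u).neg.congr_deriv (by simp)) (by fun_prop) ?_ ?_ ?_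
  · exact fun T => ⟨1, 0, zero_le_one, le_rfl, fun s _ c => by
      simpa [abs_of_pos (Real.exp_pos _)] using hb s c⟩
  · exact fun T => ⟨1, 0, zero_le_one, le_rfl, fun s _ c => by
      simpa [abs_of_pos (Real.exp_pos _)] using hb s c⟩
  · exact fun T => ⟨1, 0, zero_le_one, le_rfl, fun s _ c => by
      simpa [abs_of_pos (Real.exp_pos _)] using hb s c⟩

lemma ok_Phi {A B : Set (Euc n)} (hA : MeasurableSet A) (hB : MeasurableSet B) :
    (Phi μ A B q Rn).Ok := by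
  haveI := hM.prob
  exact TD.ok_mul (TD.ok_mul (ok_evd hM.sup (Loc.indicator hA)) (ok_evd hM.sup (Loc.indicator hB)))
    (ok_chi hM hq hRn)

end

end Vale.Agent.P245.SL
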