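import Mathlib
import Vale.Agent.P245.SL.Tilt
import Vale.Agent.P245.Sub.Smooth

/-!
Poincaré inequality for quadratic forms under a tilted log-concave measure: the damped Poincaré
inequality for Gaussian smoothings, then the limit of vanishing smoothing.
-/

open MeasureTheory Filter Set
open scoped RealInnerProductSpace Topology ContDiff
open Vale.Agent.P245.Sub
open Vale.Agent.P262.Gauss

namespace Vale.Agent.P245.SL

variable {n : ℕ}

lemma ew_poly_le {s : ℝ} (hs : 0 < s) (c x : Euc n) :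
    (1 + ‖x‖ ^ 2) * ew s c x ≤ (1 + 4 / s) * Real.exp (‖c‖ ^ 2 / s) := by
  have h1 : (1 : ℝ) + ‖x‖ ^ 2 ≤ (1 + 4 / s) * Real.exp (s / 4 * ‖x‖ ^ 2) := by
    have he := Real.add_one_le_exp (s / 4 * ‖x‖ ^ 2)
    have hx : ‖x‖ ^ 2 = 4 / s * (s / 4 * ‖x‖ ^ 2) := by field_simp
    have he1 : 1 ≤ Real.exp (s / 4 * ‖x‖ ^ 2) := Real.one_le_exp (by positivity)
    have h2 := mul_le_mul_of_nonneg_left
      (show s / 4 * ‖x‖ ^ 2 ≤ Real.exp (s / 4 * ‖x‖ ^ 2) by linarith)
      (show (0 : ℝ) ≤ 4 / s by positivity)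
    rw [← hx] at h2
    rw [add_mul, one_mul]
    linarith
  have h3 : ⟪c, x⟫ - s / 4 * ‖x‖ ^ 2 ≤ ‖c‖ ^ 2 / s := by
    have h4 := real_inner_le_norm c x
    have h5 : 0 ≤ (‖c‖ - s / 2 * ‖x‖) ^ 2 / s := by positivity
    have e : (‖c‖ - s / 2 * ‖x‖) ^ 2 / s
        = ‖c‖ ^ 2 / s - ‖c‖ * ‖x‖ + s / 4 * ‖x‖ ^ 2 := by field_simp; ring
    linarith
  calc (1 + ‖x‖ ^ 2) * ew s c x
      ≤ (1 + 4 / s) * Real.exp (s / 4 * ‖x‖ ^ 2) * ew s c x :=
        mul_le_mul_of_nonneg_right h1 (ew_pos s c x).le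
    _ = (1 + 4 / s) * Real.exp (⟪c, x⟫ - s / 4 * ‖x‖ ^ 2) := by
        rw [ew, mul_assoc, ← Real.exp_add]; congr 2; ring
    _ ≤ _ := mul_le_mul_of_nonneg_left (Real.exp_le_exp.2 h3) (by positivity)

lemma continuous_ew (s : ℝ) (c : Euc n) : Continuous (ew s c) := by
  unfold ew; fun_prop

/-- A function of at most quadratic growth times the tilt weight is bounded. -/
lemma bdd_mul_ew {s : ℝ} (hs : 0 < s) (c : Euc n) {h : Euc n → ℝ} {K : ℝ}
    (hK : ∀ x, |h x| ≤ K * (1 + ‖x‖ ^ 2)) :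
    ∃ B, ∀ x, |h x * ew s c x| ≤ B := by
  refine ⟨K * ((1 + 4 / s) * Real.exp (‖c‖ ^ 2 / s)), fun x => ?_⟩
  have hK0 : 0 ≤ K := by
    have := (abs_nonneg _).trans (hK 0)
    simpa using this
  rw [abs_mul, abs_of_pos (ew_pos s c x)]
  calc |h x| * ew s c x ≤ K * (1 + ‖x‖ ^ 2) * ew s c x :=
        mul_le_mul_of_nonneg_right (hK x) (ew_pos s c x).le
    _ ≤ _ := by rw [mul_assoc]; exact mul_le_mul_of_nonneg_left (ew_poly_le hs c x) hK0

variable {f : Euc n → ℝ} {R : ℝ} (hf : Cut f R)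
include hf

lemma smooth_potS {τ : ℝ} (hτ : 0 < τ) : ContDiff ℝ ∞ (potS f τ) :=
  ((contDiff_pS hf hτ).log fun x => (pS_pos hf hτ x).ne').neg

lemma prob_cut : IsProbabilityMeasure (volume.withDensity fun x => ENNReal.ofReal (f x)) := by
  refine ⟨?_⟩
  rw [withDensity_apply _ MeasurableSet.univ, Measure.restrict_univ,
    ← ofReal_integral_eq_lintegral_ofReal hf.int (Eventually.of_forall hf.nonneg), hf.mass,
    ENNReal.ofReal_one]

lemma muW_potS_eq {τ : ℝ} (hτ : 0 < τ) :
    muW (potS f τ) = ((volume.withDensity fun x => ENNReal.ofReal (f x)).prod (gam n)).map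
      fun p => (Real.sqrt τ)⁻¹ • p.2 + p.1 := by
  have hg : Measurable fun p : Euc n × Euc n => (Real.sqrt τ)⁻¹ • p.2 + p.1 := by fun_prop
  ext S hS
  have hI : Measurable (S.indicator (1 : Euc n → ENNReal)) := measurable_one.indicator hS
  rw [← lintegral_indicator_one hS, ← lintegral_indicator_one hS, lintegral_potS hf hτ hI,
    lintegral_map hI hg,
    lintegral_prod (fun p : Euc n × Euc n => S.indicator 1 ((Real.sqrt τ)⁻¹ • p.2 + p.1))
      (hI.comp hg).aemeasurable,
    lintegral_withDensity_eq_lintegral_mul _ hf.meas.ennreal_ofReal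
      (g := fun y => ∫⁻ z, S.indicator 1 ((Real.sqrt τ)⁻¹ • z + y) ∂(gam n))
      (hI.comp hg).lintegral_prod_right']
  rfl

lemma integrable_mul_pS {τ : ℝ} (hτ : 0 < τ) {F : Euc n → ℝ} (hF : Continuous F) {B : ℝ}
    (hB : ∀ x, |F x| ≤ B) : Integrable fun x => F x * pS f τ x := by
  have : IsProbabilityMeasure (muW (potS f τ)) := by
    have := prob_cut hf
    rw [muW_potS_eq hf hτ]
    exact Measure.isProbabilityMeasure_map (by fun_prop)
  have h := (integrable_muW (smooth_potS hf hτ)).1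
    (Integrable.of_bound (μ := muW (potS f τ)) hF.aestronglyMeasurable B (Eventually.of_forall hB))
  simpa only [wV_potS hf hτ] using h

/-- Weak convergence of the smoothed densities. -/
lemma weak_pS {F : Euc n → ℝ} (hF : Continuous F) {B : ℝ} (hB : ∀ x, |F x| ≤ B) :
    Tendsto (fun k : ℕ => ∫ x, F x * pS f ((k : ℝ) + 1) x) atTop (𝓝 (∫ x, F x * f x)) := by
  have := prob_cut hf
  set μf := volume.withDensity fun x => ENNReal.ofReal (f x) with hμf
  have e : ∀ k : ℕ, ∫ x, F x * pS f ((k : ℝ) + 1) x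
      = ∫ p, F ((Real.sqrt ((k : ℝ) + 1))⁻¹ • p.2 + p.1) ∂(μf.prod (gam n)) := fun k => by
    have hk : (0 : ℝ) < (k : ℝ) + 1 := by positivity
    rw [← integral_map (φ := fun p : Euc n × Euc n => (Real.sqrt ((k : ℝ) + 1))⁻¹ • p.2 + p.1)
      (by fun_prop) hF.aestronglyMeasurable, ← muW_potS_eq hf hk,
      integral_muW (smooth_potS hf hk)]
    simp only [wV_potS hf hk]
  have e0 : ∫ x, F x * f x = ∫ p, F p.1 ∂(μf.prod (gam n)) := by
    rw [integral_fun_fst (μ := μf) (ν := gam n) F, probReal_univ, one_smul, hμf,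
      integral_withDensity_eq_integral_toReal_smul hf.meas.ennreal_ofReal
        (Eventually.of_forall fun x => ENNReal.ofReal_lt_top)]
    exact integral_congr_ae (Eventually.of_forall fun x => by
      simp only [smul_eq_mul, ENNReal.toReal_ofReal (hf.nonneg x)]; ring)
  simp only [e, e0]
  refine tendsto_integral_of_dominated_convergence (fun _ => B)
    (fun k => (by fun_prop : Continuous fun p : Euc n × Euc n =>
      F ((Real.sqrt ((k : ℝ) + 1))⁻¹ • p.2 + p.1)).aestronglyMeasurable)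
    (integrable_const B) (fun k => Eventually.of_forall fun p => hB _)
    (Eventually.of_forall fun p => ?_)
  have h0 : Tendsto (fun k : ℕ => (Real.sqrt ((k : ℝ) + 1))⁻¹) atTop (𝓝 0) :=
    tendsto_inv_atTop_zero.comp (Real.tendsto_sqrt_atTop.comp
      (tendsto_atTop_add_const_right _ 1 tendsto_natCast_atTop_atTop))
  have h1 := (h0.smul_const p.2).add_const p.1
  rw [zero_smul, zero_add] at h1
  exact (hF.tendsto p.1).comp h1

omit hf in
lemma pd_quad (A : Matrix (Fin n) (Fin n) ℝ) (hA : A.IsSymm) (i : Fin n) (x : Euc n) :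
    pd i (fun y : Euc n => ∑ j, ∑ k, A j k * y j * y k) x = 2 * ∑ k, A i k * x k := by
  have hp : ∀ j : Fin n, HasFDerivAt (fun y : Euc n => y j) (EuclideanSpace.proj (𝕜 := ℝ) j) x :=
    fun j => (EuclideanSpace.proj (𝕜 := ℝ) j).hasFDerivAt
  have h := HasFDerivAt.fun_sum (u := Finset.univ) fun j (_ : j ∈ Finset.univ) =>
    HasFDerivAt.fun_sum (u := Finset.univ) fun k (_ : k ∈ Finset.univ) =>
      ((hp j).const_mul (A j k)).mul (hp k)
  have h' : HasFDerivAt (fun y : Euc n => ∑ j, ∑ k, A j k * y j * y k) _ x := h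
  rw [pd, h'.fderiv]
  simp [bas, Finset.sum_add_distrib, mul_comm (x _)]
  rw [two_mul]
  congr 1
  exact Finset.sum_congr rfl fun j _ => by rw [hA.apply]

/-- Poincaré inequality for quadratic forms under a tilted log-concave measure. -/
theorem quad_poincare {s : ℝ} (hs : 0 < s) (c : Euc n)
    {ν : Measure (Euc n)} [IsProbabilityMeasure ν]
    (hν : ν = volume.withDensity fun x => ENNReal.ofReal (f x * ew s c x / ∫ y, f y * ew s c y))
    (m : Euc n) {Λ : ℝ} (hΛ0 : 0 < Λ) (hΛ : ∀ θ : Euc n, ∫ x, ⟪x - m, θ⟫ ^ 2 ∂ν ≤ Λ * ‖θ‖ ^ 2)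
    (A : Matrix (Fin n) (Fin n) ℝ) (hA : A.IsSymm) :
    (∫ x, (∑ j, ∑ k, A j k * (x j - m j) * (x k - m k)) ^ 2 ∂ν)
        - (∫ x, ∑ j, ∑ k, A j k * (x j - m j) * (x k - m k) ∂ν) ^ 2
      ≤ 4 * Real.sqrt (Λ / s) * ∫ x, ∑ j, (∑ k, A j k * (x k - m k)) ^ 2 ∂ν := by
  have hec := continuous_ew s c
  obtain ⟨B1, hB1⟩ := bdd_mul_ew hs c (h := fun _ => (1 : ℝ)) (K := 1) fun x => by
    rw [abs_one, one_mul]; exact le_add_of_nonneg_right (sq_nonneg _)
  simp only [one_mul] at hB1
  have hie : Integrable fun x => f x * ew s c x :=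
    hf.int.mul_bdd hec.aestronglyMeasurable (Eventually.of_forall fun x => hB1 x)
  set Z0 := ∫ y, f y * ew s c y with hZ0
  have hZ0p : 0 < Z0 := by
    rw [hZ0, integral_pos_iff_support_of_nonneg
      (fun y => mul_nonneg (hf.nonneg y) (ew_pos s c y).le) hie]
    have e : Function.support (fun y => f y * ew s c y) = Function.support f := by
      ext y; simp [(ew_pos s c y).ne']
    rw [e, ← integral_pos_iff_support_of_nonneg hf.nonneg hf.int, hf.mass]
    exact one_pos
  have hmd : Measurable fun x => f x * ew s c x / Z0 :=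
    (hf.meas.mul hec.measurable).div_const Z0
  have hνi : ∀ h : Euc n → ℝ, ∫ x, h x ∂ν = (∫ x, h x * ew s c x * f x) / Z0 := fun h => by
    rw [hν, integral_withDensity_eq_integral_toReal_smul
      hmd.ennreal_ofReal
      (Eventually.of_forall fun x => ENNReal.ofReal_lt_top), ← integral_div]
    refine integral_congr_ae (Eventually.of_forall fun x => ?_)
    simp only [smul_eq_mul, ENNReal.toReal_ofReal
      (div_nonneg (mul_nonneg (hf.nonneg x) (ew_pos s c x).le) hZ0p.le)]
    ring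
  -- the smoothed normalisations
  set Zk := fun k : ℕ => ∫ x, ew s c x * pS f ((k : ℝ) + 1) x with hZk
  have hk0 : ∀ k : ℕ, (0 : ℝ) < (k : ℝ) + 1 := fun k => by positivity
  have hiZ : ∀ k : ℕ, Integrable fun x => ew s c x * pS f ((k : ℝ) + 1) x := fun k =>
    integrable_mul_pS hf (hk0 k) hec hB1
  have hZp : ∀ k : ℕ, 0 < Zk k := fun k => by
    simp only [hZk]
    rw [integral_pos_iff_support_of_nonneg
      (fun x => mul_nonneg (ew_pos s c x).le (pS_pos hf (hk0 k) x).le) (hiZ k)]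
    have e : Function.support (fun x => ew s c x * pS f ((k : ℝ) + 1) x) = Set.univ := by
      ext x; simp [(ew_pos s c x).ne', (pS_pos hf (hk0 k) x).ne']
    rw [e]
    exact Measure.measure_univ_pos.2 (NeZero.ne _)
  have hZlim : Tendsto Zk atTop (𝓝 Z0) := by
    have := weak_pS hf hec hB1
    rwa [hZ0, show (∫ y, f y * ew s c y) = ∫ y, ew s c y * f y from
      integral_congr_ae (Eventually.of_forall fun y => mul_comm _ _)]
  -- the shifted potentials
  set W := fun (k : ℕ) => damp (fun x => potS f ((k : ℝ) + 1) (x + m) + ⟪s • m - c, x⟫) s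
    (s / 2 * ‖m‖ ^ 2 - ⟪c, m⟫ + Real.log (Zk k)) with hW
  have hV' : ∀ k : ℕ, ContDiff ℝ ∞ fun x => potS f ((k : ℝ) + 1) (x + m) + ⟪s • m - c, x⟫ :=
    fun k => ((smooth_potS hf (hk0 k)).comp (contDiff_id.add contDiff_const)).add
      (contDiff_const.inner ℝ contDiff_id)
  have hWs : ∀ k, ContDiff ℝ ∞ (W k) := fun k => contDiff_damp (hV' k) _ _
  have hWc : ∀ k, Conv (W k) s := fun k => by
    refine conv_damp (hV' k) (conv_zero_of_mid (hV' k) fun x y => ?_) _ _
    have h := pS_mid hf (hk0 k) (x + m) (y + m)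
    simp only [← wV_potS hf (hk0 k), wV] at h ⊢
    rw [show (2 : ℝ)⁻¹ • (x + m + (y + m)) = (2 : ℝ)⁻¹ • (x + y) + m by module,
      ← Real.exp_add, ← Real.exp_nat_mul, Real.exp_le_exp] at h
    rw [inner_smul_right, inner_add_right, ← Real.exp_add, ← Real.exp_nat_mul, Real.exp_le_exp]
    push_cast at h ⊢
    linarith
  have hWe : ∀ k x, wV (W k) x = ew s c (x + m) * pS f ((k : ℝ) + 1) (x + m) / Zk k := fun k x => by
    rw [← wV_potS hf (hk0 k) (x + m)]
    simp only [hW, wV, damp, ew]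
    rw [← Real.exp_add]
    conv_rhs => rw [← Real.exp_log (hZp k), ← Real.exp_sub]
    congr 1
    rw [norm_add_sq_real, inner_add_right, inner_sub_left, real_inner_smul_left,
      real_inner_comm x m]
    ring
  have hWint : ∀ (k : ℕ) (h : Euc n → ℝ), Continuous h → ∀ B : ℝ,
      (∀ x, |h (x - m) * ew s c x| ≤ B) →
      Integrable (fun x => h x * wV (W k) x) ∧
      ∫ x, h x * wV (W k) x = (∫ x, h (x - m) * ew s c x * pS f ((k : ℝ) + 1) x) / Zk k := by
    intro k h hh B hB
    have hi := (integrable_mul_pS hf (hk0 k)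
      (F := fun x => h (x - m) * ew s c x) (by fun_prop) hB).div_const (Zk k)
    have e : (fun x => h x * wV (W k) x)
        = fun x => (fun u => h (u - m) * ew s c u * pS f ((k : ℝ) + 1) u / Zk k) (x + m) := by
      funext x; simp only [hWe, add_sub_cancel_right]; ring
    refine ⟨e ▸ hi.comp_add_right m, ?_⟩
    rw [e, integral_add_right_eq_self
      (fun u => h (u - m) * ew s c u * pS f ((k : ℝ) + 1) u / Zk k) m, integral_div]
  have hWlim : ∀ (h : Euc n → ℝ), Continuous h → ∀ B : ℝ,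
      (∀ x, |h (x - m) * ew s c x| ≤ B) →
      Tendsto (fun k => ∫ x, h x * wV (W k) x) atTop (𝓝 (∫ x, h (x - m) ∂ν)) := by
    intro h hh B hB
    rw [hνi]
    have := (weak_pS hf (F := fun x => h (x - m) * ew s c x) (by fun_prop) hB).div hZlim hZ0p.ne'
    refine this.congr fun k => ?_
    exact ((hWint k h hh B hB).2).symm
  have hWI : ∀ k, ∫ x, wV (W k) x = 1 := fun k => by
    have := (hWint k (fun _ => 1) continuous_const B1 fun x => by simpa using hB1 x).2
    simp only [one_mul] at this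
    rw [this]
    exact div_self (hZp k).ne'
  have hgrow : ∀ i j : Fin n, ∃ B, ∀ x, |(x - m) i * (x - m) j * ew s c x| ≤ B := fun i j =>
    bdd_mul_ew hs c (K := 2 * (1 + ‖m‖ ^ 2)) fun x => by
      have hi := PiLp.norm_apply_le (x - m) i
      have hj := PiLp.norm_apply_le (x - m) j
      rw [Real.norm_eq_abs] at hi hj
      rw [abs_mul]
      refine (mul_le_mul hi hj (abs_nonneg _) (norm_nonneg _)).trans ?_
      calc ‖x - m‖ * ‖x - m‖ ≤ (‖x‖ + ‖m‖) * (‖x‖ + ‖m‖) := by
            gcongr <;> exact norm_sub_le x m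
        _ ≤ _ := by nlinarith [sq_nonneg (‖x‖ - ‖m‖), sq_nonneg (‖x‖ * ‖m‖)]
  choose Bm hBm using hgrow
  -- the second moments
  set Mk := fun (k : ℕ) (i j : Fin n) => ∫ x, x i * x j * wV (W k) x with hMk
  set M0 := fun (i j : Fin n) => ∫ x, (x - m) i * (x - m) j ∂ν with hM0
  have hMlim : ∀ i j, Tendsto (fun k => Mk k i j) atTop (𝓝 (M0 i j)) := fun i j =>
    hWlim (fun x => x i * x j) (by fun_prop) (Bm i j) (hBm i j)
  set d := fun k => ∑ i, ∑ j, |Mk k i j - M0 i j| with hd
  have hdlim : Tendsto d atTop (𝓝 0) := by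
    have := tendsto_finsetSum Finset.univ fun i (_ : i ∈ Finset.univ) =>
      tendsto_finsetSum Finset.univ fun j (_ : j ∈ Finset.univ) =>
        ((hMlim i j).sub_const (M0 i j)).abs
    simpa [hd] using this
  have hinner : ∀ x e : Euc n, ⟪x, e⟫ ^ 2 = ∑ i, ∑ j, e i * e j * (x i * x j) := fun x e => by
    rw [PiLp.inner_apply, sq, Finset.sum_mul_sum]
    exact Finset.sum_congr rfl fun i _ => Finset.sum_congr rfl fun j _ => by simp; ring
  have hνint : ∀ i j, Integrable (fun x => (x - m) i * (x - m) j) ν := fun i j => by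
    refine Integrable.congr ?_ (EventuallyEq.refl _ _)
    rw [hν, integrable_withDensity_iff_integrable_smul'
      hmd.ennreal_ofReal
      (Eventually.of_forall fun x => ENNReal.ofReal_lt_top)]
    refine ((hf.int.bdd_mul (c := Bm i j) (f := fun x => (x - m) i * (x - m) j * ew s c x)
      (by fun_prop : Continuous fun x => (x - m) i * (x - m) j * ew s c x).aestronglyMeasurable
      (Eventually.of_forall fun x => hBm i j x)).div_const Z0).congr
      (Eventually.of_forall fun x => ?_)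
    simp only [smul_eq_mul, ENNReal.toReal_ofReal
      (div_nonneg (mul_nonneg (hf.nonneg x) (ew_pos s c x).le) hZ0p.le)]
    ring
  have hMom : ∀ k, Mom (W k) (Λ + d k) := fun k e => by
    have hik : ∀ i j, Integrable fun x => e i * e j * (x i * x j * wV (W k) x) := fun i j =>
      (hWint k (fun x => x i * x j) (by fun_prop) (Bm i j) (hBm i j)).1.const_mul _
    have hrw : ∀ x, ⟪x, e⟫ ^ 2 * wV (W k) x = ∑ i, ∑ j, e i * e j * (x i * x j * wV (W k) x) :=
      fun x => by
        simp only [hinner, Finset.sum_mul]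
        exact Finset.sum_congr rfl fun i _ => Finset.sum_congr rfl fun j _ => by ring
    simp only [hrw]
    refine ⟨integrable_finsetSum _ fun i _ => integrable_finsetSum _ fun j _ => hik i j, ?_⟩
    rw [integral_finsetSum _ fun i _ => integrable_finsetSum _ fun j _ => hik i j]
    simp only [integral_finsetSum _ fun j _ => hik _ j, integral_const_mul]
    have h0 : ∑ i, ∑ j, e i * e j * M0 i j ≤ Λ * ‖e‖ ^ 2 := by
      refine le_trans (le_of_eq ?_) (hΛ e)
      simp only [hinner]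
      rw [integral_finsetSum _ fun i _ => integrable_finsetSum _ fun j _ => (hνint i j).const_mul _]
      simp only [integral_finsetSum _ fun j _ => (hνint _ j).const_mul _, integral_const_mul, hM0]
    calc ∑ i, ∑ j, e i * e j * Mk k i j
        ≤ ∑ i, ∑ j, (e i * e j * M0 i j + ‖e‖ ^ 2 * |Mk k i j - M0 i j|) := by
          refine Finset.sum_le_sum fun i _ => Finset.sum_le_sum fun j _ => ?_
          have h1 := le_abs_self (e i * e j * (Mk k i j - M0 i j))
          have h2 : |e i * e j| ≤ ‖e‖ ^ 2 := by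
            rw [abs_mul, sq]
            exact mul_le_mul (by simpa using PiLp.norm_apply_le e i)
              (by simpa using PiLp.norm_apply_le e j) (abs_nonneg _) (norm_nonneg _)
          rw [abs_mul, mul_sub] at h1
          have h3 := mul_le_mul_of_nonneg_right h2 (abs_nonneg (Mk k i j - M0 i j))
          linarith
      _ = (∑ i, ∑ j, e i * e j * M0 i j) + ‖e‖ ^ 2 * d k := by
          simp only [Finset.sum_add_distrib, hd, Finset.mul_sum]
      _ ≤ _ := by linarith
  -- the test function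
  let b : ContDiffBump (0 : Euc n) := ⟨R + ‖m‖ + 1, R + ‖m‖ + 2,
    by linarith [hf.rad, norm_nonneg m], by linarith⟩
  set q := fun y : Euc n => ∑ j, ∑ k, A j k * y j * y k with hq
  set φ := fun y : Euc n => b y * q y with hφ
  set g := fun y : Euc n => ∑ i, pd i φ y ^ 2 with hg
  have hφs : ContDiff ℝ ∞ φ := b.contDiff.mul (by fun_prop)
  have hφc : HasCompactSupport φ := b.hasCompactSupport.mul_right
  have hgc : Continuous g :=
    continuous_finsetSum _ fun i _ => ((contDiff_pd hφs i).continuous.pow 2)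
  have hgs : HasCompactSupport g := HasCompactSupport.intro hφc.isCompact fun x hx =>
    Finset.sum_eq_zero fun i _ => by
      rw [show pd i φ x = 0 from image_eq_zero_of_notMem_tsupport fun hj =>
        hx (tsupport_fderiv_apply_subset ℝ (bas i) hj)]
      simp
  obtain ⟨Bφ, hBφ⟩ := hφs.continuous.bounded_above_of_compact_support hφc
  obtain ⟨Bg, hBg⟩ := hgc.bounded_above_of_compact_support hgs
  have hbd : ∀ (h : Euc n → ℝ) (Bh : ℝ), (∀ y, |h y| ≤ Bh) →
      ∀ x, |h (x - m) * ew s c x| ≤ Bh * B1 := fun h Bh hh x => by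
    rw [abs_mul]
    exact mul_le_mul (hh _) (hB1 x) (abs_nonneg _) ((abs_nonneg _).trans (hh (x - m)))
  have hlim1 := hWlim (fun y => φ y ^ 2) (hφs.continuous.pow 2) _
    (hbd _ (Bφ ^ 2) fun y => by
      rw [abs_pow]; exact pow_le_pow_left₀ (abs_nonneg _) (hBφ y) 2)
  have hlim2 := hWlim φ hφs.continuous _ (hbd _ Bφ hBφ)
  have hlim3 := hWlim g hgc _ (hbd _ Bg hBg)
  -- the limit inequality
  have hmain : ∀ ε : ℝ, 0 < ε → (∫ x, φ (x - m) ^ 2 ∂ν) - (∫ x, φ (x - m) ∂ν) ^ 2
      ≤ Real.sqrt ((Λ + ε) / s) * ∫ x, g (x - m) ∂ν := fun ε hε => by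
    refine le_of_tendsto_of_tendsto (hlim1.sub (hlim2.pow 2)) (hlim3.const_mul _) ?_
    filter_upwards [hdlim.eventually (eventually_le_nhds hε)] with k hk
    have hd0 : 0 ≤ d k := Finset.sum_nonneg fun i _ => Finset.sum_nonneg fun j _ => abs_nonneg _
    have h := poincare_damped (hWs k) (hWI k) hs (by linarith) (hWc k) (hMom k) φ hφs
      (max Bφ Bg) fun x => ⟨(hBφ x).trans (le_max_left _ _),
        ((le_abs_self _).trans (hBg x)).trans (le_max_right _ _)⟩
    refine h.trans (mul_le_mul_of_nonneg_right (Real.sqrt_le_sqrt ?_) ?_)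
    · gcongr
    · exact integral_nonneg fun x =>
        mul_nonneg (Finset.sum_nonneg fun i _ => sq_nonneg _) (wV_pos _ x).le
  have hmain0 : (∫ x, φ (x - m) ^ 2 ∂ν) - (∫ x, φ (x - m) ∂ν) ^ 2
      ≤ Real.sqrt (Λ / s) * ∫ x, g (x - m) ∂ν := by
    have hc' : Continuous fun ε : ℝ => Real.sqrt ((Λ + ε) / s) * ∫ x, g (x - m) ∂ν := by
      fun_prop
    have ht : Tendsto (fun ε : ℝ => Real.sqrt ((Λ + ε) / s) * ∫ x, g (x - m) ∂ν) (𝓝[>] 0)
        (𝓝 (Real.sqrt (Λ / s) * ∫ x, g (x - m) ∂ν)) := by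
      simpa using (hc'.tendsto 0).mono_left nhdsWithin_le_nhds
    exact ge_of_tendsto ht (eventually_nhdsWithin_of_forall hmain)
  -- the bump disappears
  have hsame : ∀ (h h' : Euc n → ℝ), (∀ x, ‖x‖ ≤ R → h x = h' x) →
      ∫ x, h x ∂ν = ∫ x, h' x ∂ν := fun h h' e => by
    rw [hνi, hνi]
    congr 1
    refine integral_congr_ae (Eventually.of_forall fun x => ?_)
    rcases le_or_gt ‖x‖ R with hx | hx
    · simp only [e x hx]
    · simp [hf.supp x hx]
  have hball : ∀ x : Euc n, ‖x‖ ≤ R → x - m ∈ Metric.ball (0 : Euc n) (R + ‖m‖ + 1) :=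
    fun x hx => by
      rw [mem_ball_zero_iff]
      linarith [norm_sub_le x m]
  have hφq : ∀ y ∈ Metric.ball (0 : Euc n) (R + ‖m‖ + 1), φ y = q y := fun y hy => by
    simp only [hφ]
    rw [b.one_of_mem_closedBall (Metric.ball_subset_closedBall hy), one_mul]
  have e1 : ∫ x, φ (x - m) ∂ν = ∫ x, ∑ j, ∑ k, A j k * (x j - m j) * (x k - m k) ∂ν :=
    hsame _ _ fun x hx => by rw [hφq _ (hball x hx)]; simp [hq]
  have e2 : ∫ x, φ (x - m) ^ 2 ∂ν = ∫ x, (∑ j, ∑ k, A j k * (x j - m j) * (x k - m k)) ^ 2 ∂ν :=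
    hsame _ _ fun x hx => by rw [hφq _ (hball x hx)]; simp [hq]
  have e3 : ∫ x, g (x - m) ∂ν = 4 * ∫ x, ∑ j, (∑ k, A j k * (x k - m k)) ^ 2 ∂ν := by
    rw [← integral_const_mul]
    refine hsame _ _ fun x hx => ?_
    simp only [hg, Finset.mul_sum (a := (4 : ℝ))]
    refine Finset.sum_congr rfl fun i _ => ?_
    have hev : φ =ᶠ[𝓝 (x - m)] q :=
      eventually_of_mem (Metric.isOpen_ball.mem_nhds (hball x hx)) hφq
    simp only [pd, hev.fderiv_eq]
    rw [show (fderiv ℝ q (x - m)) (bas i) = pd i q (x - m) from rfl, hq, pd_quad A hA]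
    simp only [PiLp.sub_apply]
    ring
  rw [e1, e2, e3] at hmain0
  linarith

end Vale.Agent.P245.SL
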