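import Mathlib
import Vale.Agent.P245.SL.Drift
import Vale.Agent.P245.SL.QuadPoincare

/-!
Separated sets under a log-concave probability measure with bounded covariance, supported in a
ball: the squared distance is at most `C L ((log n + 2)^2 + L)`.
-/

open MeasureTheory Filter Set Matrix
open scoped RealInnerProductSpace Topology ENNReal
open Vale.Agent.P245.Sub

namespace Vale.Agent.P245.SL

variable {n : ℕ}

lemma quadPoi : QuadPoi := by
  intro n f R hf s hs c ν _ hν m Λ hΛ0 hΛ A hA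
  exact quad_poincare hf hs c hν m hΛ0 hΛ A hA

lemma trace_pow_le {M : Matrix (Fin n) (Fin n) ℝ} (hM : M.PosSemidef) {b : ℝ}
    (h : ∀ θ : Fin n → ℝ, θ ⬝ᵥ (M *ᵥ θ) ≤ b * (θ ⬝ᵥ θ)) (q : ℕ) : (M ^ q).trace ≤ n * b ^ q := by
  obtain ⟨W, d, hd, -, h2, hp⟩ := spec hM
  rw [trace_pow_eq h2 hp]
  refine le_trans (Finset.sum_le_sum (g := fun _ => b ^ q) fun a _ => pow_le_pow_left₀ (hd a) ?_ q)
    (by simp)
  have ha := h (fun i => W i a)
  rw [eig_quad h2 hp] at ha
  have e : (fun i => W i a) ⬝ᵥ (fun i => W i a) = 1 := by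
    have := congrFun (congrFun h2 a) a
    rw [Matrix.one_apply_eq] at this
    exact this
  rwa [e, mul_one] at ha

section

variable {f : Euc n → ℝ} {R : ℝ} {μ : Measure (Euc n)} (hM : Mdl f R μ)
include hM

lemma avg_U {g : Euc n → ℝ} (hg : Loc R g) {σ : ℝ} (hσ : 0 ≤ σ) :
    avg (U μ g) σ = U μ g 0 0 := by
  haveI := hM.prob
  have hok := ok_UT hM.sup hg
  have hc := continuousOn_avg hok
  have hd : ∀ x ∈ interior (Ici (0 : ℝ)), HasDerivWithinAt (avg (UT μ g).val) 0 (interior (Ici 0)) x := by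
    intro x hx
    rw [interior_Ici] at hx ⊢
    refine ((hasDerivAt_avg hok hx).congr_deriv ?_).hasDerivWithinAt
    simp [avg, heat_UT hM.sup hg]
  have h1 := monotoneOn_of_hasDerivWithinAt_nonneg (convex_Ici 0) hc hd (fun _ _ => le_rfl)
  have h2 := antitoneOn_of_hasDerivWithinAt_nonpos (convex_Ici 0) hc hd (fun _ _ => le_rfl)
  have h0 : avg (UT μ g).val 0 = U μ g 0 0 := avg_zero _
  exact le_antisymm ((h2 (self_mem_Ici) (mem_Ici.2 hσ) hσ).trans_eq h0)
    (h0.symm.trans_le (h1 (self_mem_Ici) (mem_Ici.2 hσ) hσ))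

lemma U_zero_one : U μ one1 0 0 = 1 := by
  haveI := hM.prob
  simp [U, one1, ew]

lemma tilt_zero : tilt μ 0 0 = μ := by
  rw [tilt, U_zero_one hM]
  simp [ew]

lemma U_indicator_zero {B : Set (Euc n)} (hB : MeasurableSet B) :
    U μ (B.indicator one1) 0 0 = μ.real B := by
  haveI := hM.prob
  simp only [U, ew, inner_zero_left, zero_div, zero_mul, sub_zero, Real.exp_zero, mul_one]
  exact integral_indicator_one hB

lemma ev_indicator_zero {B : Set (Euc n)} (hB : MeasurableSet B) :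
    ev μ (B.indicator one1) 0 0 = μ.real B := by
  rw [ev, U_indicator_zero hM hB, U_zero_one hM, inv_one, mul_one]

lemma lamq_zero_le (hcov : ∀ θ : Euc n, ∫ x, ⟪x, θ⟫ ^ 2 ∂μ ≤ 4 * ‖θ‖ ^ 2) {q : ℕ} (hq : 1 ≤ q)
    (hqn : Real.log ((n : ℝ) + 1) ≤ q) : lamq μ q 0 0 ≤ 12 := by
  haveI := hM.prob
  have hquad : ∀ θ : Fin n → ℝ, θ ⬝ᵥ (Gm μ 0 0 *ᵥ θ) ≤ 4 * (θ ⬝ᵥ θ) := by
    intro θ
    have h := hcov (WithLp.toLp 2 θ)
    have e : ‖WithLp.toLp 2 θ‖ ^ 2 = θ ⬝ᵥ θ := by
      rw [EuclideanSpace.norm_sq_eq]; simp [dotProduct, sq]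
    rw [e] at h
    refine le_trans ?_ h
    have ee : ∀ x, zl μ 0 0 θ x = ⟪x, WithLp.toLp 2 θ⟫ - ∫ y, ⟪y, WithLp.toLp 2 θ⟫ ∂μ := fun x => by
      have := zl_eq hM 0 0 (WithLp.toLp 2 θ) x
      rwa [tilt_zero hM] at this
    rw [quad_zl hM, tilt_zero hM]
    simp only [ee]
    set m := ∫ y, ⟪y, WithLp.toLp 2 θ⟫ ∂μ with hm
    have i1 : Integrable (fun y => ⟪y, WithLp.toLp 2 θ⟫) μ := by
      have := integrable_tilt hM.sup (f := fun y => ⟪y, WithLp.toLp 2 θ⟫)
        (Loc.of_cont (by fun_prop)) 0 0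
      rwa [tilt_zero hM] at this
    have i2 : Integrable (fun y => ⟪y, WithLp.toLp 2 θ⟫ ^ 2) μ := by
      have := integrable_tilt hM.sup (f := fun y => ⟪y, WithLp.toLp 2 θ⟫ ^ 2)
        (Loc.of_cont (by fun_prop)) 0 0
      rwa [tilt_zero hM] at this
    have e2 : ∀ x, (⟪x, WithLp.toLp 2 θ⟫ - m) ^ 2
        = ⟪x, WithLp.toLp 2 θ⟫ ^ 2 - 2 * m * ⟪x, WithLp.toLp 2 θ⟫ + m ^ 2 := fun x => by ring
    simp only [e2]
    rw [integral_add, integral_sub i2 (i1.const_mul _), integral_const_mul, integral_const,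
      probReal_univ, one_smul, ← hm]
    · linarith [sq_nonneg m]
    · exact i2.sub (i1.const_mul _)
    · exact integrable_const _
  have hT := trace_pow_le (posSemidef_Gm hM.sup 0 0) hquad q
  have hT0 := trace_pow_nonneg (posSemidef_Gm hM.sup 0 0) q
  have hq0 : (0 : ℝ) < q := by exact_mod_cast (by omega : 0 < q)
  rw [lamq, TT_val]
  have h4 : (1 : ℝ) ≤ 4 ^ q := one_le_pow₀ (by norm_num)
  have e3 : ((n : ℝ) + 1) ^ ((q : ℝ)⁻¹) ≤ 3 := by
    rw [Real.rpow_def_of_pos (by positivity)]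
    refine (Real.exp_le_exp.2 ?_).trans (le_of_lt (Real.exp_one_lt_d9.trans (by norm_num)))
    rw [← div_eq_mul_inv, div_le_one hq0]
    exact hqn
  calc ((Gm μ 0 0 ^ q).trace + 1) ^ ((q : ℝ)⁻¹) ≤ (((n : ℝ) + 1) * 4 ^ q) ^ ((q : ℝ)⁻¹) :=
        Real.rpow_le_rpow (by linarith) (by rw [add_mul, one_mul]; linarith) (by positivity)
    _ = ((n : ℝ) + 1) ^ ((q : ℝ)⁻¹) * 4 := by
        rw [Real.mul_rpow (by positivity) (by positivity),
          Real.pow_rpow_inv_natCast (by norm_num) (by omega)]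
    _ ≤ 12 := by linarith

/-- A tilt at which both sets keep their mass. -/
lemma exists_good_tilt {κ : ℝ} (hκ : 1 ≤ κ)
    (hbor : ∀ {s : ℝ}, 0 ≤ s → ∀ (c : Euc n) (θ : Fin n → ℝ),
      ∫ x, zl μ s c θ x ^ 4 ∂tilt μ s c ≤ κ * (θ ⬝ᵥ (Gm μ s c *ᵥ θ)) ^ 2 ∧
      ∀ B : Set (Euc n), MeasurableSet B → ∀ L : ℝ, 0 ≤ L →
        ∫ x in B, |zl μ s c θ x| ∂tilt μ s c
          ≤ κ * Real.sqrt (θ ⬝ᵥ (Gm μ s c *ᵥ θ))
            * (ev μ (B.indicator one1) s c * (L + 1) + Real.exp (-L)))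
    (hcov : ∀ θ : Euc n, ∫ x, ⟪x, θ⟫ ^ 2 ∂μ ≤ 4 * ‖θ‖ ^ 2) {q : ℕ} (hq : 2 ≤ q)
    (hqn : Real.log ((n : ℝ) + 1) ≤ q) {A B : Set (Euc n)} (hA : MeasurableSet A)
    (hB : MeasurableSet B) {L : ℝ} (hL : 1 ≤ L) (hpA : 1 / 3 ≤ μ.real A)
    (hpB : Real.exp (-L) ≤ μ.real B) {s : ℝ} (hs : 0 < s) {δ : ℝ} (hδ : 0 ≤ δ)
    (hqs : q * Real.sqrt s ≤ δ) (hLs : L * s ≤ δ) (hδκ : δ * (300 + 2000 * κ ^ 2) ≤ 1 / 10) :
    ∃ c : Euc n, μ.real B / 10 ≤ ev μ (A.indicator one1) s c * ev μ (B.indicator one1) s c := by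
  haveI := hM.prob
  by_contra hcon
  push Not at hcon
  set Rn : ℝ := 120 with hRn
  have hRn0 : (0 : ℝ) < Rn := by norm_num [hRn]
  set P : TD n := TD.mul (UT μ one1) (Phi μ A B q Rn) with hP
  have hokP : P.Ok := TD.ok_mul (ok_UT hM.sup loc_one) (ok_Phi hM hq hRn0 hA hB)
  have hlB : Loc R (B.indicator (one1 : Euc n → ℝ)) := Loc.indicator hB
  have hlA : Loc R (A.indicator (one1 : Euc n → ℝ)) := Loc.indicator hA
  set b0 := μ.real B with hb0
  have hb00 : 0 < b0 := lt_of_lt_of_le (Real.exp_pos _) hpB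
  have hκ2 : 1 ≤ κ ^ 2 := one_le_pow₀ hκ
  -- the derivative
  have hder : ∀ σ : ℝ, 0 < σ →
      -(b0 * (150 * q / Real.sqrt σ + 2000 * κ ^ 2 * L)) ≤ avg (heat P) σ := by
    intro σ hσ
    set c1 := 4 * q * 3 * Real.sqrt Rn / Real.sqrt σ + 6 * κ ^ 2 * Rn * (L + 1) with hc1
    set c2 := 4 * κ ^ 2 * Rn * Real.exp (-L) with hc2
    have hpt : ∀ c, -(c1 * U μ (B.indicator one1) σ c + c2 * U μ one1 σ c) ≤ heat P σ c := by
      intro c
      have hZ := U_one_pos hM.sup σ c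
      rw [hP, heat_Z_mul hM.sup]
      have h := gen_Phi_ge hM quadPoi hσ c hq hκ (fun θ => (hbor hσ.le c θ).1) hA hB
        (L := L) (by linarith) (fun θ => (hbor hσ.le c θ).2 B hB L (by linarith)) hRn0
      have hb : 0 ≤ ev μ (B.indicator one1) σ c := by
        rw [ev_eq hM.sup]
        exact integral_nonneg fun x => indicator_nonneg (fun y _ => zero_le_one) x
      have hN : (n : ℝ) ^ ((q : ℝ)⁻¹) ≤ 3 := by
        refine (Real.rpow_le_rpow (Nat.cast_nonneg n) (le_add_of_nonneg_right zero_le_one)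
          (by positivity)).trans ?_
        rw [Real.rpow_def_of_pos (by positivity)]
        refine (Real.exp_le_exp.2 ?_).trans (le_of_lt (Real.exp_one_lt_d9.trans (by norm_num)))
        rw [← div_eq_mul_inv, div_le_one (by exact_mod_cast (by omega : 0 < q))]
        exact hqn
      have h' : -(c1 * ev μ (B.indicator one1) σ c + c2) ≤ gen μ (Phi μ A B q Rn) σ c := by
        refine le_trans (neg_le_neg (add_le_add (mul_le_mul_of_nonneg_right ?_ hb) le_rfl)) h
        rw [hc1]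
        gcongr
      have e : c1 * U μ (B.indicator one1) σ c + c2 * U μ one1 σ c
          = U μ one1 σ c * (c1 * ev μ (B.indicator one1) σ c + c2) := by
        rw [ev]; field_simp
      rw [e, ← mul_neg]
      exact mul_le_mul_of_nonneg_left h' hZ.le
    have grh : Gr (heat P) := by
      have := hokP.gr_dt.add ((Gr.sum Finset.univ fun i => hokP.gr_h i).const_mul (1 / 2))
      exact this
    have hch : Continuous (heat P σ) := (hokP.cont_dt σ).add
      (continuous_const.mul (continuous_finsetSum _ fun i _ => hokP.cont_h i σ))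
    have gU : Gr fun s c => -(c1 * U μ (B.indicator one1) s c + c2 * U μ one1 s c) := by
      have := (((gr_U hM.sup hlB).const_mul c1).add ((gr_U hM.sup loc_one).const_mul c2)).const_mul (-1)
      simpa only [neg_one_mul] using this
    have cU : Continuous fun c => -(c1 * U μ (B.indicator one1) σ c + c2 * U μ one1 σ c) :=
      (((differentiable_U hM.sup hlB σ).continuous.const_mul c1).add
        ((differentiable_U hM.sup loc_one σ).continuous.const_mul c2)).neg
    have hmono : avg (fun s c => -(c1 * U μ (B.indicator one1) s c + c2 * U μ one1 s c)) σ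
        ≤ avg (heat P) σ := by
      refine integral_mono (integrable_avg gU hσ.le cU) (integrable_avg grh hσ.le hch) fun ξ => ?_
      exact mul_le_mul_of_nonneg_right (hpt _) (gker_pos one_pos ξ).le
    refine le_trans ?_ hmono
    have iB := integrable_avg (gr_U hM.sup hlB) hσ.le (differentiable_U hM.sup hlB σ).continuous
    have i1 := integrable_avg (gr_U hM.sup (loc_one (R := R))) hσ.le
      (differentiable_U hM.sup loc_one σ).continuous
    have e : avg (fun s c => -(c1 * U μ (B.indicator one1) s c + c2 * U μ one1 s c)) σ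
        = -(c1 * avg (U μ (B.indicator one1)) σ + c2 * avg (U μ one1) σ) := by
      simp only [avg, neg_mul, add_mul, mul_assoc]
      rw [integral_neg, integral_add (iB.const_mul c1) (i1.const_mul c2), integral_const_mul,
        integral_const_mul]
    rw [e, avg_U hM hlB hσ.le, avg_U hM loc_one hσ.le, U_indicator_zero hM hB, U_zero_one hM,
      mul_one, ← hb0, hc1, hc2]
    refine neg_le_neg ?_
    have hs11 : Real.sqrt Rn ≤ 11 := Real.sqrt_le_iff.2 ⟨by norm_num, by rw [hRn]; norm_num⟩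
    have t1 : 4 * q * 3 * Real.sqrt Rn / Real.sqrt σ ≤ 150 * q / Real.sqrt σ := by
      refine div_le_div_of_nonneg_right ?_ (Real.sqrt_nonneg σ)
      have := mul_le_mul_of_nonneg_left hs11 (by positivity : (0 : ℝ) ≤ 4 * q * 3)
      linarith [(Nat.cast_nonneg q : (0 : ℝ) ≤ q)]
    have t2 : 6 * κ ^ 2 * Rn * (L + 1) + 4 * κ ^ 2 * Rn ≤ 2000 * κ ^ 2 * L := by
      rw [hRn]; nlinarith
    have t3 := mul_le_mul_of_nonneg_right t1 hb00.le
    have t4 := mul_le_mul_of_nonneg_right t2 hb00.le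
    have t5 := mul_le_mul_of_nonneg_left hpB (by positivity : (0 : ℝ) ≤ 4 * κ ^ 2 * Rn)
    linarith
  -- monotonicity
  set G := fun σ : ℝ => avg P.val σ + b0 * (300 * q * Real.sqrt σ + 2000 * κ ^ 2 * L * σ) with hG
  have hmonoG : G 0 ≤ G s := by
    refine monotoneOn_of_hasDerivWithinAt_nonneg (convex_Ici 0) ?_
      (f' := fun σ => avg (heat P) σ + b0 * (150 * q / Real.sqrt σ + 2000 * κ ^ 2 * L)) ?_ ?_
      self_mem_Ici (mem_Ici.2 hs.le) hs.le
    · exact (continuousOn_avg hokP).add (by fun_prop)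
    · intro σ hσ
      rw [interior_Ici] at hσ ⊢
      have h1 : HasDerivAt (fun σ : ℝ => b0 * (300 * q * Real.sqrt σ + 2000 * κ ^ 2 * L * σ))
          (b0 * (150 * q / Real.sqrt σ + 2000 * κ ^ 2 * L)) σ := by
        refine ((((Real.hasDerivAt_sqrt (ne_of_gt hσ)).const_mul (300 * (q : ℝ))).add
          ((hasDerivAt_id σ).const_mul (2000 * κ ^ 2 * L))).const_mul b0).congr_deriv ?_
        ring
      exact ((hasDerivAt_avg hokP hσ).add h1).hasDerivWithinAt
    · intro σ hσ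
      rw [interior_Ici] at hσ
      linarith [hder σ hσ]
  -- the initial value
  have hG0 : b0 * (3 / 10) ≤ G 0 := by
    have hχ : 9 / 10 ≤ Real.exp (-(lamq μ q 0 0 / Rn)) := by
      refine le_trans ?_ (Real.add_one_le_exp _)
      have := lamq_zero_le hM hcov (by omega) hqn
      rw [hRn]; linarith
    have e : avg P.val 0 = μ.real A * b0 * Real.exp (-(lamq μ q 0 0 / Rn)) := by
      rw [avg_zero]
      simp only [hP, Phi, TD.mul, chi, TD.comp, vd, evd_val, ev_indicator_zero hM hA,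
        ev_indicator_zero hM hB, lamq]
      rw [show (UT μ one1).val 0 0 = U μ one1 0 0 from rfl, U_zero_one hM, one_mul, ← hb0]
    simp only [hG, e, Real.sqrt_zero, mul_zero, add_zero]
    calc b0 * (3 / 10) = 1 / 3 * b0 * (9 / 10) := by ring
      _ ≤ _ := mul_le_mul (mul_le_mul_of_nonneg_right hpA hb00.le) hχ (by norm_num)
          (mul_nonneg measureReal_nonneg hb00.le)
  -- the final value
  have hGs : avg P.val s ≤ b0 / 10 := by
    have i1 := integrable_avg (gr_U hM.sup (loc_one (R := R))) hs.le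
      (differentiable_U hM.sup loc_one s).continuous
    have h : avg P.val s ≤ ∫ ξ, b0 / 10 * (U μ one1 s (Real.sqrt s • ξ) * gker n 1 ξ) := by
      refine integral_mono (integrable_avg hokP.gr_val hs.le (hokP.diff s).continuous)
        (i1.const_mul _) fun ξ => ?_
      set c := Real.sqrt s • ξ
      have hZ := U_one_pos hM.sup s c
      have hev : ∀ S : Set (Euc n), MeasurableSet S → 0 ≤ ev μ (S.indicator one1) s c := fun S hS => by
        rw [ev_eq hM.sup]
        exact integral_nonneg fun x => indicator_nonneg (fun y _ => zero_le_one) x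
      have hab := mul_nonneg (hev A hA) (hev B hB)
      have hχ1 : Real.exp (-(lamq μ q s c / Rn)) ≤ 1 :=
        Real.exp_le_one_iff.2 (neg_nonpos.2 (div_nonneg (lamq_pos hM q s c).le hRn0.le))
      show P.val s c * gker n 1 ξ ≤ b0 / 10 * (U μ one1 s c * gker n 1 ξ)
      rw [← mul_assoc]
      refine mul_le_mul_of_nonneg_right ?_ (gker_pos one_pos ξ).le
      calc P.val s c = U μ one1 s c * (ev μ (A.indicator one1) s c * ev μ (B.indicator one1) s c
            * Real.exp (-(lamq μ q s c / Rn))) := rfl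
        _ ≤ U μ one1 s c * (b0 / 10) := mul_le_mul_of_nonneg_left
            ((mul_le_of_le_one_right hab hχ1).trans (hcon c).le) hZ.le
        _ = _ := mul_comm _ _
    rw [integral_const_mul] at h
    have e := avg_U hM (loc_one (R := R)) hs.le
    rw [U_zero_one hM] at e
    rw [avg] at e
    rwa [e, mul_one] at h
  have hloss : 300 * q * Real.sqrt s + 2000 * κ ^ 2 * L * s ≤ 1 / 10 := by
    have h1 := mul_le_mul_of_nonneg_left hqs (by norm_num : (0 : ℝ) ≤ 300)
    have h2 := mul_le_mul_of_nonneg_left hLs (by positivity : (0 : ℝ) ≤ 2000 * κ ^ 2)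
    linarith
  have hfin : G s ≤ b0 / 10 + b0 * (1 / 10) := by
    simp only [hG]
    linarith [mul_le_mul_of_nonneg_left hloss hb00.le]
  linarith

/-- Two sets at a tilt with a quadratic gain. -/
lemma tilt_two_set {A B : Set (Euc n)} (hA : MeasurableSet A) (hB : MeasurableSet B) {s : ℝ}
    (hs : 0 < s) (c : Euc n) {r : ℝ} (hr : 0 ≤ r) (hsep : ∀ x ∈ A, ∀ y ∈ B, r ≤ ‖x - y‖) :
    ev μ (A.indicator one1) s c * ev μ (B.indicator one1) s c ≤ Real.exp (-(s * r ^ 2 / 8)) := by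
  haveI := hM.prob
  haveI := isProbability_tilt hM.sup s c
  set Z := ∫ y, f y * ew s c y with hZ
  have hZ0 : 0 ≤ Z := integral_nonneg fun z => mul_nonneg (hM.cut.nonneg z) (ew_pos s c z).le
  set ψ := fun x => f x * Real.exp (⟪c, x⟫ - s / 4 * ‖x‖ ^ 2) / Z with hψ
  have hψm : Measurable ψ := (hM.cut.meas.mul (by fun_prop)).div_const _
  have hψ0 : ∀ x, 0 ≤ ψ x := fun x =>
    div_nonneg (mul_nonneg (hM.cut.nonneg x) (Real.exp_pos _).le) hZ0
  have key := two_set (τ := s / 2) (by positivity) hψm hψ0 (K := s * r ^ 2 / 8) hA hB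
    (fun x hx y hy => by
      have hp := parallelogram_law_with_norm ℝ x y
      have hm : ‖(2 : ℝ)⁻¹ • (x + y)‖ ^ 2 = ‖x + y‖ ^ 2 / 4 := by
        rw [norm_smul, mul_pow]; norm_num; ring
      have hr2 : r ^ 2 ≤ ‖x - y‖ ^ 2 := pow_le_pow_left₀ hr (hsep x hx y hy) 2
      simp only [hψ]
      rw [div_mul_div_comm, div_pow, ← sq Z, mul_mul_mul_comm, mul_pow, mul_div_assoc',
        mul_left_comm (Real.exp (-(s * r ^ 2 / 8)))]
      refine div_le_div_of_nonneg_right (mul_le_mul (hM.cut.mid x y) ?_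
        (mul_nonneg (Real.exp_pos _).le (Real.exp_pos _).le) (sq_nonneg _)) (sq_nonneg Z)
      rw [← Real.exp_add, ← Real.exp_nat_mul, ← Real.exp_add, Real.exp_le_exp, hm,
        real_inner_smul_right, inner_add_right]
      push_cast
      nlinarith [mul_le_mul_of_nonneg_left hr2 hs.le])
  have e : ∀ S : Set (Euc n), MeasurableSet S →
      tilt μ s c S = ∫⁻ x in S, ENNReal.ofReal (ψ x * Real.exp (-(s / 2 * ‖x‖ ^ 2) / 2)) := by
    intro S hS
    rw [hM.tilt_eq, withDensity_apply _ hS]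
    refine setLIntegral_congr_fun hS fun x _ => ?_
    simp only [hψ, hZ, ew]
    conv_rhs => rw [div_mul_eq_mul_div, mul_assoc, ← Real.exp_add]
    ring_nf
  rw [← e A hA, ← e B hB, ← setLIntegral_univ, ← e univ MeasurableSet.univ, measure_univ, one_pow,
    mul_one] at key
  have hh := ENNReal.toReal_le_of_le_ofReal (Real.exp_pos _).le key
  rw [ENNReal.toReal_mul] at hh
  rw [ev_eq hM.sup, ev_eq hM.sup]
  rw [show (∫ x, A.indicator one1 x ∂tilt μ s c) = (tilt μ s c).real A from integral_indicator_one hA,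
    show (∫ x, B.indicator one1 x ∂tilt μ s c) = (tilt μ s c).real B from integral_indicator_one hB]
  simpa [Measure.real] using hh

end

/-- Separated sets under a bounded log-concave measure with bounded covariance. -/
theorem sl_core : ∃ C : ℝ, 0 < C ∧ ∀ {n : ℕ} {f : Euc n → ℝ} {R : ℝ} {μ : Measure (Euc n)},
    Mdl f R μ → 1 ≤ n → (∀ θ : Euc n, ∫ x, ⟪x, θ⟫ ^ 2 ∂μ ≤ 4 * ‖θ‖ ^ 2) →
    ∀ {A B : Set (Euc n)}, MeasurableSet A → MeasurableSet B → ∀ {L : ℝ}, 1 ≤ L →
    1 / 3 ≤ μ.real A → Real.exp (-L) ≤ μ.real B → ∀ {r : ℝ}, 0 ≤ r →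
    (∀ x ∈ A, ∀ y ∈ B, r ≤ ‖x - y‖) → r ^ 2 ≤ C * L * ((Real.log n + 2) ^ 2 + L) := by
  obtain ⟨κ, hκ, hbor⟩ := borell_tilt
  set δ := (1 / 10) / (300 + 2000 * κ ^ 2) with hδ
  have hden : (0 : ℝ) < 300 + 2000 * κ ^ 2 := by positivity
  have hδ0 : 0 < δ := by positivity
  have hδ1 : δ ≤ 1 := by rw [hδ, div_le_one hden]; nlinarith
  refine ⟨256 / δ ^ 2, by positivity, ?_⟩
  intro n f R μ hM hn hcov A B hA hB L hL hpA hpB r hr hsep
  haveI := hM.prob
  set q : ℕ := ⌈Real.log ((n : ℝ) + 1)⌉₊ + 2 with hq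
  have hn' : (1 : ℝ) ≤ n := by exact_mod_cast hn
  have hlog : 0 ≤ Real.log ((n : ℝ) + 1) := Real.log_nonneg (by linarith)
  have hqn : Real.log ((n : ℝ) + 1) ≤ q := by
    rw [hq]; push_cast
    linarith [Nat.le_ceil (Real.log ((n : ℝ) + 1))]
  have hqb : (q : ℝ) ≤ 2 * (Real.log n + 2) := by
    rw [hq]; push_cast
    have h1 := (Nat.ceil_lt_add_one hlog).le
    have h2 : Real.log ((n : ℝ) + 1) ≤ Real.log n + 1 := by
      calc Real.log ((n : ℝ) + 1) ≤ Real.log (2 * n) := Real.log_le_log (by positivity) (by linarith)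
        _ = Real.log 2 + Real.log n := Real.log_mul (by norm_num) (by linarith)
        _ ≤ _ := by linarith [Real.log_two_lt_d9]
    linarith [Real.log_nonneg hn']
  set W : ℝ := (q : ℝ) ^ 2 + L with hW
  have hW0 : 0 < W := by positivity
  set s := δ ^ 2 / W with hs
  have hs0 : 0 < s := by positivity
  have hqs : (q : ℝ) * Real.sqrt s ≤ δ := by
    calc (q : ℝ) * Real.sqrt s = Real.sqrt ((q : ℝ) ^ 2 * s) := by
          rw [Real.sqrt_mul (by positivity), Real.sqrt_sq (Nat.cast_nonneg q)]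
      _ ≤ Real.sqrt (δ ^ 2) := by
          refine Real.sqrt_le_sqrt ?_
          rw [hs, mul_div_assoc', div_le_iff₀ hW0, mul_comm]
          exact mul_le_mul_of_nonneg_left (by linarith) (sq_nonneg δ)
      _ = δ := Real.sqrt_sq hδ0.le
  have hLs : L * s ≤ δ := by
    rw [hs, mul_div_assoc', div_le_iff₀ hW0]
    have h1 : L * δ ^ 2 ≤ δ * L := by nlinarith [mul_nonneg hδ0.le (by linarith : (0 : ℝ) ≤ L)]
    have h2 : δ * L ≤ δ * W := mul_le_mul_of_nonneg_left (by linarith [sq_nonneg (q : ℝ)]) hδ0.le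
    linarith
  obtain ⟨c, hc⟩ := exists_good_tilt hM hκ (fun {s} hs c θ => hbor hM hs c θ) hcov
    (by omega : 2 ≤ q) hqn hA hB hL hpA hpB hs0 hδ0.le hqs hLs
    (le_of_eq (by rw [hδ]; field_simp))
  have h2 := tilt_two_set hM hA hB hs0 c hr hsep
  have h3 : Real.exp (-(4 * L)) ≤ Real.exp (-(s * r ^ 2 / 8)) := by
    refine le_trans ?_ ((div_le_div_of_nonneg_right hpB (by norm_num)).trans (hc.trans h2))
    rw [le_div_iff₀ (by norm_num : (0 : ℝ) < 10), show -L = -(4 * L) + 3 * L by ring, Real.exp_add]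
    refine mul_le_mul_of_nonneg_left ?_ (Real.exp_pos _).le
    calc (10 : ℝ) ≤ 2.7 ^ 3 := by norm_num
      _ ≤ Real.exp 1 ^ 3 := pow_le_pow_left₀ (by norm_num) (by linarith [Real.exp_one_gt_d9]) 3
      _ = Real.exp 3 := by rw [← Real.exp_nat_mul]; norm_num
      _ ≤ _ := Real.exp_le_exp.2 (by linarith)
  rw [Real.exp_le_exp] at h3
  have h4 : δ ^ 2 / W * r ^ 2 ≤ 32 * L := by rw [← hs]; linarith
  rw [div_mul_eq_mul_div, div_le_iff₀ hW0] at h4
  have hW4 : W ≤ 4 * ((Real.log n + 2) ^ 2 + L) := by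
    have := pow_le_pow_left₀ (Nat.cast_nonneg q) hqb 2
    rw [hW]; nlinarith
  rw [div_mul_eq_mul_div, div_mul_eq_mul_div, le_div_iff₀ (by positivity)]
  have h5 := mul_le_mul_of_nonneg_left hW4 (by linarith : (0 : ℝ) ≤ 32 * L)
  have h6 : 0 ≤ L * ((Real.log n + 2) ^ 2 + L) := by positivity
  linarith

end Vale.Agent.P245.SL
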