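import Mathlib
import Vale.Agent.P245.SL.Psi
import Vale.Agent.P245.LSI.Glue
import Vale.Agent.P245.Sub.Combined

/-!
Gaussian concentration at scale `a² n^(1/3)` for linearly subgaussian log-concave measures, and the
logarithmic Sobolev inequality it gives.
-/

open MeasureTheory Filter Set
open scoped ContDiff RealInnerProductSpace Topology ENNReal NNReal
open Vale.Agent.P245.Sub Vale.Agent.P245.LSI

namespace Vale.Agent.P245.SL

lemma log_bound {n : ℕ} (hn : 1 ≤ n) :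
    (Real.log n + 2) ^ 2 ≤ 64 * (n : ℝ) ^ ((1 : ℝ) / 3) := by
  have hn' : (1 : ℝ) ≤ n := by exact_mod_cast hn
  have h1 := Real.log_le_rpow_div (by linarith : (0 : ℝ) ≤ n) (show (0 : ℝ) < 1 / 6 by norm_num)
  have h2 : 1 ≤ (n : ℝ) ^ ((1 : ℝ) / 6) := Real.one_le_rpow hn' (by norm_num)
  have h3 : ((n : ℝ) ^ ((1 : ℝ) / 6)) ^ 2 = (n : ℝ) ^ ((1 : ℝ) / 3) := by
    rw [← Real.rpow_natCast, ← Real.rpow_mul (by linarith)]; norm_num
  have h4 : Real.log n + 2 ≤ 8 * (n : ℝ) ^ ((1 : ℝ) / 6) := by linarith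
  refine (pow_le_pow_left₀ (by linarith [Real.log_nonneg hn']) h4 2).trans (le_of_eq ?_)
  rw [mul_pow, h3]; norm_num

/-- Gaussian concentration at scale `n^(1/3)`. -/
theorem conc_one : ∃ Kc : ℝ, 0 < Kc ∧ ∀ {n : ℕ}, 1 ≤ n → ∀ {ρ : Euc n → ℝ}, Measurable ρ →
    (∀ x, 0 ≤ ρ x) → (∀ x y, ρ x * ρ y ≤ ρ ((2 : ℝ)⁻¹ • (x + y)) ^ 2) →
    ∀ {μ : Measure (Euc n)} [IsProbabilityMeasure μ],
    μ = volume.withDensity (fun x => ENNReal.ofReal (ρ x)) →
    (∀ θ : Euc n, ‖θ‖ = 1 → ∫⁻ x, ENNReal.ofReal (Real.exp (⟪x, θ⟫ ^ 2)) ∂μ ≤ 2) →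
    ∀ g : Euc n → ℝ, LipschitzWith 1 g → ∀ m : ℝ, 1 / 2 ≤ μ.real {x | g x ≤ m} →
    ∀ r : ℝ, 0 ≤ r →
      μ.real {x | m + r ≤ g x} ≤ Real.exp (1 - r ^ 2 / (Kc * (n : ℝ) ^ ((1 : ℝ) / 3))) := by
  obtain ⟨C, hC, hcore⟩ := sl_core
  refine ⟨2 * max (65 * C) 4096, by positivity, ?_⟩
  intro n hn ρ hρm hρ0 hmid μ _ hμ hsub g hg m hm r hr
  set M := max (65 * C) 4096 with hM
  set P := (n : ℝ) ^ ((1 : ℝ) / 3) with hP
  have hn' : (1 : ℝ) ≤ n := by exact_mod_cast hn
  have hP1 : 1 ≤ P := Real.one_le_rpow hn' (by norm_num)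
  set Λ := r ^ 2 / (2 * M * P) with hΛ
  rcases le_or_gt Λ 1 with h1 | h1
  · exact measureReal_le_one.trans (Real.one_le_exp (by linarith))
  by_contra hcon
  push Not at hcon
  set A := {x | g x ≤ m} with hA'
  set B := {x | m + r ≤ g x} with hB'
  have hgc := hg.continuous.measurable
  have hA : MeasurableSet A := measurableSet_le hgc measurable_const
  have hB : MeasurableSet B := measurableSet_le measurable_const hgc
  -- the cut-off
  set η := Real.exp (-Λ) / 10 with hη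
  have hη0 : 0 < η := by positivity
  have hη1 : η ≤ 1 / 10 := by
    have : Real.exp (-Λ) ≤ 1 := Real.exp_le_one_iff.2 (by linarith)
    rw [hη]; linarith
  have hU : (⋃ k : ℕ, {z : Euc n | ‖z‖ ≤ (k : ℝ)}) = Set.univ :=
    Set.eq_univ_of_forall fun x => by
      obtain ⟨k, hk⟩ := exists_nat_ge ‖x‖
      exact Set.mem_iUnion.2 ⟨k, hk⟩
  have hlim := tendsto_measure_iUnion_atTop (μ := μ) (s := fun k : ℕ => {z : Euc n | ‖z‖ ≤ (k : ℝ)})
    fun i j hij x hx => le_trans (show ‖x‖ ≤ (i : ℝ) from hx) (Nat.cast_le.2 hij)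
  rw [hU, measure_univ] at hlim
  obtain ⟨k, hk⟩ := (hlim.eventually (lt_mem_nhds (show ENNReal.ofReal (1 - η) < 1 by
    rw [ENNReal.ofReal_lt_one]; linarith))).exists
  set K := {z : Euc n | ‖z‖ ≤ (k : ℝ)} with hK
  have hKm : MeasurableSet K := measurableSet_le measurable_norm measurable_const
  set c := μ.real K with hc
  have hc1 : 1 - η ≤ c := by
    rw [hc, Measure.real, ← ENNReal.toReal_ofReal (show 0 ≤ 1 - η by linarith)]
    exact (ENNReal.toReal_le_toReal ENNReal.ofReal_ne_top (measure_ne_top _ _)).2 hk.le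
  have hc0 : 0 < c := by linarith
  have hcle : c ≤ 1 := measureReal_le_one
  set f := fun x => K.indicator ρ x / c with hfdef
  set ν := volume.withDensity fun x => ENNReal.ofReal (f x) with hν
  have hνeq : ν = (ENNReal.ofReal c)⁻¹ • μ.restrict K := by
    ext S hS
    have e : ∀ y, ENNReal.ofReal (f y)
        = (ENNReal.ofReal c)⁻¹ * K.indicator (fun y => ENNReal.ofReal (ρ y)) y := fun y => by
      simp only [hfdef]
      rw [ENNReal.ofReal_div_of_pos hc0, div_eq_mul_inv, mul_comm]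
      by_cases hy : y ∈ K <;> simp [hy]
    rw [hν, withDensity_apply _ hS, Measure.smul_apply, Measure.restrict_apply hS, smul_eq_mul]
    simp only [e]
    rw [lintegral_const_mul _ (hρm.ennreal_ofReal.indicator hKm), setLIntegral_indicator hKm, hμ,
      withDensity_apply _ (hS.inter hKm), Set.inter_comm S K]
  have hcne : (ENNReal.ofReal c)⁻¹ ≠ ⊤ := by simpa using hc0
  have hρint : Integrable ρ := by
    refine ⟨hρm.aestronglyMeasurable, (hasFiniteIntegral_iff_ofReal (Eventually.of_forall hρ0)).2 ?_⟩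
    have : ∫⁻ x, ENNReal.ofReal (ρ x) = μ univ := by
      rw [hμ, withDensity_apply _ MeasurableSet.univ, Measure.restrict_univ]
    rw [this]; exact measure_lt_top _ _
  have hf0 : ∀ x, 0 ≤ f x := fun x => div_nonneg (indicator_nonneg (fun y _ => hρ0 y) x) hc0.le
  have hfint : Integrable f := (hρint.indicator hKm).div_const c
  have hν1 : ν univ = 1 := by
    rw [hνeq, Measure.smul_apply, Measure.restrict_apply_univ, smul_eq_mul,
      show μ K = ENNReal.ofReal c from (ofReal_measureReal).symm]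
    exact ENNReal.inv_mul_cancel (by simpa using hc0) ENNReal.ofReal_ne_top
  have hmass : ∫ x, f x = 1 := by
    rw [integral_eq_lintegral_of_nonneg_ae (Eventually.of_forall hf0) hfint.aestronglyMeasurable,
      ← setLIntegral_univ, ← withDensity_apply _ MeasurableSet.univ, ← hν, hν1, ENNReal.toReal_one]
  have hcut : Cut f k := by
    refine ⟨(hρm.indicator hKm).div_const c, hf0, hfint, hmass, fun x hx => ?_, k.cast_nonneg,
      fun x y => ?_⟩
    · simp only [hfdef]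
      rw [indicator_of_notMem (show x ∉ K from not_le.2 hx), zero_div]
    · by_cases hx : x ∈ K
      swap
      · simp only [hfdef, indicator_of_notMem hx, zero_div, zero_mul]; positivity
      by_cases hy : y ∈ K
      swap
      · simp only [hfdef, indicator_of_notMem hy, zero_div, mul_zero]; positivity
      have hxy : (2 : ℝ)⁻¹ • (x + y) ∈ K := by
        have hx' : ‖x‖ ≤ (k : ℝ) := hx
        have hy' : ‖y‖ ≤ (k : ℝ) := hy
        show ‖(2 : ℝ)⁻¹ • (x + y)‖ ≤ (k : ℝ)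
        rw [norm_smul, norm_inv, Real.norm_ofNat]
        linarith [norm_add_le x y]
      simp only [hfdef, indicator_of_mem hx, indicator_of_mem hy, indicator_of_mem hxy]
      rw [div_mul_div_comm, div_pow, ← sq c]
      exact div_le_div_of_nonneg_right (hmid x y) (sq_nonneg _)
  have hMdl : Mdl f k ν := ⟨hcut, hν⟩
  have hreal : ∀ S : Set (Euc n), MeasurableSet S → μ.real S - η ≤ ν.real S := by
    intro S hS
    have e : ν.real S = c⁻¹ * μ.real (S ∩ K) := by
      rw [Measure.real, hνeq, Measure.smul_apply, Measure.restrict_apply hS, smul_eq_mul,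
        ENNReal.toReal_mul, ENNReal.toReal_inv, ENNReal.toReal_ofReal hc0.le]
      rfl
    have h2 : μ.real S ≤ μ.real (S ∩ K) + η := by
      refine (le_trans ?_ (measureReal_union_le (S ∩ K) Kᶜ)).trans (add_le_add le_rfl ?_)
      · exact measureReal_mono fun x hx => by
          by_cases hxK : x ∈ K
          · exact Or.inl ⟨hx, hxK⟩
          · exact Or.inr hxK
      · rw [probReal_compl_eq_one_sub hKm]; linarith
    have h3 : μ.real (S ∩ K) ≤ c⁻¹ * μ.real (S ∩ K) :=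
      le_mul_of_one_le_left measureReal_nonneg ((one_le_inv₀ hc0).2 hcle)
    linarith
  have hcov : ∀ θ : Euc n, ∫ x, ⟪x, θ⟫ ^ 2 ∂ν ≤ 4 * ‖θ‖ ^ 2 := by
    intro θ
    rcases eq_or_ne θ 0 with rfl | hθ
    · simp
    set u := ‖θ‖⁻¹ • θ with hu
    have hu1 : ‖u‖ = 1 := by rw [hu, norm_smul, norm_inv, norm_norm, inv_mul_cancel₀ (by simpa)]
    have hle : ∫⁻ x, ENNReal.ofReal (⟪x, u⟫ ^ 2) ∂μ ≤ 2 :=
      (lintegral_mono fun x => ENNReal.ofReal_le_ofReal
        (by linarith [Real.add_one_le_exp (⟪x, u⟫ ^ 2)])).trans (hsub u hu1)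
    have hi : Integrable (fun x => ⟪x, u⟫ ^ 2) μ :=
      ⟨(by fun_prop : Continuous fun x : Euc n => ⟪x, u⟫ ^ 2).aestronglyMeasurable,
        (hasFiniteIntegral_iff_ofReal (Eventually.of_forall fun x => sq_nonneg _)).2
          (lt_of_le_of_lt hle ENNReal.ofNat_lt_top)⟩
    have h2 : ∫ x, ⟪x, u⟫ ^ 2 ∂μ ≤ 2 := by
      rw [integral_eq_lintegral_of_nonneg_ae (Eventually.of_forall fun x => sq_nonneg _)
        hi.aestronglyMeasurable]
      exact ENNReal.toReal_le_of_le_ofReal (by norm_num) (hle.trans (ENNReal.ofReal_ofNat 2).ge)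
    have h3 : ∫ x, ⟪x, u⟫ ^ 2 ∂ν ≤ 4 := by
      rw [hνeq, integral_smul_measure, smul_eq_mul, ENNReal.toReal_inv,
        ENNReal.toReal_ofReal hc0.le, inv_mul_le_iff₀ hc0]
      refine (setIntegral_le_integral hi (Eventually.of_forall fun x => sq_nonneg _)).trans ?_
      linarith
    have e : ∀ x, ⟪x, θ⟫ ^ 2 = ‖θ‖ ^ 2 * ⟪x, u⟫ ^ 2 := fun x => by
      rw [hu, real_inner_smul_right, mul_pow, ← mul_assoc, ← mul_pow,
        mul_inv_cancel₀ (by simpa), one_pow, one_mul]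
    simp only [e, integral_const_mul]
    rw [mul_comm 4]
    exact mul_le_mul_of_nonneg_left h3 (sq_nonneg _)
  have hexp : Real.exp (1 - Λ) = Real.exp 1 * Real.exp (-Λ) := by
    rw [← Real.exp_add, ← sub_eq_add_neg]
  have hBν : Real.exp (-Λ) ≤ ν.real B := by
    refine le_trans ?_ (hreal B hB)
    rw [hexp] at hcon
    have := mul_le_mul_of_nonneg_right (show (2 : ℝ) ≤ Real.exp 1 by linarith [Real.exp_one_gt_d9])
      (Real.exp_pos (-Λ)).le
    rw [hη]; linarith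
  have hsep : ∀ x ∈ A, ∀ y ∈ B, r ≤ ‖x - y‖ := by
    intro x hx y hy
    have h := hg.dist_le_mul y x
    rw [Real.dist_eq, dist_eq_norm, NNReal.coe_one, one_mul, norm_sub_rev] at h
    have hx' : g x ≤ m := hx
    have hy' : m + r ≤ g y := hy
    linarith [le_abs_self (g y - g x)]
  have key1 := hcore hMdl hn hcov hA hB h1.le (by linarith [hreal A hA]) hBν hr hsep
  have hsub1 : ∀ θ : Euc n, ‖θ‖ = 1 →
      ∫⁻ x, ENNReal.ofReal (Real.exp (⟪x, θ⟫ ^ 2 / (1 : ℝ) ^ 2)) ∂μ ≤ 2 := by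
    simpa using hsub
  have key2 := Vale.Agent.P245.separation hρm hρ0 hmid hμ one_pos hsub1 hn (L := Λ) h1.le hB hA
    ((ENNReal.ofReal_le_ofReal (show Real.exp (-Λ) ≤ μ.real B from
      le_trans (Real.exp_le_exp.2 (by linarith)) hcon.le)).trans_eq (ofReal_measureReal))
    (by
      have e : (1 / 2 : ℝ≥0∞) = ENNReal.ofReal (1 / 2) := by
        rw [ENNReal.ofReal_div_of_pos two_pos, ENNReal.ofReal_one, ENNReal.ofReal_ofNat]
      rw [e, ENNReal.ofReal_le_iff_le_toReal (measure_ne_top _ _)]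
      exact hm)
    hr (fun x hx y hy => by rw [norm_sub_rev]; exact hsep y hy x hx)
  have hbound : r ^ 2 ≤ M * (P * Λ) := by
    rcases le_or_gt Λ P with h | h
    · refine key1.trans ?_
      calc C * Λ * ((Real.log n + 2) ^ 2 + Λ) ≤ C * Λ * (65 * P) :=
            mul_le_mul_of_nonneg_left (by linarith [log_bound hn]) (by positivity)
        _ = 65 * C * (P * Λ) := by ring
        _ ≤ _ := mul_le_mul_of_nonneg_right (le_max_left _ _) (by positivity)
    · refine key2.trans ?_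
      rw [one_pow, mul_one]
      refine mul_le_mul (le_max_right _ _) (max_le ?_ (le_mul_of_one_le_left (by linarith) hP1))
        (le_max_of_le_right (by linarith)) (by positivity)
      refine Real.sqrt_le_iff.2 ⟨by positivity, ?_⟩
      have hP3 : P ^ 3 = n := by
        rw [hP, ← Real.rpow_natCast, ← Real.rpow_mul (by linarith)]; norm_num
      calc (n : ℝ) * Λ = P ^ 2 * P * Λ := by rw [← hP3]; ring
        _ ≤ P ^ 2 * Λ * Λ := mul_le_mul_of_nonneg_right
            (mul_le_mul_of_nonneg_left h.le (sq_nonneg P)) (by linarith)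
        _ = _ := by ring
  have hM0 : 0 < M := lt_max_of_lt_right (by norm_num)
  have hP0 : 0 < P := by linarith
  have hr2 : r ^ 2 = 2 * (M * (P * Λ)) := by rw [hΛ]; field_simp
  have : 0 < M * (P * Λ) := by positivity
  linarith

/-- Gaussian concentration at scale `a² n^(1/3)`. -/
theorem conc_cuberoot : ∃ Kc : ℝ, 0 < Kc ∧ ∀ (n : ℕ) (ρ : Euc n → ℝ) (a : ℝ), 1 ≤ n → Measurable ρ →
    (∀ x, 0 ≤ ρ x) → (∀ x y, ρ x * ρ y ≤ ρ ((2 : ℝ)⁻¹ • (x + y)) ^ 2) →
    ∀ (μ : Measure (Euc n)) [IsProbabilityMeasure μ],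
    μ = volume.withDensity (fun x => ENNReal.ofReal (ρ x)) → 0 < a →
    (∀ θ : Euc n, ‖θ‖ = 1 → ∫⁻ x, ENNReal.ofReal (Real.exp (⟪x, θ⟫ ^ 2 / a ^ 2)) ∂μ ≤ 2) →
    ∀ g : Euc n → ℝ, LipschitzWith 1 g → ∀ m : ℝ, 1 / 2 ≤ μ.real {x | g x ≤ m} →
    ∀ r : ℝ, 0 ≤ r →
      μ.real {x | m + r ≤ g x}
        ≤ Real.exp (1 - r ^ 2 / (Kc * (a ^ 2 * (n : ℝ) ^ ((1 : ℝ) / 3)))) := by
  obtain ⟨Kc, hKc, h1⟩ := conc_one
  refine ⟨Kc, hKc, ?_⟩
  intro n ρ a hn hρm hρ0 hmid μ _ hμ ha hsuba g hg m hm r hr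
  have hsm : Measurable fun x : Euc n => a⁻¹ • x := by fun_prop
  have hsa : Measurable fun x : Euc n => a • x := by fun_prop
  set μ' := μ.map fun x : Euc n => a⁻¹ • x with hμ'
  have : IsProbabilityMeasure μ' := Measure.isProbabilityMeasure_map hsm.aemeasurable
  set ρ' := fun x : Euc n => a ^ n * ρ (a • x) with hρ'
  have hρ'm : Measurable ρ' := (hρm.comp hsa).const_mul _
  have hmap := Measure.map_addHaar_smul (volume : Measure (Euc n)) ha.ne'
  have e1 : μ' = volume.withDensity fun x => ENNReal.ofReal (ρ' x) := by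
    ext S hS
    rw [hμ', Measure.map_apply hsm hS, hμ, withDensity_apply _ (hsm hS), withDensity_apply _ hS,
      ← lintegral_indicator (hsm hS), ← lintegral_indicator hS]
    have h := lintegral_map (μ := (volume : Measure (Euc n)))
      (f := ((fun x : Euc n => a⁻¹ • x) ⁻¹' S).indicator fun x => ENNReal.ofReal (ρ x))
      (hρm.ennreal_ofReal.indicator (hsm hS)) hsa
    rw [hmap, lintegral_smul_measure, finrank_euclideanSpace_fin,
      abs_of_pos (by positivity : 0 < (a ^ n)⁻¹), smul_eq_mul] at h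
    have e : ∀ x, S.indicator (fun x => ENNReal.ofReal (ρ' x)) x = ENNReal.ofReal (a ^ n)
        * ((fun x : Euc n => a⁻¹ • x) ⁻¹' S).indicator (fun x => ENNReal.ofReal (ρ x)) (a • x) := by
      intro x
      have hx : a • x ∈ (fun x : Euc n => a⁻¹ • x) ⁻¹' S ↔ x ∈ S := by
        simp [smul_smul, ha.ne']
      by_cases hxS : x ∈ S
      · rw [indicator_of_mem hxS, indicator_of_mem (hx.2 hxS), hρ',
          ENNReal.ofReal_mul (by positivity)]
      · rw [indicator_of_notMem hxS, indicator_of_notMem (fun h => hxS (hx.1 h)), mul_zero]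
    simp only [e]
    rw [lintegral_const_mul' _ _ ENNReal.ofReal_ne_top, ← h, ← mul_assoc,
      ← ENNReal.ofReal_mul (by positivity), mul_inv_cancel₀ (by positivity), ENNReal.ofReal_one,
      one_mul]
  have e2 : ∀ x y, ρ' x * ρ' y ≤ ρ' ((2 : ℝ)⁻¹ • (x + y)) ^ 2 := fun x y => by
    simp only [hρ']
    rw [mul_mul_mul_comm, mul_pow, ← sq]
    refine mul_le_mul_of_nonneg_left ?_ (sq_nonneg _)
    rw [smul_comm a ((2 : ℝ)⁻¹), smul_add]
    exact hmid _ _
  have e3 : ∀ θ : Euc n, ‖θ‖ = 1 → ∫⁻ x, ENNReal.ofReal (Real.exp (⟪x, θ⟫ ^ 2)) ∂μ' ≤ 2 := by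
    intro θ hθ
    rw [hμ', lintegral_map (by fun_prop) hsm]
    refine le_of_eq_of_le (lintegral_congr fun x => ?_) (hsuba θ hθ)
    rw [real_inner_smul_left, mul_pow, inv_pow, div_eq_inv_mul]
  set g' := fun x : Euc n => a⁻¹ * g (a • x) with hg'
  have hgl : LipschitzWith 1 g' := LipschitzWith.of_dist_le_mul fun x y => by
    simp only [hg', Real.dist_eq, NNReal.coe_one, one_mul, ← mul_sub, abs_mul,
      abs_of_pos (inv_pos.2 ha)]
    have h := hg.dist_le_mul (a • x) (a • y)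
    rw [Real.dist_eq, dist_eq_norm, NNReal.coe_one, one_mul, ← smul_sub, norm_smul,
      Real.norm_eq_abs, abs_of_pos ha] at h
    rw [dist_eq_norm, inv_mul_le_iff₀ ha]
    exact h
  have hgm : Measurable g' := hgl.continuous.measurable
  have e4 : ∀ x, g' (a⁻¹ • x) = a⁻¹ * g x := fun x => by simp [hg', smul_smul, ha.ne']
  have hm' : 1 / 2 ≤ μ'.real {x | g' x ≤ a⁻¹ * m} := by
    rw [hμ', map_measureReal_apply hsm (measurableSet_le hgm measurable_const)]
    refine hm.trans (measureReal_mono fun x hx => ?_)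
    show g' (a⁻¹ • x) ≤ a⁻¹ * m
    rw [e4]
    exact mul_le_mul_of_nonneg_left hx (inv_pos.2 ha).le
  have h := h1 hn hρ'm (fun x => mul_nonneg (by positivity) (hρ0 _)) e2 e1 e3 g' hgl _ hm'
    (a⁻¹ * r) (mul_nonneg (inv_pos.2 ha).le hr)
  rw [hμ', map_measureReal_apply hsm (measurableSet_le measurable_const hgm)] at h
  refine ((measureReal_mono fun x hx => ?_).trans h).trans (le_of_eq ?_)
  · show a⁻¹ * m + a⁻¹ * r ≤ g' (a⁻¹ • x)
    rw [e4, ← mul_add]
    exact mul_le_mul_of_nonneg_left hx (inv_pos.2 ha).le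
  · congr 2
    field_simp

/-- The logarithmic Sobolev inequality with constant `O(a² n^(1/3))`. -/
theorem lsi_cuberoot :
    ∃ C : ℝ, 0 < C ∧ ∀ (n : ℕ) (ρ : Euc n → ℝ) (a : ℝ), Measurable ρ → (∀ x, 0 ≤ ρ x) →
      (∀ x y, ρ x * ρ y ≤ ρ ((2 : ℝ)⁻¹ • (x + y)) ^ 2) →
      ∀ (μ : Measure (Euc n)), μ = volume.withDensity (fun x => ENNReal.ofReal (ρ x)) →
      μ Set.univ = 1 → 0 < a →
      (∀ θ : Euc n, ‖θ‖ = 1 → ∫⁻ x, ENNReal.ofReal (Real.exp (⟪x, θ⟫ ^ 2 / a ^ 2)) ∂μ ≤ 2) →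
      ∀ f : Euc n → ℝ, ContDiff ℝ ∞ f → HasCompactSupport f →
        (∫ x, f x ^ 2 * Real.log (f x ^ 2) ∂μ) - (∫ x, f x ^ 2 ∂μ) * Real.log (∫ x, f x ^ 2 ∂μ)
          ≤ C * a ^ 2 * (n : ℝ) ^ ((1 : ℝ) / 3) * ∫ x, ‖fderiv ℝ f x‖ ^ 2 ∂μ := by
  obtain ⟨C, hC, hlsi⟩ := lsi_of_conc
  obtain ⟨Kc, hKc, hconc⟩ := conc_cuberoot
  refine ⟨C * (4 * Kc), by positivity, ?_⟩
  intro n ρ a hρm hρ0 hmid μ hμ hμ1 ha hsub f hf hfs
  haveI : IsProbabilityMeasure μ := ⟨hμ1⟩
  rcases Nat.eq_zero_or_pos n with rfl | hn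
  · have e : ∀ x : Euc 0, f x = f 0 := fun x => by rw [Subsingleton.elim x 0]
    have e1 : ∫ x, f x ^ 2 * Real.log (f x ^ 2) ∂μ = f 0 ^ 2 * Real.log (f 0 ^ 2) :=
      (integral_congr_ae (g := fun _ : Euc 0 => f 0 ^ 2 * Real.log (f 0 ^ 2))
        (Eventually.of_forall fun x => by show _ = f 0 ^ 2 * Real.log (f 0 ^ 2); rw [← e x])).trans
        (by rw [integral_const, probReal_univ, one_smul])
    have e2 : ∫ x, f x ^ 2 ∂μ = f 0 ^ 2 :=
      (integral_congr_ae (g := fun _ : Euc 0 => f 0 ^ 2)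
        (Eventually.of_forall fun x => by show _ = f 0 ^ 2; rw [← e x])).trans
        (by rw [integral_const, probReal_univ, one_smul])
    rw [e1, e2, sub_self]
    exact mul_nonneg (by positivity) (integral_nonneg fun x => sq_nonneg _)
  have hn0 : (0 : ℝ) < n := by exact_mod_cast hn
  have hK : 0 < 4 * (Kc * (a ^ 2 * (n : ℝ) ^ ((1 : ℝ) / 3))) := by positivity
  refine (hlsi hK (conc_of_median fun g hg m hm r hr =>
    hconc n ρ a hn hρm hρ0 hmid μ hμ ha hsub g hg m hm r hr)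
    (postAll_of_midLC hρm hρ0 hmid hμ (by positivity)) f hf hfs).trans (le_of_eq ?_)
  ring

end Vale.Agent.P245.SL
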